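import Crest.Agent.R248.PathExists
import Crest.Agent.R248.Core
import Mathlib
import Crest.Prelude.Def_GlobularCoherator

-- ▼ part R248/Adj
section

/-! Boundary adjunction for path objects; `k₀` is invertible in the low range; cofibrancy of the
members of a cylinder sequence. -/

set_option autoImplicit false

namespace Crest.Agent.R248

open CategoryTheory CategoryTheory.Limits Opposite
open Crest.GeometryTopology.Coherator

universe v w

variable {M : Type w} [Category.{v} M] [HasPushouts M] [HasInitial M] {Fr : Shape ⥤ M}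

/-- maps `bd i ⟶ P X` correspond to maps `B i ⟶ X` -/
theorem PathOn.exists_adj {C : CylSeq Fr} (T : PathOn C) (i : ℕ) {X : M}
    (u : bd Fr i ⟶ T.P.obj X) :
    ∃ û : C.B i ⟶ X, (∀ g : glob Fr i ⟶ T.P.obj X, bdι Fr i ≫ g = u ↔ C.δ i ≫ T.e i X g = û) ∧
      C.k₀ i ≫ û = u ≫ T.ev₀.app X ∧ C.k₁ i ≫ û = u ≫ T.ev₁.app X := by
  induction i with
  | zero =>
    exact ⟨C.init.to X, fun g => ⟨fun _ => C.init.hom_ext _ _, fun _ => (bdInit Fr).hom_ext _ _⟩,
      (bdInit Fr).hom_ext _ _, (bdInit Fr).hom_ext _ _⟩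
  | succ i ih =>
    obtain ⟨û', h', -, -⟩ := ih (bdι Fr i ≫ bdInl Fr i ≫ u)
    have e1 : C.δ i ≫ T.e i X (bdInl Fr i ≫ u) = û' := (h' _).1 rfl
    have e2 : C.δ i ≫ T.e i X (bdInr Fr i ≫ u) = û' := (h' _).1 (by
      rw [← Category.assoc, ← (bd_sq Fr i).w, Category.assoc])
    refine ⟨(C.sq i).desc (T.e i X (bdInl Fr i ≫ u)) (T.e i X (bdInr Fr i ≫ u)) (e1.trans e2.symm),
      ?_, ?_, ?_⟩
    · intro g
      constructor
      · intro hg
        apply (C.sq i).hom_ext
        · rw [(C.sq i).inl_desc, ← hg, ← Category.assoc (bdInl Fr i), bdInl_bdι, T.e_s]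
          rw [CylSeq.s, Category.assoc]
        · rw [(C.sq i).inr_desc, ← hg, ← Category.assoc (bdInr Fr i), bdInr_bdι, T.e_t]
          rw [CylSeq.t, Category.assoc]
      · intro hg
        apply (bd_sq Fr i).hom_ext
        · apply (T.e i X).injective
          rw [← Category.assoc, bdInl_bdι, T.e_s, CylSeq.s, Category.assoc, hg,
            (C.sq i).inl_desc]
        · apply (T.e i X).injective
          rw [← Category.assoc, bdInr_bdι, T.e_t, CylSeq.t, Category.assoc, hg,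
            (C.sq i).inr_desc]
    · apply (bd_sq Fr i).hom_ext
      · rw [← Category.assoc, C.inl_k₀, Category.assoc, (C.sq i).inl_desc, ← T.e_ev₀,
          Category.assoc]
      · rw [← Category.assoc, C.inr_k₀, Category.assoc, (C.sq i).inr_desc, ← T.e_ev₀,
          Category.assoc]
    · apply (bd_sq Fr i).hom_ext
      · rw [← Category.assoc, C.inl_k₁, Category.assoc, (C.sq i).inl_desc, ← T.e_ev₁,
          Category.assoc]
      · rw [← Category.assoc, C.inr_k₁, Category.assoc, (C.sq i).inr_desc, ← T.e_ev₁,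
          Category.assoc]


namespace CylSeq

variable (C : CylSeq Fr)

/-- if nothing moves below `j` then the boundaries in dimension `j` coincide -/
theorem isIso_k₀ (j : ℕ) (low : ∀ i, i < j → C.Low i) :
    IsIso (C.k₀ j) ∧ C.k₁ j = C.k₀ j := by
  induction j with
  | zero =>
    have : C.k₀ 0 = ((bdInit Fr).uniqueUpToIso C.init).hom := (bdInit Fr).hom_ext _ _
    refine ⟨?_, (bdInit Fr).hom_ext _ _⟩
    rw [this]
    infer_instance
  | succ j ih =>
    obtain ⟨hk, hk'⟩ := ih (fun i hi => low i (by omega))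
    obtain ⟨hi, hi'⟩ := low j (by omega)
    refine ⟨?_, ?_⟩
    · have h2 : IsPushout (bdι Fr j) (bdι Fr j) (C.i₀ j ≫ C.inl j) (C.i₀ j ≫ C.inr j) :=
        (C.sq j).of_iso' (asIso (C.k₀ j)) (asIso (C.i₀ j)) (asIso (C.i₀ j)) (Iso.refl _)
          (C.k₀_δ j) (C.k₀_δ j) (by simp) (by simp)
      have h3 : C.k₀ (j + 1) = ((bd_sq Fr j).isoIsPushout _ _ h2).hom := by
        apply (bd_sq Fr j).hom_ext
        · rw [C.inl_k₀, IsPushout.inl_isoIsPushout_hom]
        · rw [C.inr_k₀, IsPushout.inr_isoIsPushout_hom]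
      rw [h3]
      infer_instance
    · apply (bd_sq Fr j).hom_ext
      · rw [C.inl_k₀, C.inl_k₁, hi']
      · rw [C.inr_k₀, C.inr_k₁, hi']


/-- `δ j` is a cofibration -/
theorem cof_δ {n : ℕ} {κ lev : ℕ∞} (hC : C.IsCyl n κ) (j : ℕ) (hj : (j : ℕ∞) ≤ lev + 1)
    (hj' : (n : ℕ∞) ≤ j → (j : ℕ∞) ≤ κ → (j : ℕ∞) ≤ lev) : Cof Fr lev (C.δ j) := by
  rcases lt_or_ge j n with hjn | hjn
  · have hk := (C.isIso_k₀ j (fun i hi => hC.low i (by omega))).1
    have h : C.δ j = inv (C.k₀ j) ≫ bdι Fr j ≫ C.i₀ j := by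
      rw [← C.k₀_δ, IsIso.inv_hom_id_assoc]
    rw [h]
    have := (hC.low j hjn).1
    exact (Cof.of_isIso _).comp ((cof_bdι hj).comp (Cof.of_isIso _))
  · rw [← C.oB_q]
    refine (Cof.cobase (C.sqO j) (cof_bdι hj)).comp ?_
    by_cases hκ : (j : ℕ∞) ≤ κ
    · have hm : C.Mid j := by
        rcases hjn.lt_or_eq with h | h
        · exact hC.mid j h hκ
        · subst h
          exact ⟨C.oD n, hC.bot hκ⟩
      obtain ⟨w, -, θ, hsq, -⟩ := hm
      exact Cof.cobase hsq (cof_sg (hj' (by exact_mod_cast hjn) hκ))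
    · have hh : IsPushout (C.k₁ j ≫ C.oB j) (bdι Fr j) (C.q j) (C.i₁ j) :=
        hC.high j (not_le.mp hκ)
      exact Cof.cobase hh (cof_bdι hj)

theorem cofibrant_B {n : ℕ} {κ lev : ℕ∞} (hC : C.IsCyl n κ) (j : ℕ) (hj : (j : ℕ∞) ≤ lev + 1) :
    Cofibrant Fr lev (C.B j) := by
  induction j with
  | zero =>
    have : IsIso (initial.to (C.B 0)) :=
      (initialIsInitial.uniqueUpToIso C.init).isIso_hom
    exact Cof.of_isIso _
  | succ j ih =>
    have h1 : (j : ℕ∞) ≤ lev := by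
      have h2 : (j : ℕ∞) + 1 ≤ lev + 1 := by exact_mod_cast hj
      exact (ENat.add_le_add_iff_right (by simp)).1 h2
    have hδ : Cof Fr lev (C.δ j) := C.cof_δ hC j (h1.trans le_self_add) (fun _ _ => h1)
    exact ((ih (h1.trans le_self_add)).of_cof hδ).of_cof (Cof.cobase (C.sq j) hδ)

end CylSeq

end Crest.Agent.R248
end

-- ▼ part R248/PathUse
section

/-! TASK PathUse: section of `ev₀`, deformation, `po_high`. -/

set_option autoImplicit false

namespace Crest.Agent.R248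

open CategoryTheory CategoryTheory.Limits Opposite
open Crest.GeometryTopology.Coherator

universe v w

variable {M : Type w} [Category.{v} M] [HasPushouts M] [HasInitial M] {Fr : Shape ⥤ M}

namespace CylSeq

variable (C : CylSeq Fr)



/-- extension in a `Low` dimension -/
theorem ext_low {j : ℕ} (h : ∀ i, i ≤ j → C.Low i) {X : M} (β : C.B j ⟶ X) (c : glob Fr j ⟶ X)
    (hβ : C.k₀ j ≫ β = bdι Fr j ≫ c) :
    ∃ a : C.A j ⟶ X, C.δ j ≫ a = β ∧ C.i₀ j ≫ a = c ∧ C.i₁ j ≫ a = c := by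
  have i1 : IsIso (C.k₀ j) := (C.isIso_k₀ j (fun i hi => h i (by omega))).1
  have i2 : IsIso (C.i₀ j) := (h j le_rfl).1
  refine ⟨inv (C.i₀ j) ≫ c, ?_, by simp, ?_⟩
  · rw [← cancel_epi (C.k₀ j), hβ, ← Category.assoc, C.k₀_δ, Category.assoc,
      IsIso.hom_inv_id_assoc]
  · rw [(h j le_rfl).2]; simp

/-- extension in a `MidWith` dimension, with a given top cell -/
theorem ext_mid {j : ℕ} {w : glob Fr j ⟶ C.O j} (h : C.MidWith j w) {X : M} (β : C.B j ⟶ X)
    (c : glob Fr j ⟶ X) (hβ : C.k₀ j ≫ β = bdι Fr j ≫ c) (t : glob Fr (j + 1) ⟶ X)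
    (ht : w ≫ (C.sqO j).desc β c hβ = sg Fr j ≫ t) :
    ∃ a : C.A j ⟶ X, C.δ j ≫ a = β ∧ C.i₀ j ≫ a = c ∧ C.i₁ j ≫ a = tg Fr j ≫ t := by
  obtain ⟨_, θ, sq, hθ⟩ := h
  refine ⟨sq.desc ((C.sqO j).desc β c hβ) t ht, ?_, ?_, ?_⟩
  · rw [← C.oB_q, Category.assoc, sq.inl_desc, (C.sqO j).inl_desc]
  · rw [← C.oD_q, Category.assoc, sq.inl_desc, (C.sqO j).inr_desc]
  · rw [← hθ, Category.assoc, sq.inr_desc]

/-- extension in a `High` dimension -/
theorem ext_high {j : ℕ} (h : C.High j) {X : M} (β : C.B j ⟶ X)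
    (c : glob Fr j ⟶ X) (hβ : C.k₀ j ≫ β = bdι Fr j ≫ c) (c' : glob Fr j ⟶ X)
    (hβ' : C.k₁ j ≫ β = bdι Fr j ≫ c') :
    ∃ a : C.A j ⟶ X, C.δ j ≫ a = β ∧ C.i₀ j ≫ a = c ∧ C.i₁ j ≫ a = c' := by
  have sq : IsPushout (C.k₁ j ≫ C.oB j) (bdι Fr j) (C.q j) (C.i₁ j) := h
  have e : (C.k₁ j ≫ C.oB j) ≫ (C.sqO j).desc β c hβ = bdι Fr j ≫ c' := by
    rw [Category.assoc, (C.sqO j).inl_desc, hβ']
  refine ⟨sq.desc ((C.sqO j).desc β c hβ) c' e, ?_, ?_, ?_⟩
  · rw [← C.oB_q, Category.assoc, sq.inl_desc, (C.sqO j).inl_desc]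
  · rw [← C.oD_q, Category.assoc, sq.inl_desc, (C.sqO j).inr_desc]
  · exact sq.inr_desc _ _ _



end CylSeq

/-- `ev₀` has the RLP against generating cofibrations of level `κ` (uses the transports `w_j`, `j ≤ κ`
and `TR (κ+1)` from `CylSeq.tr_of`). -/
theorem rlp_ev₀ (S : Setting Fr) (C : CylSeq Fr) {n : ℕ} {κ : ℕ∞} (hC : C.IsCyl n κ)
    (hTR : ∀ j : ℕ, n < j → (j : ℕ∞) ≤ κ + 1 → C.TR j) (T : PathOn C) (X : M) :
    (GenCof Fr κ).rlp (T.ev₀.app X) := by
  suffices H : ∀ j : ℕ, (j : ℕ∞) ≤ κ + 1 → HasLiftingProperty (bdι Fr j) (T.ev₀.app X) by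
    intro _ _ _ hg
    cases hg with
    | mk j hj => exact H j hj
  intro j hj
  refine ⟨fun {f c} sq => ?_⟩
  obtain ⟨β, h1, h2, h3⟩ := T.exists_adj j f
  have hβ : C.k₀ j ≫ β = bdι Fr j ≫ c := by rw [h2]; exact sq.w
  have key : ∃ a : C.A j ⟶ X, C.δ j ≫ a = β ∧ C.i₀ j ≫ a = c := by
    obtain ⟨e, he1, he2⟩ := exists_unit S j
    have hmid : ∀ w : glob Fr j ⟶ C.O j, C.MidWith j w →
        ∃ a : C.A j ⟶ X, C.δ j ≫ a = β ∧ C.i₀ j ≫ a = c := by
      intro w hw
      obtain ⟨a, ha1, ha2, _⟩ := C.ext_mid hw β c hβ (e ≫ w ≫ (C.sqO j).desc β c hβ)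
        (by rw [← Category.assoc, he1, Category.id_comp])
      exact ⟨a, ha1, ha2⟩
    rcases lt_trichotomy j n with hjn | hjn | hjn
    · obtain ⟨a, ha1, ha2, _⟩ := C.ext_low (fun i hi => hC.low i (by omega)) β c hβ
      exact ⟨a, ha1, ha2⟩
    · subst hjn
      by_cases hjk : (j : ℕ∞) ≤ κ
      · exact hmid _ (hC.bot hjk)
      · obtain ⟨a, ha1, ha2, _⟩ := C.ext_high (hC.high j (not_le.1 hjk)) β c hβ c
          (by rw [(C.isIso_k₀ j (fun i hi => hC.low i hi)).2, hβ])
        exact ⟨a, ha1, ha2⟩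
    · by_cases hjk : (j : ℕ∞) ≤ κ
      · obtain ⟨w, hw⟩ := hC.mid j hjn hjk
        exact hmid w hw
      · obtain ⟨w, hw⟩ := hTR j hjn hj
        obtain ⟨a, ha1, ha2, _⟩ := C.ext_high (hC.high j (not_le.1 hjk)) β c hβ
          (w ≫ (C.sqO j).desc β c hβ) (by
            rw [← Category.assoc, hw, Category.assoc, (C.sqO j).inl_desc])
        exact ⟨a, ha1, ha2⟩
  obtain ⟨a, ha1, ha2⟩ := key
  exact ⟨⟨⟨(T.e j X).symm a, (h1 _).2 (by rw [Equiv.apply_symm_apply, ha1]), by
    rw [T.e_ev₀, Equiv.apply_symm_apply, ha2]⟩⟩⟩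

/-- sections of maps with the lifting property over cofibrant objects -/
theorem Cofibrant.exists_lift {κ : ℕ∞} {X Y B : M} (hX : Cofibrant Fr κ X) (p : Y ⟶ B)
    (hp : (GenCof Fr κ).rlp p) (g : X ⟶ B) : ∃ θ : X ⟶ Y, θ ≫ p = g := by
  have := hX p hp
  have sq : CommSq (initial.to Y) (initial.to X) p g := ⟨initialIsInitial.hom_ext _ _⟩
  exact ⟨sq.lift, sq.fac_right⟩

/-- hence sections over cofibrant objects -/
theorem exists_section_ev₀ (S : Setting Fr) (C : CylSeq Fr) {n : ℕ} {κ : ℕ∞} (hC : C.IsCyl n κ)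
    (hTR : ∀ j : ℕ, n < j → (j : ℕ∞) ≤ κ + 1 → C.TR j) (T : PathOn C) (X : M)
    (hX : Cofibrant Fr κ X) : ∃ θ : X ⟶ T.P.obj X, θ ≫ T.ev₀.app X = 𝟙 X :=
  hX.exists_lift (T.ev₀.app X) (rlp_ev₀ S C hC hTR T X) (𝟙 X)

theorem enat_le_of_lt {i j : ℕ} {κ : ℕ∞} (h : i < j) (hj : (j : ℕ∞) ≤ κ + 1) : (i : ℕ∞) ≤ κ := by
  induction κ using ENat.recTopCoe with
  | top => exact le_top
  | coe k =>
    have : j ≤ k + 1 := by exact_mod_cast hj
    have : i ≤ k := by omega
    exact_mod_cast this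

theorem CylSeq.IsCyl.tr (S : Setting Fr) (C : CylSeq Fr) {n : ℕ} {κ : ℕ∞} (hC : C.IsCyl n κ)
    (hPO : ∀ k m : ℕ, n ≤ k → (k : ℕ∞) ≤ κ → n < m → PO Fr k m) (j : ℕ) (hj : n < j)
    (hjk : (j : ℕ∞) ≤ κ + 1) : C.TR j :=
  C.tr_of S hC.low (hC.bot (enat_le_of_lt hj hjk)) hj
    (fun i hi hij => hC.mid i hi (enat_le_of_lt hij hjk))
    (fun m hm => hPO (j - 1) m (by omega) (enat_le_of_lt (by omega) hjk) hm)

theorem CylSeq.IsCyl.contr_O' (S : Setting Fr) (C : CylSeq Fr) {n : ℕ} {κ : ℕ∞} (hC : C.IsCyl n κ)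
    (hPO : ∀ k m : ℕ, n ≤ k → (k : ℕ∞) ≤ κ → n < m → PO Fr k m) (j : ℕ) (hj : n < j)
    (hjk : (j : ℕ∞) ≤ κ) : Contr Fr j (C.O j) :=
  C.contr_O S hC.low (hC.bot (le_trans (by exact_mod_cast hj.le) hjk)) hj (Nat.le_succ j) hj
    (fun i hi hij => hC.mid i hi (le_trans (by exact_mod_cast hij.le) hjk))
    (fun m hm => hPO j m hj.le hjk hm)

/-- right whiskering: `b ~ b'` implies `b ∘ a ~ b' ∘ a` -/
theorem CompOp.whiskR (S : Setting Fr) {n : ℕ} (c : CompOp Fr n) {X : M}
    {a b b' : glob Fr (n + 1) ⟶ X} (h : tg Fr n ≫ a = sg Fr n ≫ b)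
    (h' : tg Fr n ≫ a = sg Fr n ≫ b') (hs : Step Fr b b') : Step Fr (c.ap a b h) (c.ap a b' h') := by
  obtain ⟨α, rfl, rfl⟩ := hs
  have hn : n < n + 2 := by omega
  have hsq := sq_sh2 S (a := n + 1) (h := n + 2) (Nat.lt_succ_self n) hn
  have e2 : Fr.map (Shape.faceMap hn false) = sg Fr n ≫ sg Fr (n + 1) := by
    unfold sg Shape.σ
    rw [← Fr.map_comp, faceMap_comp]
  have e2' : Fr.map (Shape.faceMap hn false) = sg Fr n ≫ tg Fr (n + 1) := by
    rw [e2, sg_sg]
  set L := Fr.map ((Shape.globe (n + 1)).inLeft n (n + 2) (Nat.lt_succ_self n) hn) with hL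
  set R := Fr.map ((Shape.globe (n + 1)).inRight n (n + 2) (Nat.lt_succ_self n) hn) with hR
  have w1 : tg Fr n ≫ L = sg Fr n ≫ (sg Fr (n + 1) ≫ R) := by
    rw [← Category.assoc, ← e2]; exact hsq.w
  have w2 : tg Fr n ≫ L = sg Fr n ≫ (tg Fr (n + 1) ≫ R) := by
    rw [← Category.assoc, ← e2']; exact hsq.w
  have e : Fr.map (Shape.faceMap (Nat.lt_succ_self n) true) ≫ a =
      Fr.map (Shape.faceMap hn false) ≫ α := by
    rw [e2, Category.assoc]; exact h
  have key := S.step (k := n + 1) (sh2 (n + 1) n (n + 2) (Nat.lt_succ_self n) hn)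
    (by rw [dim_sh2]; omega) (hsq.desc a α e)
    (c.ap L (sg Fr (n + 1) ≫ R) w1) (c.ap L (tg Fr (n + 1) ≫ R) w2)
    (by
      apply bdι_succ_ext
      · rw [c.sg_ap, c.sg_ap]
      · rw [c.tg_ap, c.tg_ap, ← Category.assoc, ← Category.assoc, tg_sg])
  rw [c.ap_comp, c.ap_comp] at key
  convert key using 2
  · exact (hsq.inl_desc _ _ _).symm
  · rw [Category.assoc, hsq.inr_desc]
  · exact (hsq.inl_desc _ _ _).symm
  · rw [Category.assoc, hsq.inr_desc]

/-- inverse law -/
theorem CompOp.inv_ap (S : Setting Fr) {n : ℕ} (c : CompOp Fr n)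
    (iv : glob Fr (n + 1) ⟶ glob Fr (n + 1)) (hi1 : sg Fr n ≫ iv = tg Fr n)
    (hi2 : tg Fr n ≫ iv = sg Fr n)
    (e : glob Fr (n + 1) ⟶ glob Fr n) (he1 : sg Fr n ≫ e = 𝟙 _) (he2 : tg Fr n ≫ e = 𝟙 _) {X : M}
    (l : glob Fr (n + 1) ⟶ X) (h : tg Fr n ≫ (iv ≫ l) = sg Fr n ≫ l) :
    Step Fr (c.ap (iv ≫ l) l h) (e ≫ tg Fr n ≫ l) := by
  have w3 : tg Fr n ≫ iv = sg Fr n ≫ 𝟙 (glob Fr (n + 1)) := by rw [Category.comp_id, hi2]
  have s2 := S.step (k := n + 1) (Shape.globe (n + 1)) (by rw [dim_globe]; omega) l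
    (c.ap iv (𝟙 _) w3) (e ≫ tg Fr n) (by
      apply bdι_succ_ext
      · rw [c.sg_ap, hi1, ← Category.assoc, he1, Category.id_comp]
      · rw [c.tg_ap, Category.comp_id, ← Category.assoc, he2, Category.id_comp])
  rw [c.ap_comp] at s2
  simpa only [Category.id_comp, Category.assoc] using s2

/-- division for a given composition operation -/
theorem CompOp.exists_div (S : Setting Fr) {n : ℕ} (c : CompOp Fr n) {X : M}
    (l f : glob Fr (n + 1) ⟶ X) (hlf : sg Fr n ≫ l = sg Fr n ≫ f) :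
    ∃ (g : glob Fr (n + 1) ⟶ X) (h : tg Fr n ≫ l = sg Fr n ≫ g),
      tg Fr n ≫ g = tg Fr n ≫ f ∧ Step Fr (c.ap l g h) f := by
  obtain ⟨iv, hi1, hi2⟩ := exists_inv S n
  obtain ⟨e, he1, he2⟩ := exists_unit S n
  have w1 : tg Fr n ≫ (iv ≫ l) = sg Fr n ≫ f := by rw [← Category.assoc, hi2, hlf]
  have w2 : tg Fr n ≫ l = sg Fr n ≫ (iv ≫ l) := by rw [← Category.assoc, hi1]
  refine ⟨c.ap (iv ≫ l) f w1, by rw [c.sg_ap, w2], c.tg_ap _ _ _, ?_⟩
  refine ((c.assoc S w2 w1).symm S).trans S ?_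
  have w3 : tg Fr n ≫ 𝟙 (glob Fr (n + 1)) = sg Fr n ≫ iv := by rw [Category.comp_id, hi1]
  have s2 := S.step (k := n + 1) (Shape.globe (n + 1)) (by rw [dim_globe]; omega) l
    (c.ap (𝟙 _) iv w3) (e ≫ sg Fr n) (by
      apply bdι_succ_ext
      · rw [c.sg_ap, Category.comp_id, ← Category.assoc, he1, Category.id_comp]
      · rw [c.tg_ap, hi2, ← Category.assoc, he2, Category.id_comp])
  rw [c.ap_comp] at s2
  simp only [Category.id_comp] at s2
  have w4 : tg Fr n ≫ ((e ≫ sg Fr n) ≫ l) = sg Fr n ≫ f := by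
    rw [← Category.assoc, ← Category.assoc, he2, Category.id_comp, hlf]
  refine (c.whiskL S (b := f) _ w4 s2).trans S ?_
  have w5 : tg Fr n ≫ (e ≫ sg Fr n) = sg Fr n ≫ 𝟙 (glob Fr (n + 1)) := by
    rw [← Category.assoc, he2, Category.id_comp, Category.comp_id]
  have s3 := S.step (k := n + 1) (Shape.globe (n + 1)) (by rw [dim_globe]; omega) f
    (c.ap (e ≫ sg Fr n) (𝟙 _) w5) (𝟙 _) (by
      apply bdι_succ_ext
      · rw [c.sg_ap, Category.comp_id, ← Category.assoc, he1, Category.id_comp]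
      · rw [c.tg_ap])
  rw [c.ap_comp] at s3
  simp only [Category.id_comp] at s3
  convert s3 using 2
  rw [Category.assoc, Category.assoc, hlf]

/-- the key cell: an `(n+1)`-cell of the path object over `b : a0 → a0'` and the unit of `a1`, with
prescribed source. -/
theorem exists_newCell (S : Setting Fr) (C : CylSeq Fr) {n : ℕ} {κ : ℕ∞}
    (hC : C.IsCyl n κ) (hPO : ∀ k m : ℕ, n ≤ k → (k : ℕ∞) ≤ κ → n < m → PO Fr k m) {Y : M}
    (Aθ : C.A n ⟶ Y) (a0 a1 : glob Fr n ⟶ Y) (hA0 : C.i₀ n ≫ Aθ = a0) (hA1 : C.i₁ n ≫ Aθ = a1)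
    (b : glob Fr (n + 1) ⟶ Y) (hb0 : sg Fr n ≫ b = a0)
    (e : glob Fr (n + 1) ⟶ glob Fr n) (he : sg Fr n ≫ e = 𝟙 _) (he' : tg Fr n ≫ e = 𝟙 _) :
    ∃ Aβ : C.A (n + 1) ⟶ Y, C.s n ≫ Aβ = Aθ ∧ C.i₀ (n + 1) ≫ Aβ = b ∧
      C.i₁ (n + 1) ≫ Aβ = e ≫ a1 := by
  have hHk : C.k₀ n ≫ C.δ n ≫ Aθ = bdι Fr n ≫ tg Fr n ≫ b := by
    rw [← Category.assoc, C.k₀_δ, Category.assoc, hA0, ← hb0, ← Category.assoc, bdι_sg,
      Category.assoc]
  have hHk1 : C.k₁ n ≫ C.δ n ≫ Aθ = bdι Fr n ≫ a1 := by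
    rw [← Category.assoc, C.k₁_δ, Category.assoc, hA1]
  -- the boundary of the new path from the target cell
  have bdy : ∀ (AH : C.A n ⟶ Y) (hAHδ : C.δ n ≫ AH = C.δ n ≫ Aθ) (_ : C.i₀ n ≫ AH = tg Fr n ≫ b)
      (_ : C.i₁ n ≫ AH = a1),
      C.k₀ (n + 1) ≫ (C.sq n).desc Aθ AH hAHδ.symm = bdι Fr (n + 1) ≫ b ∧
      C.k₁ (n + 1) ≫ (C.sq n).desc Aθ AH hAHδ.symm = bdι Fr (n + 1) ≫ e ≫ a1 := by
    intro AH hAHδ hAH0 hAH1
    constructor
    · apply (bd_sq Fr n).hom_ext
      · rw [← Category.assoc, C.inl_k₀, Category.assoc, (C.sq n).inl_desc, hA0,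
          ← Category.assoc, bdInl_bdι, hb0]
      · rw [← Category.assoc, C.inr_k₀, Category.assoc, (C.sq n).inr_desc, hAH0,
          ← Category.assoc, bdInr_bdι]
    · apply (bd_sq Fr n).hom_ext
      · rw [← Category.assoc, C.inl_k₁, Category.assoc, (C.sq n).inl_desc, hA1,
          ← Category.assoc (bdInl Fr n), bdInl_bdι, ← Category.assoc, he, Category.id_comp]
      · rw [← Category.assoc, C.inr_k₁, Category.assoc, (C.sq n).inr_desc, hAH1,
          ← Category.assoc (bdInr Fr n), bdInr_bdι, ← Category.assoc, he', Category.id_comp]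
  by_cases hnκ : (n : ℕ∞) ≤ κ
  swap
  · -- everything is `High`
    obtain ⟨AH, h1, h2, h3⟩ := C.ext_high (hC.high n (not_le.1 hnκ)) (C.δ n ≫ Aθ)
      (tg Fr n ≫ b) hHk a1 hHk1
    obtain ⟨hk0, hk1⟩ := bdy AH h1 h2 h3
    have hh : κ < ((n + 1 : ℕ) : ℕ∞) :=
      lt_of_lt_of_le (not_le.1 hnκ) (by exact_mod_cast Nat.le_succ n)
    obtain ⟨Aβ, q1, q2, q3⟩ := C.ext_high (hC.high (n + 1) hh) _ b hk0 (e ≫ a1) hk1
    exact ⟨Aβ, by unfold CylSeq.s; rw [Category.assoc, q1, (C.sq n).inl_desc], q2, q3⟩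
  obtain ⟨c⟩ := nonempty_compOp S n
  obtain ⟨iv, hi1, hi2⟩ := exists_inv S n
  obtain ⟨_, θn, sqn, hθn⟩ := hC.bot hnκ
  have hsgθ : sg Fr n ≫ θn = C.i₀ n := by rw [← sqn.w, C.oD_q]
  set th : glob Fr (n + 1) ⟶ Y := θn ≫ Aθ with hth
  have hth0 : sg Fr n ≫ th = a0 := by rw [hth, ← Category.assoc, hsgθ, hA0]
  have hth1 : tg Fr n ≫ th = a1 := by rw [hth, ← Category.assoc, hθn, hA1]
  -- the target cell of the new path
  obtain ⟨H', hH'1, hH'2, hH'3⟩ := c.exists_div S b th (by rw [hb0, hth0])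
  set xH : C.O n ⟶ Y := (C.sqO n).desc (C.δ n ≫ Aθ) (tg Fr n ≫ b) hHk with hxH
  have hxH' : C.oD n ≫ xH = sg Fr n ≫ H' := by rw [hxH, (C.sqO n).inr_desc, hH'1]
  set AH : C.A n ⟶ Y := sqn.desc xH H' hxH' with hAH
  have hAH0 : C.i₀ n ≫ AH = tg Fr n ≫ b := by
    rw [← C.oD_q, Category.assoc, hAH, sqn.inl_desc, hxH, (C.sqO n).inr_desc]
  have hAHθ : θn ≫ AH = H' := by rw [hAH, sqn.inr_desc]
  have hAH1 : C.i₁ n ≫ AH = a1 := by
    rw [← hθn, Category.assoc, hAHθ, hH'2, hth1]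
  have hAHδ : C.δ n ≫ AH = C.δ n ≫ Aθ := by
    rw [← C.oB_q, Category.assoc, hAH, sqn.inl_desc, hxH, (C.sqO n).inl_desc, C.oB_q]
  obtain ⟨hk0, hk1⟩ := bdy AH hAHδ hAH0 hAH1
  set Bβ : C.B (n + 1) ⟶ Y := (C.sq n).desc Aθ AH hAHδ.symm with hBβ
  have hBl : C.inl n ≫ Bβ = Aθ := (C.sq n).inl_desc _ _ _
  have hBr : C.inr n ≫ Bβ = AH := (C.sq n).inr_desc _ _ _
  suffices key : ∃ Aβ : C.A (n + 1) ⟶ Y, C.δ (n + 1) ≫ Aβ = Bβ ∧ C.i₀ (n + 1) ≫ Aβ = b ∧
      C.i₁ (n + 1) ≫ Aβ = e ≫ a1 by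
    obtain ⟨Aβ, q1, q2, q3⟩ := key
    exact ⟨Aβ, by unfold CylSeq.s; rw [Category.assoc, q1, hBl], q2, q3⟩
  by_cases hn : ((n + 1 : ℕ) : ℕ∞) ≤ κ
  · obtain ⟨w, hw⟩ := hC.mid (n + 1) (Nat.lt_succ_self n) hn
    have hcontr := hC.contr_O' S C hPO (n + 1) (Nat.lt_succ_self n) hn
    have hw1 : bdι Fr (n + 1) ≫ w = C.k₁ (n + 1) ≫ C.oB (n + 1) := hw.1
    set hs : glob Fr (n + 1) ⟶ C.O (n + 1) := θn ≫ C.inl n ≫ C.oB (n + 1) with hhs
    set ht : glob Fr (n + 1) ⟶ C.O (n + 1) := θn ≫ C.inr n ≫ C.oB (n + 1) with hht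
    have hs0 : sg Fr n ≫ hs = C.i₀ n ≫ C.inl n ≫ C.oB (n + 1) := by
      rw [hhs, ← Category.assoc, hsgθ]
    have hs1 : tg Fr n ≫ hs = C.i₁ n ≫ C.inl n ≫ C.oB (n + 1) := by
      rw [hhs, ← Category.assoc, hθn]
    have ht0 : sg Fr n ≫ ht = C.i₀ n ≫ C.inr n ≫ C.oB (n + 1) := by
      rw [hht, ← Category.assoc, hsgθ]
    have ht1 : tg Fr n ≫ ht = C.i₁ n ≫ C.inr n ≫ C.oB (n + 1) := by
      rw [hht, ← Category.assoc, hθn]
    have hc0 : sg Fr n ≫ C.oD (n + 1) = C.i₀ n ≫ C.inl n ≫ C.oB (n + 1) := by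
      rw [← bdInl_bdι, Category.assoc, ← (C.sqO (n + 1)).w, ← Category.assoc, C.inl_k₀,
        Category.assoc]
    have hc1 : tg Fr n ≫ C.oD (n + 1) = C.i₀ n ≫ C.inr n ≫ C.oB (n + 1) := by
      rw [← bdInr_bdι, Category.assoc, ← (C.sqO (n + 1)).w, ← Category.assoc, C.inr_k₀,
        Category.assoc]
    have hw0 : sg Fr n ≫ w = C.i₁ n ≫ C.inl n ≫ C.oB (n + 1) := by
      rw [← bdInl_bdι, Category.assoc, hw1, ← Category.assoc, C.inl_k₁, Category.assoc]
    have hw2 : tg Fr n ≫ w = C.i₁ n ≫ C.inr n ≫ C.oB (n + 1) := by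
      rw [← bdInr_bdι, Category.assoc, hw1, ← Category.assoc, C.inr_k₁, Category.assoc]
    have u1 : tg Fr n ≫ C.oD (n + 1) = sg Fr n ≫ ht := by rw [hc1, ht0]
    have u2 : tg Fr n ≫ (iv ≫ hs) = sg Fr n ≫ c.ap (C.oD (n + 1)) ht u1 := by
      rw [← Category.assoc, hi2, hs0, c.sg_ap, hc0]
    have hst : Step Fr w (c.ap (iv ≫ hs) (c.ap (C.oD (n + 1)) ht u1) u2) := by
      apply hcontr
      apply bdι_succ_ext
      · rw [c.sg_ap, ← Category.assoc, hi1, hs1, hw0]
      · rw [c.tg_ap, c.tg_ap, ht1, hw2]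
    set x : C.O (n + 1) ⟶ Y := (C.sqO (n + 1)).desc Bβ b hk0 with hx
    have ex1 : (iv ≫ hs) ≫ x = iv ≫ th := by
      rw [hhs, Category.assoc, Category.assoc, Category.assoc, hx, (C.sqO (n + 1)).inl_desc,
        hBl]
    have ex2 : C.oD (n + 1) ≫ x = b := (C.sqO (n + 1)).inr_desc _ _ _
    have ex3 : ht ≫ x = H' := by
      rw [hht, Category.assoc, Category.assoc, hx, (C.sqO (n + 1)).inl_desc, hBr, hAHθ]
    have hst' := hst.comp x
    rw [c.ap_comp] at hst'
    simp only [c.ap_comp, ex1, ex2, ex3] at hst'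
    have u3 : tg Fr n ≫ (iv ≫ th) = sg Fr n ≫ th := by rw [← Category.assoc, hi2]
    have hst2 := (hst'.trans S (c.whiskR S _ u3 hH'3)).trans S
      (c.inv_ap S iv hi1 hi2 e he he' th u3)
    rw [hth1] at hst2
    obtain ⟨t, ht1', ht2'⟩ := hst2
    obtain ⟨Aβ, h1, h2, h3⟩ := C.ext_mid hw Bβ b hk0 t ht1'.symm
    exact ⟨Aβ, h1, h2, by rw [h3, ht2']⟩
  · exact C.ext_high (hC.high (n + 1) (not_le.1 hn)) Bβ b hk0 (e ≫ a1) hk1

/-- Deformation of `Y = X ∪_a D_{n+1}` into `X`. -/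
theorem exists_deformation (S : Setting Fr) (_hp : HasPaths Fr) (C : CylSeq Fr) {n : ℕ} {κ : ℕ∞}
    (hC : C.IsCyl n κ) (hPO : ∀ k m : ℕ, n ≤ k → (k : ℕ∞) ≤ κ → n < m → PO Fr k m)
    (T : PathOn C) {X Y : M} (hX : Cofibrant Fr κ X) (a : glob Fr n ⟶ X) (i : X ⟶ Y)
    (b : glob Fr (n + 1) ⟶ Y) (sq : IsPushout a (sg Fr n) i b)
    (e : glob Fr (n + 1) ⟶ glob Fr n) (he : sg Fr n ≫ e = 𝟙 _) (he' : tg Fr n ≫ e = 𝟙 _) :
    ∃ (Θ : Y ⟶ T.P.obj Y) (r' : Y ⟶ X), Θ ≫ T.ev₀.app Y = 𝟙 Y ∧ Θ ≫ T.ev₁.app Y = r' ≫ i ∧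
      b ≫ r' = e ≫ a ≫ i ≫ r' := by
  obtain ⟨θ, hθ⟩ := exists_section_ev₀ S C hC (fun j hj hjk => hC.tr S C hPO j hj hjk) T X hX
  have nat0 : T.P.map i ≫ T.ev₀.app Y = T.ev₀.app X ≫ i := T.ev₀.naturality i
  have nat1 : T.P.map i ≫ T.ev₁.app Y = T.ev₁.app X ≫ i := T.ev₁.naturality i
  obtain ⟨Aβ, hβ1, hβ2, hβ3⟩ := exists_newCell S C hC hPO (T.e n Y (a ≫ θ ≫ T.P.map i)) (a ≫ i)
    (a ≫ θ ≫ T.ev₁.app X ≫ i)
    (by rw [← T.e_ev₀, Category.assoc, Category.assoc, nat0, ← Category.assoc θ, hθ,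
      Category.id_comp])
    (by rw [← T.e_ev₁, Category.assoc, Category.assoc, nat1])
    b sq.w.symm e he he'
  set βc : glob Fr (n + 1) ⟶ T.P.obj Y := (T.e (n + 1) Y).symm Aβ with hβc
  have hcompat : a ≫ θ ≫ T.P.map i = sg Fr n ≫ βc := by
    apply (T.e n Y).injective
    rw [T.e_s, hβc, Equiv.apply_symm_apply, hβ1]
  have hcompat' : a ≫ θ ≫ T.ev₁.app X = sg Fr n ≫ e ≫ a ≫ θ ≫ T.ev₁.app X := by
    rw [← Category.assoc (sg Fr n), he, Category.id_comp]
  refine ⟨sq.desc (θ ≫ T.P.map i) βc hcompat,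
    sq.desc (θ ≫ T.ev₁.app X) (e ≫ a ≫ θ ≫ T.ev₁.app X) hcompat', ?_, ?_, ?_⟩
  · apply sq.hom_ext
    · rw [← Category.assoc, sq.inl_desc, Category.assoc, nat0, ← Category.assoc, hθ]
      simp
    · rw [← Category.assoc, sq.inr_desc, T.e_ev₀, hβc, Equiv.apply_symm_apply, hβ2]
      simp
  · apply sq.hom_ext
    · rw [← Category.assoc, sq.inl_desc, Category.assoc, nat1, ← Category.assoc i, sq.inl_desc,
        Category.assoc]
    · rw [← Category.assoc, sq.inr_desc, T.e_ev₁, hβc, Equiv.apply_symm_apply, hβ3,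
        ← Category.assoc b, sq.inr_desc]
      simp only [Category.assoc]
  · rw [sq.inr_desc, sq.inl_desc]

section high

variable [HasColimitsOfSize.{v, v} M]

/-- `PO k m` for `m > k`: use the cylinder with `n = m`, `κ = m - 1` (no `PO` hypothesis needed). -/
theorem po_high (S : Setting Fr) (hp : HasPaths Fr) {k m : ℕ} (hm : k < m) : PO Fr k m := by
  obtain ⟨κ, rfl⟩ : ∃ κ, m = κ + 1 := ⟨m - 1, by omega⟩
  have hkκ : k ≤ κ := by omega
  have hPO : ∀ k' m : ℕ, κ + 1 ≤ k' → (k' : ℕ∞) ≤ (κ : ℕ∞) → κ + 1 < m → PO Fr k' m := by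
    intro k' m h1 h2 _
    have : k' ≤ κ := by exact_mod_cast h2
    omega
  intro X hX a Y i b sq hXk u v huv
  obtain ⟨C, hC⟩ := exists_isCyl S (κ + 1) (κ : ℕ∞) (by exact_mod_cast le_rfl) hPO
  obtain ⟨T⟩ := exists_pathOn S hp C hC hPO
  obtain ⟨e, he, he'⟩ := exists_unit S (κ + 1)
  have hX' : Cofibrant Fr (κ : ℕ∞) X := Cof.mono (by exact_mod_cast hkκ) hX
  obtain ⟨Θ, r', h0, h1, -⟩ := exists_deformation S hp C hC hPO T hX' a i b sq e he he'
  have key : ∀ w : glob Fr k ⟶ Y, w = (w ≫ r') ≫ i := by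
    intro w
    have e0 := T.e_ev₀ (w ≫ Θ)
    have e1 := T.e_ev₁ (w ≫ Θ)
    rw [Category.assoc, h0, Category.comp_id] at e0
    rw [Category.assoc, h1, (hC.low k (by omega)).2, ← e0] at e1
    rw [Category.assoc]
    exact e1.symm
  rw [key u, key v]
  refine (hXk (u ≫ r') (v ≫ r') ?_).comp i
  rw [← Category.assoc, ← Category.assoc, huv]

end high

end Crest.Agent.R248
end

-- ▼ part R248/TopFun
section

/-! TASK TopFun: top functoriality and backward transport. -/

set_option autoImplicit false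

namespace Crest.Agent.R248

open CategoryTheory CategoryTheory.Limits Opposite
open Crest.GeometryTopology.Coherator

universe v w

variable {M : Type w} [Category.{v} M] [HasPushouts M] [HasInitial M] {Fr : Shape ⥤ M}

theorem rlp_genCof {κ : ℕ∞} {A B : M} (p : A ⟶ B)
    (h : ∀ i : ℕ, (i : ℕ∞) ≤ κ + 1 → HasLiftingProperty (bdι Fr i) p) : (GenCof Fr κ).rlp p := by
  intro _ _ _ hgen
  obtain ⟨i, hi⟩ := hgen
  exact h i hi

/-- extension of cylinders constant on the boundary, in an `n`-cylinder truncated at `n` -/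
theorem exists_const_ext (S : Setting Fr) (C : CylSeq Fr) {n : ℕ} (hC : C.IsCyl n n) (i : ℕ) {X : M}
    (û : C.B i ⟶ X) (x : glob Fr i ⟶ X) (h₀ : C.k₀ i ≫ û = bdι Fr i ≫ x)
    (h₁ : C.k₁ i ≫ û = bdι Fr i ≫ x) :
    ∃ R : C.A i ⟶ X, C.δ i ≫ R = û ∧ C.i₀ i ≫ R = x ∧ C.i₁ i ≫ R = x := by
  obtain ⟨y, hy1, hy2⟩ : ∃ y : C.O i ⟶ X, C.oB i ≫ y = û ∧ C.oD i ≫ y = x :=
    ⟨(C.sqO i).desc û x h₀, (C.sqO i).inl_desc _ _ _, (C.sqO i).inr_desc _ _ _⟩
  suffices hq : ∃ R : C.A i ⟶ X, C.q i ≫ R = y ∧ C.i₁ i ≫ R = x by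
    obtain ⟨R, hR1, hR2⟩ := hq
    refine ⟨R, ?_, ?_, hR2⟩
    · rw [← C.oB_q, Category.assoc, hR1, hy1]
    · rw [← C.oD_q, Category.assoc, hR1, hy2]
  rcases lt_trichotomy i n with hi | hi | hi
  · have hlow := hC.low i hi
    have := hlow.1
    refine ⟨inv (C.i₀ i) ≫ x, ?_, ?_⟩
    · apply (C.sqO i).hom_ext
      · have hk := (C.isIso_k₀ i (fun i' hi' => hC.low i' (by omega))).1
        rw [hy1, ← cancel_epi (C.k₀ i), ← Category.assoc (C.oB i), C.oB_q, ← Category.assoc,
          C.k₀_δ, Category.assoc, IsIso.hom_inv_id_assoc, h₀]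
      · rw [hy2, ← Category.assoc, C.oD_q, IsIso.hom_inv_id_assoc]
    · rw [hlow.2, IsIso.hom_inv_id_assoc]
  · subst hi
    obtain ⟨-, θ, hsq, hθ⟩ := hC.bot le_rfl
    obtain ⟨e, he, he'⟩ := exists_unit S i
    have hw : C.oD i ≫ y = sg Fr i ≫ e ≫ x := by
      rw [hy2, ← Category.assoc, he, Category.id_comp]
    refine ⟨hsq.desc y (e ≫ x) hw, hsq.inl_desc _ _ _, ?_⟩
    rw [← hθ, Category.assoc, hsq.inr_desc, ← Category.assoc, he', Category.id_comp]
  · have hh : IsPushout (C.k₁ i ≫ C.oB i) (bdι Fr i) (C.q i) (C.i₁ i) :=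
      hC.high i (by exact_mod_cast hi)
    have hw : (C.k₁ i ≫ C.oB i) ≫ y = bdι Fr i ≫ x := by rw [Category.assoc, hy1, h₁]
    exact ⟨hh.desc y x hw, hh.inl_desc _ _ _, hh.inr_desc _ _ _⟩

variable [HasColimitsOfSize.{v, v} M] [HasEqualizers M]

/-- TF(j): let `Kz` be `K` with a free `j`-cell `z` attached. If two maps `f g : Kz ⟶ X` agree on `K` and
send `z` to `Step`-related cells then they send every `j`-cell to `Step`-related cells.
(Use the `j`-cylinder truncated at `κ = j`, whose `PO` hypotheses are covered by `po_high`.) -/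
theorem top_functoriality (S : Setting Fr) (hp : HasPaths Fr) (j : ℕ) {K Kz : M}
    (hK : Cofibrant Fr ⊤ K) (s : bd Fr j ⟶ K) (inK : K ⟶ Kz) (z : glob Fr j ⟶ Kz)
    (sq : IsPushout s (bdι Fr j) inK z) (φ : glob Fr j ⟶ Kz) {X : M} (f g : Kz ⟶ X)
    (hfg : inK ≫ f = inK ≫ g) (h : Step Fr (z ≫ f) (z ≫ g)) : Step Fr (φ ≫ f) (φ ≫ g) := by
  have hPO : ∀ k m : ℕ, j ≤ k → (k : ℕ∞) ≤ (j : ℕ∞) → j < m → PO Fr k m := by
    intro k m h1 h2 h3
    have h2' : k ≤ j := by exact_mod_cast h2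
    exact po_high S hp (by omega)
  obtain ⟨C, hC⟩ := exists_isCyl S j (j : ℕ∞) le_self_add hPO
  obtain ⟨T⟩ := exists_pathOn S hp C hC hPO
  -- the reflexive part of the path object
  let E : M := equalizer (T.ev₀.app X) (T.ev₁.app X)
  let ι : E ⟶ T.P.obj X := equalizer.ι _ _
  have hι : ι ≫ T.ev₀.app X = ι ≫ T.ev₁.app X := equalizer.condition _ _
  have hrlp : (GenCof Fr ⊤).rlp (ι ≫ T.ev₀.app X) := by
    apply rlp_genCof
    intro i _
    constructor
    intro u x sqr
    have sqrw := sqr.w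
    obtain ⟨û, hû, hû₀, hû₁⟩ := T.exists_adj i (u ≫ ι)
    have h₀ : C.k₀ i ≫ û = bdι Fr i ≫ x := by
      rw [hû₀, Category.assoc]; exact sqrw
    have h₁ : C.k₁ i ≫ û = bdι Fr i ≫ x := by
      rw [hû₁, Category.assoc, ← hι]; exact sqrw
    obtain ⟨R, hR, hR₀, hR₁⟩ := exists_const_ext S C hC i û x h₀ h₁
    have hd : bdι Fr i ≫ (T.e i X).symm R = u ≫ ι := (hû _).2 (by
      rw [Equiv.apply_symm_apply, hR])
    have hd₀ : (T.e i X).symm R ≫ T.ev₀.app X = x := by
      rw [T.e_ev₀, Equiv.apply_symm_apply, hR₀]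
    have hd₁ : (T.e i X).symm R ≫ T.ev₁.app X = x := by
      rw [T.e_ev₁, Equiv.apply_symm_apply, hR₁]
    refine ⟨⟨⟨equalizer.lift ((T.e i X).symm R) (hd₀.trans hd₁.symm), ?_, ?_⟩⟩⟩
    · apply equalizer.hom_ext
      rw [Category.assoc, equalizer.lift_ι]
      exact hd
    · change equalizer.lift ((T.e i X).symm R) (hd₀.trans hd₁.symm) ≫
        equalizer.ι (T.ev₀.app X) (T.ev₁.app X) ≫ T.ev₀.app X = x
      rw [← Category.assoc, equalizer.lift_ι, hd₀]
  -- lift `K`
  have hlift : HasLiftingProperty (initial.to K) (ι ≫ T.ev₀.app X) := hK _ hrlp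
  have sqK : CommSq (initial.to E) (initial.to K) (ι ≫ T.ev₀.app X) (inK ≫ f) :=
    ⟨initialIsInitial.hom_ext _ _⟩
  obtain ⟨l, -, hl⟩ := (hlift.sq_hasLift sqK).exists_lift.some
  have hκ₀ : (l ≫ ι) ≫ T.ev₀.app X = inK ≫ f := by rw [Category.assoc, hl]
  have hκ₁ : (l ≫ ι) ≫ T.ev₁.app X = inK ≫ g := by
    rw [Category.assoc, ← hι, hl, hfg]
  -- extend to `Kz`
  obtain ⟨v, hv₀, hv₁⟩ := h
  obtain ⟨-, θ, hsq, hθ⟩ := hC.bot le_rfl
  obtain ⟨û, hû, hû₀, hû₁⟩ := T.exists_adj j (s ≫ l ≫ ι)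
  have h₀ : C.k₀ j ≫ û = bdι Fr j ≫ z ≫ f := by
    rw [hû₀, Category.assoc, hκ₀, ← Category.assoc, sq.w, Category.assoc]
  obtain ⟨y, hy1, hy2⟩ : ∃ y : C.O j ⟶ X, C.oB j ≫ y = û ∧ C.oD j ≫ y = z ≫ f :=
    ⟨(C.sqO j).desc û _ h₀, (C.sqO j).inl_desc _ _ _, (C.sqO j).inr_desc _ _ _⟩
  obtain ⟨R, hR1, hR2⟩ : ∃ R : C.A j ⟶ X, C.q j ≫ R = y ∧ θ ≫ R = v :=
    ⟨hsq.desc y v (by rw [hy2, hv₀]), hsq.inl_desc _ _ _, hsq.inr_desc _ _ _⟩
  have hζ : bdι Fr j ≫ (T.e j X).symm R = s ≫ l ≫ ι := (hû _).2 (by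
    rw [Equiv.apply_symm_apply, ← C.oB_q, Category.assoc, hR1, hy1])
  have hζ₀ : (T.e j X).symm R ≫ T.ev₀.app X = z ≫ f := by
    rw [T.e_ev₀, Equiv.apply_symm_apply, ← C.oD_q, Category.assoc, hR1, hy2]
  have hζ₁ : (T.e j X).symm R ≫ T.ev₁.app X = z ≫ g := by
    rw [T.e_ev₁, Equiv.apply_symm_apply, ← hθ, Category.assoc, hR2, hv₁]
  obtain ⟨Θ, hΘ1, hΘ2⟩ : ∃ Θ : Kz ⟶ T.P.obj X, inK ≫ Θ = l ≫ ι ∧ z ≫ Θ = (T.e j X).symm R :=
    ⟨sq.desc _ _ hζ.symm, sq.inl_desc _ _ _, sq.inr_desc _ _ _⟩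
  have hΘ₀ : Θ ≫ T.ev₀.app X = f := by
    apply sq.hom_ext
    · rw [← Category.assoc, hΘ1]; exact hκ₀
    · rw [← Category.assoc, hΘ2, hζ₀]
  have hΘ₁ : Θ ≫ T.ev₁.app X = g := by
    apply sq.hom_ext
    · rw [← Category.assoc, hΘ1]; exact hκ₁
    · rw [← Category.assoc, hΘ2, hζ₁]
  refine ⟨θ ≫ T.e j X (φ ≫ Θ), ?_, ?_⟩
  · rw [← Category.assoc, ← hsq.w, C.oD_q, ← T.e_ev₀, Category.assoc, hΘ₀]
  · rw [← Category.assoc, hθ, ← T.e_ev₁, Category.assoc, hΘ₁]

/-- TR' in cell form: backward transport of `Step`. -/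
theorem step_i₀_of_step_i₁ (S : Setting Fr) (hp : HasPaths Fr) (C : CylSeq Fr) {n : ℕ} {κ : ℕ∞}
    (hC : C.IsCyl n κ) (hPO : ∀ k m : ℕ, n ≤ k → (k : ℕ∞) ≤ κ → n < m → PO Fr k m)
    (j : ℕ) (hj : (j : ℕ∞) ≤ κ) {X : M} (p q : C.A j ⟶ X) (hpq : C.δ j ≫ p = C.δ j ≫ q)
    (h : Step Fr (C.i₁ j ≫ p) (C.i₁ j ≫ q)) : Step Fr (C.i₀ j ≫ p) (C.i₀ j ≫ q) := by
  induction j generalizing X with
  | zero =>
    rcases Nat.eq_zero_or_pos n with hn | hn
    · subst hn
      obtain ⟨-, θ, hsq, hθ⟩ := hC.bot hj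
      have hst : ∀ r : C.A 0 ⟶ X, Step Fr (C.i₀ 0 ≫ r) (C.i₁ 0 ≫ r) := fun r =>
        ⟨θ ≫ r, by rw [← Category.assoc, ← hsq.w, C.oD_q], by rw [← Category.assoc, hθ]⟩
      exact ((hst p).trans S h).trans S ((hst q).symm S)
    · have := (hC.low 0 hn).2
      rwa [this] at h
  | succ j ih =>
    rcases lt_trichotomy (j + 1) n with hn | hn | hn
    · have := (hC.low (j + 1) hn).2
      rwa [this] at h
    · subst hn
      obtain ⟨-, θ, hsq, hθ⟩ := hC.bot hj
      have hst : ∀ r : C.A (j + 1) ⟶ X, Step Fr (C.i₀ (j + 1) ≫ r) (C.i₁ (j + 1) ≫ r) := fun r =>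
        ⟨θ ≫ r, by rw [← Category.assoc, ← hsq.w, C.oD_q], by rw [← Category.assoc, hθ]⟩
      exact ((hst p).trans S h).trans S ((hst q).symm S)
    · obtain ⟨w, hw, θ, hsq, hθ⟩ := hC.mid (j + 1) hn hj
      have hj' : (j : ℕ∞) ≤ κ := le_trans (by exact_mod_cast Nat.le_succ j) hj
      have hnκ : (n : ℕ∞) ≤ κ := le_trans (by exact_mod_cast hn.le) hj
      -- `Step (w ≫ q ≫ r) (i₁ ≫ r)`
      have hst : ∀ r : C.A (j + 1) ⟶ X, Step Fr (w ≫ C.q (j + 1) ≫ r) (C.i₁ (j + 1) ≫ r) :=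
        fun r => ⟨θ ≫ r, by rw [← Category.assoc, ← hsq.w, Category.assoc],
          by rw [← Category.assoc, hθ]⟩
      have hww : Step Fr (w ≫ C.q (j + 1) ≫ p) (w ≫ C.q (j + 1) ≫ q) :=
        ((hst p).trans S h).trans S ((hst q).symm S)
      -- the reversed open box
      let O' : M := pushout (C.k₁ (j + 1)) (bdι Fr (j + 1))
      let oB' : C.B (j + 1) ⟶ O' := pushout.inl _ _
      let oD' : glob Fr (j + 1) ⟶ O' := pushout.inr _ _
      have sqO' : IsPushout (C.k₁ (j + 1)) (bdι Fr (j + 1)) oB' oD' := IsPushout.of_hasPushout _ _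
      -- backward transport
      obtain ⟨v, hv⟩ : ∃ v : glob Fr (j + 1) ⟶ O', bdι Fr (j + 1) ≫ v = C.k₀ (j + 1) ≫ oB' := by
        have hpar : C.δ j ≫ C.inl j ≫ oB' = C.δ j ≫ C.inr j ≫ oB' := by
          rw [← Category.assoc, (C.sq j).w, Category.assoc]
        obtain ⟨v, hv1, hv2⟩ := ih hj' (C.inl j ≫ oB') (C.inr j ≫ oB') hpar ⟨oD', by
          rw [← bdInl_bdι, Category.assoc, ← sqO'.w, ← Category.assoc, C.inl_k₁, Category.assoc],
          by rw [← bdInr_bdι, Category.assoc, ← sqO'.w, ← Category.assoc, C.inr_k₁,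
            Category.assoc]⟩
        refine ⟨v, ?_⟩
        apply (bd_sq Fr j).hom_ext
        · rw [← Category.assoc, bdInl_bdι, hv1, ← Category.assoc, ← Category.assoc, C.inl_k₀]
        · rw [← Category.assoc, bdInr_bdι, hv2, ← Category.assoc, ← Category.assoc, C.inr_k₀]
      -- the two maps out of the reversed open box
      have hF : ∀ r : C.A (j + 1) ⟶ X, ∃ F : O' ⟶ X, oB' ≫ F = C.δ (j + 1) ≫ r ∧
          oD' ≫ F = w ≫ C.q (j + 1) ≫ r := by
        intro r
        refine ⟨sqO'.desc (C.δ (j + 1) ≫ r) (w ≫ C.q (j + 1) ≫ r) ?_, sqO'.inl_desc _ _ _,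
          sqO'.inr_desc _ _ _⟩
        rw [← Category.assoc (bdι Fr (j + 1)), hw, Category.assoc, ← Category.assoc (C.oB _),
          C.oB_q]
      obtain ⟨F, hF1, hF2⟩ := hF p
      obtain ⟨G, hG1, hG2⟩ := hF q
      have hB : Cofibrant Fr ⊤ (C.B (j + 1)) := C.cofibrant_B hC (j + 1) (by simp)
      have hvv : Step Fr (v ≫ F) (v ≫ G) :=
        top_functoriality S hp (j + 1) hB (C.k₁ (j + 1)) oB' oD' sqO' v F G
          (by rw [hF1, hG1, hpq]) (by rw [hF2, hG2]; exact hww)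
      -- comparison in the open box
      obtain ⟨c, hc1, hc2⟩ : ∃ c : O' ⟶ C.O (j + 1), oB' ≫ c = C.oB (j + 1) ∧ oD' ≫ c = w :=
        ⟨sqO'.desc (C.oB (j + 1)) w hw.symm, sqO'.inl_desc _ _ _, sqO'.inr_desc _ _ _⟩
      have hcontr : Contr Fr (j + 1) (C.O (j + 1)) :=
        C.contr_O S hC.low (hC.bot hnκ) hn (by omega) (by omega)
          (fun i hi hij => hC.mid i hi (le_trans (by exact_mod_cast hij.le) hj))
          (fun m hm => hPO (j + 1) m (by omega) hj hm)
      have hcmp : Step Fr (C.oD (j + 1)) (v ≫ c) := by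
        apply hcontr
        rw [← (C.sqO (j + 1)).w, ← Category.assoc, hv, Category.assoc, hc1]
      have hcF : ∀ (r : C.A (j + 1) ⟶ X) (F : O' ⟶ X), oB' ≫ F = C.δ (j + 1) ≫ r →
          oD' ≫ F = w ≫ C.q (j + 1) ≫ r → c ≫ C.q (j + 1) ≫ r = F := by
        intro r F h1 h2
        apply sqO'.hom_ext
        · rw [← Category.assoc, hc1, h1, ← Category.assoc, C.oB_q]
        · rw [← Category.assoc, hc2, h2]
      have e1 : Step Fr (C.i₀ (j + 1) ≫ p) (v ≫ F) := by
        have := hcmp.comp (C.q (j + 1) ≫ p)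
        rw [← Category.assoc, C.oD_q, Category.assoc, hcF p F hF1 hF2] at this
        exact this
      have e2 : Step Fr (C.i₀ (j + 1) ≫ q) (v ≫ G) := by
        have := hcmp.comp (C.q (j + 1) ≫ q)
        rw [← Category.assoc, C.oD_q, Category.assoc, hcF q G hG1 hG2] at this
        exact this
      exact (e1.trans S hvv).trans S (e2.symm S)

end Crest.Agent.R248
end

-- ▼ part R248/Main
section

/-! TASK Main: `PO k m` for all `m ≤ k` and the abstract main theorem. -/

set_option autoImplicit false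

namespace Crest.Agent.R248

open CategoryTheory CategoryTheory.Limits Opposite
open Crest.GeometryTopology.Coherator

universe v w

variable {M : Type w} [Category.{v} M] [HasColimitsOfSize.{v, v} M] [HasPushouts M] [HasInitial M]
  [HasEqualizers M] {Fr : Shape ⥤ M}

omit [HasColimitsOfSize.{v, v} M] [HasEqualizers M] in
/-- parallel cells of the path object correspond to parallel "cylinders" -/
theorem PathOn.parallel {C : CylSeq Fr} (T : PathOn C) {j : ℕ} {X : M}
    {g h : glob Fr j ⟶ T.P.obj X} (hgh : bdι Fr j ≫ g = bdι Fr j ≫ h) :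
    C.δ j ≫ T.e j X g = C.δ j ≫ T.e j X h := by
  cases j with
  | zero => exact C.init.hom_ext _ _
  | succ j =>
    apply (C.sq j).hom_ext
    · rw [← Category.assoc, ← Category.assoc]
      have h1 : sg Fr j ≫ g = sg Fr j ≫ h := by
        rw [← bdInl_bdι, Category.assoc, Category.assoc, hgh]
      have h2 := T.e_s (X := X) g
      have h3 := T.e_s (X := X) h
      unfold CylSeq.s at h2 h3
      rw [← h2, ← h3, h1]
    · rw [← Category.assoc, ← Category.assoc]
      have h1 : tg Fr j ≫ g = tg Fr j ≫ h := by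
        rw [← bdInr_bdι, Category.assoc, Category.assoc, hgh]
      have h2 := T.e_t (X := X) g
      have h3 := T.e_t (X := X) h
      unfold CylSeq.t at h2 h3
      rw [← h2, ← h3, h1]

/-- transport of `Step` along a deformation: if `Θ : Y ⟶ P Z`, then parallel cells of `Y` whose `ev₁`
ends are joined have joined `ev₀` ends. -/
theorem PathOn.step_of_step (S : Setting Fr) (hp : HasPaths Fr) {C : CylSeq Fr} {n : ℕ} {κ : ℕ∞}
    (hC : C.IsCyl n κ) (hPO : ∀ k m : ℕ, n ≤ k → (k : ℕ∞) ≤ κ → n < m → PO Fr k m)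
    (T : PathOn C) {j : ℕ} (hj : (j : ℕ∞) ≤ κ) {Y Z : M} (Θ : Y ⟶ T.P.obj Z)
    (u v : glob Fr j ⟶ Y) (huv : bdι Fr j ≫ u = bdι Fr j ≫ v)
    (h : Step Fr (u ≫ Θ ≫ T.ev₁.app Z) (v ≫ Θ ≫ T.ev₁.app Z)) :
    Step Fr (u ≫ Θ ≫ T.ev₀.app Z) (v ≫ Θ ≫ T.ev₀.app Z) := by
  have e0 : ∀ w : glob Fr j ⟶ Y, w ≫ Θ ≫ T.ev₀.app Z = C.i₀ j ≫ T.e j Z (w ≫ Θ) := by
    intro w
    have := T.e_ev₀ (w ≫ Θ)
    rw [← this, Category.assoc]
  have e1 : ∀ w : glob Fr j ⟶ Y, w ≫ Θ ≫ T.ev₁.app Z = C.i₁ j ≫ T.e j Z (w ≫ Θ) := by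
    intro w
    have := T.e_ev₁ (w ≫ Θ)
    rw [← this, Category.assoc]
  rw [e0, e0]
  rw [e1, e1] at h
  refine step_i₀_of_step_i₁ S hp C hC hPO j hj _ _ ?_ h
  apply T.parallel
  rw [← Category.assoc, ← Category.assoc, huv]

theorem po_step (S : Setting Fr) (hp : HasPaths Fr) {k n : ℕ} (hn : n ≤ k)
    (hPO : ∀ j m : ℕ, n ≤ j → j ≤ k → n < m → PO Fr j m) : PO Fr k n := by
  intro X hX a Y i b sq hXk u v huv
  have hn' : (n : ℕ∞) ≤ (k : ℕ∞) + 1 := by exact_mod_cast (by omega : n ≤ k + 1)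
  have hPO' : ∀ j m : ℕ, n ≤ j → (j : ℕ∞) ≤ (k : ℕ∞) → n < m → PO Fr j m := by
    intro j m hnj hj hm
    exact hPO j m hnj (by exact_mod_cast hj) hm
  obtain ⟨C, hC⟩ := exists_isCyl S n (k : ℕ∞) hn' hPO'
  obtain ⟨T⟩ := exists_pathOn S hp C hC hPO'
  obtain ⟨e, he, he'⟩ := exists_unit S n
  obtain ⟨Θ, r', h0, h1, -⟩ := exists_deformation S hp C hC hPO' T hX a i b sq e he he'
  have key := T.step_of_step S hp hC hPO' (j := k) le_rfl Θ u v huv (by
    rw [h1, ← Category.assoc, ← Category.assoc]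
    refine (hXk (u ≫ r') (v ≫ r') ?_).comp i
    rw [← Category.assoc, ← Category.assoc, huv])
  rwa [h0, Category.comp_id, Category.comp_id] at key

theorem po_all (S : Setting Fr) (hp : HasPaths Fr) (k n : ℕ) (hn : n ≤ k) : PO Fr k n := by
  suffices H : ∀ d k n : ℕ, n ≤ k → k - n = d → PO Fr k n from H _ k n hn rfl
  intro d
  induction d using Nat.strong_induction_on with
  | _ d ih =>
    intro k n hn hd
    apply po_step S hp hn
    intro j m hnj hj hm
    rcases Nat.lt_or_ge j m with hmj | hmj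
    · exact po_high S hp hmj
    · exact ih (j - m) (by omega) j m hmj rfl

/-- strong form of the main theorem: parallel cells of `Y` with the same image in `X` are joined. -/
theorem abstract_strong (S : Setting Fr) (hp : HasPaths Fr) (n : ℕ) {X Y : M}
    (hX : Cofibrant Fr ⊤ X) (a : glob Fr n ⟶ X) (i : X ⟶ Y) (b : glob Fr (n + 1) ⟶ Y)
    (sq : IsPushout a (sg Fr n) i b)
    (e : glob Fr (n + 1) ⟶ glob Fr n) (he : sg Fr n ≫ e = 𝟙 _) (he' : tg Fr n ≫ e = 𝟙 _)
    (r : Y ⟶ X) (hr : i ≫ r = 𝟙 X) (hrb : b ≫ r = e ≫ a)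
    (m : ℕ) (u v : glob Fr m ⟶ Y) (huv : bdι Fr m ≫ u = bdι Fr m ≫ v) (h : u ≫ r = v ≫ r) :
    Step Fr u v := by
  have hPO' : ∀ k m : ℕ, n ≤ k → (k : ℕ∞) ≤ (⊤ : ℕ∞) → n < m → PO Fr k m := by
    intro k m _ _ _
    rcases Nat.lt_or_ge k m with hmk | hmk
    · exact po_high S hp hmk
    · exact po_all S hp k m hmk
  obtain ⟨C, hC⟩ := exists_isCyl S n (⊤ : ℕ∞) le_top hPO'
  obtain ⟨T⟩ := exists_pathOn S hp C hC hPO'
  obtain ⟨Θ, r', h0, h1, h2⟩ := exists_deformation S hp C hC hPO' T hX a i b sq e he he'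
  have hrr : r' = r ≫ i ≫ r' := by
    apply sq.hom_ext
    · rw [← Category.assoc i r, hr, Category.id_comp]
    · rw [← Category.assoc b r, hrb, h2, Category.assoc]
  have key := T.step_of_step S hp hC hPO' (j := m) le_top Θ u v huv (by
    rw [h1, hrr]
    simp only [Category.assoc]
    rw [← Category.assoc u r, ← Category.assoc v r, h]
    exact Step.refl S _)
  rwa [h0, Category.comp_id, Category.comp_id] at key


end Crest.Agent.R248
end

-- ▼ part R248/Colim
section

/-!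
# R248: colimits in the category of models of a globular theory

`GlobModel C` is equivalent to the full subcategory of presheaves on `C.Ob` which are local with
respect to a small family of maps between finitely presentable presheaves; hence it is reflective,
and has all colimits (and limits).
-/

set_option autoImplicit false

open CategoryTheory CategoryTheory.Limits Opposite Crest.GeometryTopology.Coherator

universe u

namespace Crest.Agent.R248

open GlobTheory

variable {C : GlobTheory.{u}}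

/-- The index set of the designated gluing squares. -/
structure Sq : Type where
  S : Shape
  b : ℕ
  h : ℕ
  hb : b < S.last
  hh : b < h

/-- The comparison map of presheaves for a designated gluing square. -/
noncomputable def sqMap (C : GlobTheory.{u}) (q : Sq) :
    pushout (yoneda.map (C.incl.map (q.S.hinge q.hb)))
      (yoneda.map (C.incl.map (Shape.faceMap q.hh false))) ⟶
      yoneda.obj (C.incl.obj (q.S.glue q.b q.h q.hb q.hh)) :=
  pushout.desc (yoneda.map (C.incl.map (q.S.inLeft q.b q.h q.hb q.hh)))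
    (yoneda.map (C.incl.map (q.S.inRight q.b q.h q.hb q.hh)))
    (by
      simp only [← Functor.map_comp (yoneda : C.Ob ⥤ _)]
      exact congrArg (fun f => yoneda.map f) (C.respectsSums q.S q.b q.h q.hb q.hh).w)

/-- The family of comparison maps. -/
def sqW (C : GlobTheory.{u}) : MorphismProperty (C.Obᵒᵖ ⥤ Type u) :=
  MorphismProperty.ofHoms (fun q : Sq => sqMap C q)

/-- Local objects are exactly the models. -/
theorem isLocal_sqW_iff (P : C.Obᵒᵖ ⥤ Type u) :
    (sqW C).isLocal P ↔ ∀ (S : Shape) (b h : ℕ) (hb : b < S.last) (hh : b < h),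
    IsPullback (P.map (C.incl.map (S.inLeft b h hb hh)).op)
      (P.map (C.incl.map (S.inRight b h hb hh)).op)
      (P.map (C.incl.map (S.hinge hb)).op)
      (P.map (C.incl.map (Shape.faceMap hh false)).op) := by
  constructor
  · intro H S b h hb hh
    rw [Types.isPullback_iff]
    have Hq := H (sqMap C ⟨S, b, h, hb, hh⟩) (MorphismProperty.ofHoms_iff _ _ |>.2 ⟨_, rfl⟩)
    refine ⟨?_, ?_, ?_⟩
    · rw [← P.map_comp, ← P.map_comp, ← op_comp, ← op_comp,
        (C.respectsSums S b h hb hh).w]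
    · rintro x y ⟨h1, h2⟩
      apply yonedaEquiv.symm.injective
      apply Hq.1
      apply pushout.hom_ext
      · simp only [sqMap, pushout.inl_desc_assoc]
        rw [yonedaEquiv_symm_naturality_left, yonedaEquiv_symm_naturality_left]
        exact congrArg _ h1
      · simp only [sqMap, pushout.inr_desc_assoc]
        rw [yonedaEquiv_symm_naturality_left, yonedaEquiv_symm_naturality_left]
        exact congrArg _ h2
    · intro x y hxy
      obtain ⟨g, hg⟩ := Hq.2 (pushout.desc (yonedaEquiv.symm x) (yonedaEquiv.symm y) (by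
        rw [yonedaEquiv_symm_naturality_left, yonedaEquiv_symm_naturality_left]
        exact congrArg _ hxy))
      refine ⟨yonedaEquiv g, ?_, ?_⟩
      · have := congrArg (fun k => pushout.inl _ _ ≫ k) hg
        simp only [sqMap, pushout.inl_desc_assoc, pushout.inl_desc] at this
        rw [yonedaEquiv_naturality, this, Equiv.apply_symm_apply]
      · have := congrArg (fun k => pushout.inr _ _ ≫ k) hg
        simp only [sqMap, pushout.inr_desc_assoc, pushout.inr_desc] at this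
        rw [yonedaEquiv_naturality, this, Equiv.apply_symm_apply]
  · intro H X Y f hf
    obtain ⟨⟨S, b, h, hb, hh⟩⟩ := hf
    have Hq := H S b h hb hh
    rw [Types.isPullback_iff] at Hq
    obtain ⟨-, h2, h3⟩ := Hq
    constructor
    · intro g g' hgg
      apply yonedaEquiv.injective
      apply h2
      constructor
      · have := congrArg (fun k => pushout.inl _ _ ≫ k) hgg
        simp only [sqMap, pushout.inl_desc_assoc] at this
        rw [yonedaEquiv_naturality, yonedaEquiv_naturality, this]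
      · have := congrArg (fun k => pushout.inr _ _ ≫ k) hgg
        simp only [sqMap, pushout.inr_desc_assoc] at this
        rw [yonedaEquiv_naturality, yonedaEquiv_naturality, this]
    · intro g
      obtain ⟨x, hx1, hx2⟩ := h3 (yonedaEquiv (pushout.inl _ _ ≫ g))
        (yonedaEquiv (pushout.inr _ _ ≫ g)) (by
          rw [yonedaEquiv_naturality, yonedaEquiv_naturality, pushout.condition_assoc])
      refine ⟨yonedaEquiv.symm x, ?_⟩
      apply pushout.hom_ext
      · simp only [sqMap, pushout.inl_desc_assoc]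
        rw [yonedaEquiv_symm_naturality_left, hx1, Equiv.symm_apply_apply]
      · simp only [sqMap, pushout.inr_desc_assoc]
        rw [yonedaEquiv_symm_naturality_left, hx2, Equiv.symm_apply_apply]

instance : MorphismProperty.IsSmall.{u} (sqW C) := by
  unfold sqW
  have : Small.{u} Sq := small_zero _
  exact MorphismProperty.isSmall_ofHoms _

instance (κ : Cardinal.{u}) [Fact κ.IsRegular] (X : C.Ob) :
    IsCardinalPresentable (yoneda.obj X : C.Obᵒᵖ ⥤ Type u) κ where
  preservesColimitOfShape J _ _ := by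
    let e : (coyoneda.obj (op (yoneda.obj X : C.Obᵒᵖ ⥤ Type u))) ≅
        (evaluation _ _).obj (op X) :=
      NatIso.ofComponents (fun P ↦ Equiv.toIso yonedaEquiv)
    exact preservesColimitsOfShape_of_natIso e.symm

attribute [local instance] Cardinal.fact_isRegular_aleph0

theorem sqW_presentable ⦃X Y : C.Obᵒᵖ ⥤ Type u⦄ (f : X ⟶ Y) (hf : sqW C f) :
    IsCardinalPresentable X Cardinal.aleph0.{u} ∧
      IsCardinalPresentable Y Cardinal.aleph0.{u} := by
  obtain ⟨q⟩ := hf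
  refine ⟨?_, inferInstance⟩
  have : ∀ k, IsCardinalPresentable ((span (yoneda.map (C.incl.map (q.S.hinge q.hb)))
      (yoneda.map (C.incl.map (Shape.faceMap q.hh false)))).obj k) Cardinal.aleph0.{u} := by
    rintro (_ | _ | _) <;> · dsimp; infer_instance
  refine isCardinalPresentable_of_isColimit' _ (colimit.isColimit (span
    (yoneda.map (C.incl.map (q.S.hinge q.hb)))
      (yoneda.map (C.incl.map (Shape.faceMap q.hh false))))) Cardinal.aleph0.{u} ?_
  rw [hasCardinalLT_aleph0_iff]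
  infer_instance

instance : (sqW C).isLocal.ι.IsRightAdjoint :=
  MorphismProperty.isRightAdjoint_ι_isLocal (sqW C) Cardinal.aleph0.{u} sqW_presentable

/-- The equivalence between models and local presheaves. -/
noncomputable def modelEquiv (C : GlobTheory.{u}) :
    GlobModel C ≌ (sqW C).isLocal.FullSubcategory where
  functor :=
    { obj X := ⟨X.functor, (isLocal_sqW_iff _).2 X.sums⟩
      map f := ObjectProperty.homMk f
      map_id X := rfl
      map_comp f g := rfl }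
  inverse :=
    { obj X := ⟨X.obj, (isLocal_sqW_iff _).1 X.property⟩
      map f := f.hom
      map_id X := rfl
      map_comp f g := rfl }
  unitIso := Iso.refl _
  counitIso := Iso.refl _

instance : HasColimitsOfSize.{u, u} (sqW C).isLocal.FullSubcategory :=
  letI : Reflective (sqW C).isLocal.ι := ⟨_, Adjunction.ofIsRightAdjoint _⟩
  hasColimits_of_reflective (sqW C).isLocal.ι

instance hasColimits_globModel (C : GlobTheory.{u}) : HasColimitsOfSize.{u, u} (GlobModel C) :=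
  Adjunction.has_colimits_of_equivalence (modelEquiv C).functor

instance instHasColimits0 : HasColimitsOfSize.{0, 0} (GlobModel C) :=
  hasColimitsOfSizeShrink.{0, 0, u, u} (GlobModel C)

instance : HasLimitsOfSize.{u, u} (sqW C).isLocal.FullSubcategory :=
  letI : Reflective (sqW C).isLocal.ι := ⟨_, Adjunction.ofIsRightAdjoint _⟩
  hasLimits_of_reflective (sqW C).isLocal.ι

instance instHasLimits : HasLimitsOfSize.{u, u} (GlobModel C) :=
  Adjunction.has_limits_of_equivalence (modelEquiv C).functor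

instance instHasLimits0 : HasLimitsOfSize.{0, 0} (GlobModel C) :=
  hasLimitsOfSizeShrink.{0, 0, u, u} (GlobModel C)

instance : HasFiniteColimits (GlobModel C) := inferInstance

end Crest.Agent.R248
end

-- ▼ part R248/Free
section

/-! TASK Free: the free model functor `Shape ⥤ GlobModel C` and the coherator axiom for it. -/

set_option autoImplicit false

namespace Crest.Agent.R248

open CategoryTheory CategoryTheory.Limits Opposite
open Crest.GeometryTopology.Coherator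

universe u

/-- the free model functor on shapes -/
noncomputable def FrM (C : GlobTheory.{u}) : Shape ⥤ GlobTheory.GlobModel C where
  obj S := GlobTheory.GlobModel.freeOn C S
  map f := (yoneda.map (C.incl.map f) :
    (GlobTheory.GlobModel.freeOn C _).functor ⟶ (GlobTheory.GlobModel.freeOn C _).functor)
  map_id S := by
    exact (congrArg yoneda.map (C.incl.map_id S)).trans (yoneda.map_id (⟨S⟩ : C.Ob))
  map_comp f g := by
    exact (congrArg yoneda.map (C.incl.map_comp f g)).trans (yoneda.map_comp _ _)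


/-- Yoneda: maps out of the free model on `S` are `S`-tuples. -/
noncomputable def ev (C : GlobTheory.{u}) (S : Shape) (X : GlobTheory.GlobModel C) :
    ((FrM C).obj S ⟶ X) ≃ X.functor.obj (op (C.incl.obj S)) :=
  yonedaEquiv (X := (C.incl.obj S : C.Ob)) (F := X.functor)

/-- naturality of `ev` in the shape -/
theorem ev_map (C : GlobTheory.{u}) {S T : Shape} (f : S ⟶ T) (X : GlobTheory.GlobModel C)
    (g : (FrM C).obj T ⟶ X) :
    ev C S X ((FrM C).map f ≫ g) = X.functor.map (C.incl.map f).op (ev C T X g) :=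
  (yonedaEquiv_naturality (X := (C.incl.obj T : C.Ob)) (Y := (C.incl.obj S : C.Ob)) (F := X.functor)
    (g : yoneda.obj (C.incl.obj T : C.Ob) ⟶ X.functor) (C.incl.map f)).symm


theorem ev_symm_map (C : GlobTheory.{u}) {S T : Shape} (f : S ⟶ T) (X : GlobTheory.GlobModel C)
    (x : X.functor.obj (op (C.incl.obj T))) :
    (FrM C).map f ≫ (ev C T X).symm x = (ev C S X).symm (X.functor.map (C.incl.map f).op x) := by
  apply (ev C S X).injective
  rw [ev_map, Equiv.apply_symm_apply, Equiv.apply_symm_apply]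

theorem sums_FrM (C : GlobTheory.{u}) : Sums (FrM C) := by
  intro S b h hb hh
  have comm : S.hinge hb ≫ S.inLeft b h hb hh = Shape.faceMap hh false ≫ S.inRight b h hb hh :=
    pushout.condition (f := GlobPsh.globeRepFace hb true ≫ S.apex)
      (g := GlobPsh.globeRepFace hh false)
  have key : ∀ (X : GlobTheory.GlobModel C) (x : (FrM C).obj S ⟶ X)
      (y : (FrM C).obj (Shape.globe h) ⟶ X),
      (FrM C).map (S.hinge hb) ≫ x = (FrM C).map (Shape.faceMap hh false) ≫ y →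
      ∃ z : (FrM C).obj (S.glue b h hb hh) ⟶ X,
        (FrM C).map (S.inLeft b h hb hh) ≫ z = x ∧ (FrM C).map (S.inRight b h hb hh) ≫ z = y := by
    intro X x y hxy
    have h1 := congrArg (ev C _ X) hxy
    rw [ev_map, ev_map] at h1
    obtain ⟨z, hz1, hz2⟩ := Types.exists_of_isPullback (X.sums S b h hb hh) _ _ h1
    refine ⟨(ev C _ X).symm z, ?_, ?_⟩
    · rw [ev_symm_map, hz1, Equiv.symm_apply_apply]
    · rw [ev_symm_map, hz2, Equiv.symm_apply_apply]
  have uniq : ∀ (X : GlobTheory.GlobModel C) (z z' : (FrM C).obj (S.glue b h hb hh) ⟶ X),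
      (FrM C).map (S.inLeft b h hb hh) ≫ z = (FrM C).map (S.inLeft b h hb hh) ≫ z' →
      (FrM C).map (S.inRight b h hb hh) ≫ z = (FrM C).map (S.inRight b h hb hh) ≫ z' → z = z' := by
    intro X z z' h1 h2
    apply (ev C _ X).injective
    apply Types.ext_of_isPullback (X.sums S b h hb hh)
    · rw [← ev_map, ← ev_map, h1]
    · rw [← ev_map, ← ev_map, h2]
  refine ⟨⟨?_⟩, ⟨PushoutCocone.IsColimit.mk _ (fun s => (key s.pt s.inl s.inr s.condition).choose)
    (fun s => (key s.pt s.inl s.inr s.condition).choose_spec.1)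
    (fun s => (key s.pt s.inl s.inr s.condition).choose_spec.2) ?_⟩⟩
  · rw [← (FrM C).map_comp, ← (FrM C).map_comp, comm]
  · intro s m h1 h2
    apply uniq
    · rw [h1]; exact (key s.pt s.inl s.inr s.condition).choose_spec.1.symm
    · rw [h2]; exact (key s.pt s.inl s.inr s.condition).choose_spec.2.symm

/-- the coherator axiom: `FrM C` is a `Setting` -/
theorem setting_FrM (C : GlobTheory.{u}) (hC : C.IsCoheratorTheory) : Setting (FrM C) := by
  refine ⟨sums_FrM C, ?_⟩
  intro j S hS u v huv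
  have hpar : C.OpsParallel j (ev C _ _ u) (ev C _ _ v) := by
    cases j with
    | zero => trivial
    | succ j =>
      have hs : sg (FrM C) j ≫ u = sg (FrM C) j ≫ v := by
        rw [← bdInl_bdι, Category.assoc, Category.assoc, huv]
      have ht : tg (FrM C) j ≫ u = tg (FrM C) j ≫ v := by
        rw [← bdInr_bdι, Category.assoc, Category.assoc, huv]
      have hs' := congrArg (ev C _ _) hs
      have ht' := congrArg (ev C _ _) ht
      rw [ev_map, ev_map] at hs' ht'
      exact ⟨hs', ht'⟩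
  obtain ⟨z, hz1, hz2⟩ := hC.2 ⟨j, S, hS, ev C _ _ u, ev C _ _ v, hpar⟩
  let z' : ((FrM C).obj S).functor.obj (op (C.incl.obj (Shape.globe (j + 1)))) := z
  have h1 : ((FrM C).obj S).functor.map (C.incl.map (Shape.σ j)).op z' = ev C _ _ u := hz1
  have h2 : ((FrM C).obj S).functor.map (C.incl.map (Shape.τ j)).op z' = ev C _ _ v := hz2
  refine ⟨(ev C (Shape.globe (j + 1)) ((FrM C).obj S)).symm z', ?_, ?_⟩
  · rw [sg, ev_symm_map, h1, Equiv.symm_apply_apply]
  · rw [tg, ev_symm_map, h2, Equiv.symm_apply_apply]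

end Crest.Agent.R248
end

-- ▼ part R248/Section
section

/-!
# The section lemma

If `C` has a tower and `π : E → C` is a map of globular theories along which fillers of admissible
pairs lift, then `π` has a section.
-/

set_option autoImplicit false

namespace Crest.Agent.R248

open CategoryTheory CategoryTheory.Limits Opposite
open Crest.GeometryTopology.Coherator
open Crest.GeometryTopology.Coherator.GlobTheory

universe u

variable {C D : GlobTheory.{u}}

/-- A theory map preserves parallelism of operations. -/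
lemma OpsParallel.map (F : TheoryMap C D) {S : Shape} :
    ∀ {n : ℕ} {f g : C.arr (Shape.globe n) S}, C.OpsParallel n f g →
      D.OpsParallel n (F.map f) (F.map g)
  | 0, _, _, _ => trivial
  | n + 1, f, g, h => by
      refine ⟨?_, ?_⟩
      · rw [← F.map_ofShape, ← F.map_seq, ← F.map_seq, h.1]
      · rw [← F.map_ofShape, ← F.map_seq, ← F.map_seq, h.2]

/-- The image of an admissible pair along a theory map. -/
def mapAdmissible (F : TheoryMap C D) (p : C.Admissible) : D.Admissible where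
  n := p.n
  shape := p.shape
  dim_le := p.dim_le
  lower := F.map p.lower
  upper := F.map p.upper
  parallel := OpsParallel.map F p.parallel

/-- The section lemma: if every filler in `C` of the image of an admissible pair of `E` lifts to a
filler in `E`, and `C` has a tower, then `π : E → C` has a section. -/
theorem exists_section {E C : GlobTheory.{u}} (hC : Nonempty C.Tower) (π : TheoryMap E C)
    (h : ∀ (p : E.Admissible) (z : C.arr (Shape.globe (p.n + 1)) p.shape),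
      IsFillerAlong π p z →
      ∃ z' : E.arr (Shape.globe (p.n + 1)) p.shape,
        IsFillerAlong (TheoryMap.id E) p z' ∧ π.map z' = z) :
    ∃ s : TheoryMap C E, s.comp π = TheoryMap.id C := by
  classical
  obtain ⟨T⟩ := hC
  -- partial sections: theory maps `G : stage r → E` over `C`
  have step : ∀ (r : ℕ) (G : TheoryMap (T.stage r) E), G.comp π = T.toEnd r →
      ∃ G' : TheoryMap (T.stage (r + 1)) E, G'.comp π = T.toEnd (r + 1) ∧
        (T.next r).comp G' = G := by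
    intro r G hG
    have hfill : ∀ g : T.gen r, ∃ w : E.arr (Shape.globe ((T.prob r g).n + 1)) (T.prob r g).shape,
        IsFillerAlong G (T.prob r g) w ∧ π.map w = (T.toEnd (r + 1)).map (T.fill r g) := by
      intro g
      obtain ⟨z', hz', hz''⟩ := h (mapAdmissible G (T.prob r g))
        ((T.toEnd (r + 1)).map (T.fill r g)) (by
          have h0 := (T.free r).1 g
          have e1 : ∀ {S S' : Shape} (f : (T.stage r).arr S S'),
              π.map (G.map f) = (T.toEnd (r + 1)).map ((T.next r).map f) := by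
            intro S S' f
            have : (G.comp π).map f = ((T.next r).comp (T.toEnd (r + 1))).map f := by
              rw [hG, T.toEnd_comm r]
            exact this
          refine ⟨?_, ?_⟩
          · show C.seq (C.ofShape (Shape.σ _)) _ = π.map (G.map (T.prob r g).lower)
            rw [e1, ← h0.1, (T.toEnd (r + 1)).map_seq, (T.toEnd (r + 1)).map_ofShape]
            rfl
          · show C.seq (C.ofShape (Shape.τ _)) _ = π.map (G.map (T.prob r g).upper)
            rw [e1, ← h0.2, (T.toEnd (r + 1)).map_seq, (T.toEnd (r + 1)).map_ofShape]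
            rfl)
      exact ⟨z', hz', hz''⟩
    choose w hw hw' using hfill
    obtain ⟨G', ⟨hG'1, hG'2⟩, -⟩ := (T.free r).2 E G w hw
    refine ⟨G', ?_, hG'1⟩
    -- uniqueness for maps to `C`
    have hfc : ∀ g, IsFillerAlong (T.toEnd r) (T.prob r g)
        ((T.toEnd (r + 1)).map (T.fill r g)) := by
      intro g
      have h0 := (T.free r).1 g
      have e2 : ∀ {S S' : Shape} (f : (T.stage r).arr S S'),
          (T.toEnd r).map f = (T.toEnd (r + 1)).map ((T.next r).map f) := by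
        intro S S' f
        rw [← T.toEnd_comm r]; rfl
      refine ⟨?_, ?_⟩
      · rw [e2, ← h0.1, (T.toEnd (r + 1)).map_seq, (T.toEnd (r + 1)).map_ofShape]
      · rw [e2, ← h0.2, (T.toEnd (r + 1)).map_seq, (T.toEnd (r + 1)).map_ofShape]
    refine ((T.free r).2 C (T.toEnd r) (fun g => (T.toEnd (r + 1)).map (T.fill r g)) hfc).unique
      ⟨?_, ?_⟩ ⟨T.toEnd_comm r, fun g => rfl⟩
    · rw [← hG, ← hG'1]; rfl
    · intro g
      show π.map (G'.map (T.fill r g)) = _
      rw [hG'2 g, hw' g]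
  -- the compatible family
  obtain ⟨u0⟩ := T.stage_zero E
  obtain ⟨v0⟩ := T.stage_zero C
  let base : {G : TheoryMap (T.stage 0) E // G.comp π = T.toEnd 0} :=
    ⟨u0.default, by rw [v0.uniq (T.toEnd 0)]; exact v0.uniq _⟩
  let fam : (r : ℕ) → {G : TheoryMap (T.stage r) E // G.comp π = T.toEnd r} := fun r =>
    Nat.rec base (fun r G => ⟨(step r G.1 G.2).choose, (step r G.1 G.2).choose_spec.1⟩) r
  have hfam : ∀ r, (T.next r).comp (fam (r + 1)).1 = (fam r).1 := fun r =>
    (step r (fam r).1 (fam r).2).choose_spec.2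
  obtain ⟨s, hs, -⟩ := T.colim E (fun r => (fam r).1) hfam
  refine ⟨s, ?_⟩
  refine (T.colim C T.toEnd T.toEnd_comm).unique (fun r => ?_) (fun r => ?_)
  · have h1 := (fam r).2
    rw [← hs r] at h1
    exact h1
  · rfl

end Crest.Agent.R248
end

-- ▼ part R248/Paths
section

/-! TASK Paths: the path functor `P X = (S ↦ Hom (G S) X)` attached to a cylinder functor with lifts.
Build the globular theory `E` over `C` with `E.arr S T` = pairs `(Φ : G.obj S ⟶ G.obj T, f : C.arr S T)`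
compatible with `ι₀ ι₁` (`f` is turned into a map `FrM S ⟶ FrM T` by Yoneda), apply
`exists_section`, and define `(P X).functor.obj (op ⟨S⟩) = (G.obj S ⟶ X)`. -/

set_option autoImplicit false

namespace Crest.Agent.R248

open CategoryTheory CategoryTheory.Limits Opposite
open Crest.GeometryTopology.Coherator

universe u

namespace Paths

section

variable (C : GlobTheory.{u})

/-- an operation as a map between free models -/
noncomputable def frArr {S T : Shape} (f : C.arr S T) : (FrM C).obj S ⟶ (FrM C).obj T :=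
  (yoneda.map (show (⟨S⟩ : C.Ob) ⟶ (⟨T⟩ : C.Ob) from f) :
    (GlobTheory.GlobModel.freeOn C S).functor ⟶ (GlobTheory.GlobModel.freeOn C T).functor)

theorem frArr_one (S : Shape) : frArr C (C.one S) = 𝟙 ((FrM C).obj S) := by
  exact yoneda.map_id (⟨S⟩ : C.Ob)

theorem frArr_seq {S T U : Shape} (f : C.arr S T) (g : C.arr T U) :
    frArr C (C.seq f g) = frArr C f ≫ frArr C g := by
  exact yoneda.map_comp (show (⟨S⟩ : C.Ob) ⟶ (⟨T⟩ : C.Ob) from f)
    (show (⟨T⟩ : C.Ob) ⟶ (⟨U⟩ : C.Ob) from g)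

theorem frArr_ofShape {S T : Shape} (f : S ⟶ T) : frArr C (C.ofShape f) = (FrM C).map f := rfl

end

section

variable {C : GlobTheory.{u}} (G : Shape ⥤ GlobTheory.GlobModel C) (ι₀ ι₁ : FrM C ⟶ G)

/-- arrows of the theory of cylinder maps -/
def EArr (S T : Shape) : Type u :=
  { p : (G.obj S ⟶ G.obj T) × C.arr S T //
    ι₀.app S ≫ p.1 = frArr C p.2 ≫ ι₀.app T ∧ ι₁.app S ≫ p.1 = frArr C p.2 ≫ ι₁.app T }

theorem EArr.ext {S T : Shape} {p q : EArr G ι₀ ι₁ S T} (h1 : p.1.1 = q.1.1) (h2 : p.1.2 = q.1.2) :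
    p = q := Subtype.ext (Prod.ext h1 h2)

/-- the pre-theory of cylinder maps -/
noncomputable def EPre : PreTheory.{u} where
  arr := EArr G ι₀ ι₁
  one S := ⟨(𝟙 _, C.one S), by
    constructor
    · change ι₀.app S ≫ 𝟙 _ = frArr C (C.one S) ≫ _
      rw [frArr_one, Category.id_comp, Category.comp_id]
    · change ι₁.app S ≫ 𝟙 _ = frArr C (C.one S) ≫ _
      rw [frArr_one, Category.id_comp, Category.comp_id]⟩
  seq f g := ⟨(f.1.1 ≫ g.1.1, C.seq f.1.2 g.1.2), by
    constructor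
    · change ι₀.app _ ≫ f.1.1 ≫ g.1.1 = frArr C (C.seq f.1.2 g.1.2) ≫ _
      rw [frArr_seq, Category.assoc, ← g.2.1, ← Category.assoc, f.2.1, Category.assoc]
    · change ι₁.app _ ≫ f.1.1 ≫ g.1.1 = frArr C (C.seq f.1.2 g.1.2) ≫ _
      rw [frArr_seq, Category.assoc, ← g.2.2, ← Category.assoc, f.2.2, Category.assoc]⟩
  one_seq f := EArr.ext _ _ _ (Category.id_comp _) (C.one_seq _)
  seq_one f := EArr.ext _ _ _ (Category.comp_id _) (C.seq_one _)
  seq_assoc f g h := EArr.ext _ _ _ (Category.assoc _ _ _) (C.seq_assoc _ _ _)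
  ofShape f := ⟨(G.map f, C.ofShape f), by
    constructor
    · change ι₀.app _ ≫ G.map f = frArr C (C.ofShape f) ≫ _
      rw [frArr_ofShape, ι₀.naturality]
    · change ι₁.app _ ≫ G.map f = frArr C (C.ofShape f) ≫ _
      rw [frArr_ofShape, ι₁.naturality]⟩
  ofShape_id S := EArr.ext _ _ _ (G.map_id S) (C.ofShape_id S)
  ofShape_comp f g := EArr.ext _ _ _ (G.map_comp f g) (C.ofShape_comp f g)

theorem hom_ext_glue {M : Type*} [Category M] {G : Shape ⥤ M} (hG : Sums G) (S : Shape) (b h : ℕ)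
    (hb : b < S.last) (hh : b < h) {X : M} {u v : G.obj (S.glue b h hb hh) ⟶ X}
    (h1 : G.map (S.inLeft b h hb hh) ≫ u = G.map (S.inLeft b h hb hh) ≫ v)
    (h2 : G.map (S.inRight b h hb hh) ≫ u = G.map (S.inRight b h hb hh) ≫ v) : u = v :=
  (hG S b h hb hh).hom_ext h1 h2

/-- elementary form of `RespectsSums`, existence -/
theorem glue_exists (C : GlobTheory.{u}) (S T : Shape) (b h : ℕ) (hb : b < S.last) (hh : b < h)
    (f : C.arr S T) (g : C.arr (Shape.globe h) T)
    (e : C.seq (C.ofShape (S.hinge hb)) f = C.seq (C.ofShape (Shape.faceMap hh false)) g) :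
    ∃ k : C.arr (S.glue b h hb hh) T, C.seq (C.ofShape (S.inLeft b h hb hh)) k = f ∧
      C.seq (C.ofShape (S.inRight b h hb hh)) k = g := by
  have hC := C.respectsSums S b h hb hh
  exact ⟨hC.desc (W := (⟨T⟩ : C.Ob)) f g e, hC.inl_desc (W := (⟨T⟩ : C.Ob)) f g e,
    hC.inr_desc (W := (⟨T⟩ : C.Ob)) f g e⟩

/-- elementary form of `RespectsSums`, uniqueness -/
theorem glue_unique (C : GlobTheory.{u}) (S T : Shape) (b h : ℕ) (hb : b < S.last) (hh : b < h)
    (k k' : C.arr (S.glue b h hb hh) T)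
    (h1 : C.seq (C.ofShape (S.inLeft b h hb hh)) k = C.seq (C.ofShape (S.inLeft b h hb hh)) k')
    (h2 : C.seq (C.ofShape (S.inRight b h hb hh)) k = C.seq (C.ofShape (S.inRight b h hb hh)) k') :
    k = k' := by
  have hC := C.respectsSums S b h hb hh
  exact hC.hom_ext (W := (⟨T⟩ : C.Ob)) h1 h2

/-- elementary criterion for `RespectsSums` -/
theorem respectsSums_of (E : PreTheory.{u})
    (hw : ∀ (S : Shape) (b h : ℕ) (hb : b < S.last) (hh : b < h),
      E.seq (E.ofShape (S.hinge hb)) (E.ofShape (S.inLeft b h hb hh)) =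
        E.seq (E.ofShape (Shape.faceMap hh false)) (E.ofShape (S.inRight b h hb hh)))
    (hex : ∀ (S T : Shape) (b h : ℕ) (hb : b < S.last) (hh : b < h)
      (f : E.arr S T) (g : E.arr (Shape.globe h) T),
      E.seq (E.ofShape (S.hinge hb)) f = E.seq (E.ofShape (Shape.faceMap hh false)) g →
      ∃ k : E.arr (S.glue b h hb hh) T, E.seq (E.ofShape (S.inLeft b h hb hh)) k = f ∧
        E.seq (E.ofShape (S.inRight b h hb hh)) k = g)
    (hun : ∀ (S T : Shape) (b h : ℕ) (hb : b < S.last) (hh : b < h)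
      (k k' : E.arr (S.glue b h hb hh) T),
      E.seq (E.ofShape (S.inLeft b h hb hh)) k = E.seq (E.ofShape (S.inLeft b h hb hh)) k' →
      E.seq (E.ofShape (S.inRight b h hb hh)) k = E.seq (E.ofShape (S.inRight b h hb hh)) k' →
      k = k') : E.RespectsSums := by
  intro S b h hb hh
  have H : ∀ s : PushoutCocone (E.incl.map (S.hinge hb)) (E.incl.map (Shape.faceMap hh false)),
      ∃ k : E.incl.obj (S.glue b h hb hh) ⟶ s.pt, E.incl.map (S.inLeft b h hb hh) ≫ k = s.inl ∧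
        E.incl.map (S.inRight b h hb hh) ≫ k = s.inr := by
    intro s
    exact hex S s.pt.shape b h hb hh s.inl s.inr s.condition
  refine ⟨⟨hw S b h hb hh⟩, ⟨PushoutCocone.IsColimit.mk _ (fun s => (H s).choose)
    (fun s => (H s).choose_spec.1) (fun s => (H s).choose_spec.2) ?_⟩⟩
  intro s m h1 h2
  exact hun S s.pt.shape b h hb hh _ _ (h1.trans (H s).choose_spec.1.symm)
    (h2.trans (H s).choose_spec.2.symm)

theorem EPre_sums (hG : Sums G) : (EPre G ι₀ ι₁).RespectsSums := by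
  have hF := sums_FrM C
  refine respectsSums_of _ ?_ ?_ ?_
  · intro S b h hb hh
    refine EArr.ext _ _ _ ?_ ?_
    · exact (hG S b h hb hh).w
    · exact (C.respectsSums S b h hb hh).w
  · intro S T b h hb hh f g e
    have e1 : G.map (S.hinge hb) ≫ f.1.1 = G.map (Shape.faceMap hh false) ≫ g.1.1 :=
      congrArg (fun z : EArr G ι₀ ι₁ (Shape.globe b) T => z.1.1) e
    have e2 : C.seq (C.ofShape (S.hinge hb)) f.1.2 =
        C.seq (C.ofShape (Shape.faceMap hh false)) g.1.2 :=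
      congrArg (fun z : EArr G ι₀ ι₁ (Shape.globe b) T => z.1.2) e
    obtain ⟨k, hk1, hk2⟩ := glue_exists C S T b h hb hh f.1.2 g.1.2 e2
    have key : ∀ ι : FrM C ⟶ G, (ι.app S ≫ f.1.1 = frArr C f.1.2 ≫ ι.app T) →
        (ι.app _ ≫ g.1.1 = frArr C g.1.2 ≫ ι.app T) →
        ι.app (S.glue b h hb hh) ≫ (hG S b h hb hh).desc _ _ e1 = frArr C k ≫ ι.app T := by
      intro ι h1 h2
      refine hom_ext_glue hF S b h hb hh ?_ ?_
      · rw [← Category.assoc, ← Category.assoc, ι.naturality, ← frArr_ofShape, ← frArr_seq, hk1,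
          Category.assoc, (hG S b h hb hh).inl_desc _ _ e1, h1]
      · rw [← Category.assoc, ← Category.assoc, ι.naturality, ← frArr_ofShape, ← frArr_seq, hk2,
          Category.assoc, (hG S b h hb hh).inr_desc _ _ e1, h2]
    exact ⟨⟨((hG S b h hb hh).desc _ _ e1, k), key ι₀ f.2.1 g.2.1, key ι₁ f.2.2 g.2.2⟩,
      EArr.ext _ _ _ ((hG S b h hb hh).inl_desc _ _ _) hk1,
      EArr.ext _ _ _ ((hG S b h hb hh).inr_desc _ _ _) hk2⟩
  · intro S T b h hb hh k k' h1 h2
    refine EArr.ext _ _ _ ?_ ?_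
    · exact (hG S b h hb hh).hom_ext
        (congrArg (fun z : EArr G ι₀ ι₁ S T => z.1.1) h1)
        (congrArg (fun z : EArr G ι₀ ι₁ (Shape.globe h) T => z.1.1) h2)
    · exact glue_unique C S T b h hb hh _ _
        (congrArg (fun z : EArr G ι₀ ι₁ S T => z.1.2) h1)
        (congrArg (fun z : EArr G ι₀ ι₁ (Shape.globe h) T => z.1.2) h2)

/-- the theory of cylinder maps -/
noncomputable def ETh (hG : Sums G) : GlobTheory.{u} where
  toPreTheory := EPre G ι₀ ι₁
  respectsSums := EPre_sums G ι₀ ι₁ hG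

/-- the projection to `C` -/
noncomputable def proj (hG : Sums G) : GlobTheory.TheoryMap (ETh G ι₀ ι₁ hG) C where
  map f := f.1.2
  map_one _ := rfl
  map_seq _ _ := rfl
  map_ofShape _ := rfl

theorem bd_ext_zero {M : Type*} [Category M] [HasPushouts M] [HasInitial M] (G : Shape ⥤ M) {X : M}
    (u v : glob G 0 ⟶ X) : bdι G 0 ≫ u = bdι G 0 ≫ v := (bdInit G).hom_ext _ _

theorem bd_ext_succ {M : Type*} [Category M] [HasPushouts M] [HasInitial M] (G : Shape ⥤ M) {X : M}
    (j : ℕ) (u v : glob G (j + 1) ⟶ X) (hs : sg G j ≫ u = sg G j ≫ v)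
    (ht : tg G j ≫ u = tg G j ≫ v) : bdι G (j + 1) ≫ u = bdι G (j + 1) ≫ v := by
  refine (bd_sq G j).hom_ext ?_ ?_
  · rw [← Category.assoc, ← Category.assoc, bdInl_bdι, hs]
  · rw [← Category.assoc, ← Category.assoc, bdInr_bdι, ht]

theorem lift (hG : Sums G) (hL : Lifts (FrM C) G ι₀ ι₁) (p : (ETh G ι₀ ι₁ hG).Admissible)
    (z : C.arr (Shape.globe (p.n + 1)) p.shape)
    (hz : GlobTheory.IsFillerAlong (proj G ι₀ ι₁ hG) p z) :
    ∃ z' : (ETh G ι₀ ι₁ hG).arr (Shape.globe (p.n + 1)) p.shape,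
      GlobTheory.IsFillerAlong (GlobTheory.TheoryMap.id _) p z' ∧ (proj G ι₀ ι₁ hG).map z' = z := by
  obtain ⟨n, S, hdim, lo, up, hpar⟩ := p
  obtain ⟨⟨Φ, f⟩, hf0, hf1⟩ := lo
  obtain ⟨⟨Ψ, g⟩, hg0, hg1⟩ := up
  obtain ⟨hz0, hz1⟩ := hz
  change C.arr (Shape.globe (n + 1)) S at z
  change C.seq (C.ofShape (Shape.σ n)) z = f at hz0
  change C.seq (C.ofShape (Shape.τ n)) z = g at hz1
  dsimp only at hf0 hf1 hg0 hg1
  have hpar' : bdι G n ≫ Φ = bdι G n ≫ Ψ ∧
      bdι (FrM C) n ≫ frArr C f = bdι (FrM C) n ≫ frArr C g := by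
    cases n with
    | zero => exact ⟨bd_ext_zero _ _ _, bd_ext_zero _ _ _⟩
    | succ n =>
      obtain ⟨h1, h2⟩ := hpar
      constructor
      · refine bd_ext_succ G n _ _ ?_ ?_
        · exact congrArg (fun z : EArr G ι₀ ι₁ (Shape.globe n) S => z.1.1) h1
        · exact congrArg (fun z : EArr G ι₀ ι₁ (Shape.globe n) S => z.1.1) h2
      · refine bd_ext_succ (FrM C) n _ _ ?_ ?_
        · have := congrArg (fun z : EArr G ι₀ ι₁ (Shape.globe n) S => frArr C z.1.2) h1
          change frArr C (C.seq (C.ofShape (Shape.σ n)) f) =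
            frArr C (C.seq (C.ofShape (Shape.σ n)) g) at this
          rwa [frArr_seq, frArr_seq] at this
        · have := congrArg (fun z : EArr G ι₀ ι₁ (Shape.globe n) S => frArr C z.1.2) h2
          change frArr C (C.seq (C.ofShape (Shape.τ n)) f) =
            frArr C (C.seq (C.ofShape (Shape.τ n)) g) at this
          rwa [frArr_seq, frArr_seq] at this
  obtain ⟨R, hR0, hR1, hR2, hR3⟩ := hL n S hdim Φ Ψ (frArr C f) (frArr C g) hf0 hf1 hg0 hg1
    hpar'.1 hpar'.2 (frArr C z) (by rw [← hz0, frArr_seq]; rfl) (by rw [← hz1, frArr_seq]; rfl)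
  refine ⟨⟨(R, z), hR2, hR3⟩, ⟨?_, ?_⟩, rfl⟩
  · exact EArr.ext _ _ _ hR0 hz0
  · exact EArr.ext _ _ _ hR1 hz1

section Section

variable {G ι₀ ι₁}
variable {hG : Sums G} (s : GlobTheory.TheoryMap C (ETh G ι₀ ι₁ hG))
  (hs : s.comp (proj G ι₀ ι₁ hG) = GlobTheory.TheoryMap.id C)

/-- the operation on cylinders attached to an operation -/
def cyl {S T : Shape} (f : C.arr S T) : G.obj S ⟶ G.obj T := (s.map f).1.1

theorem cyl_one (S : Shape) : cyl s (C.one S) = 𝟙 (G.obj S) := by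
  unfold cyl
  rw [s.map_one]
  rfl

theorem cyl_seq {S T U : Shape} (f : C.arr S T) (g : C.arr T U) :
    cyl s (C.seq f g) = cyl s f ≫ cyl s g := by
  unfold cyl
  rw [s.map_seq]
  rfl

theorem cyl_ofShape {S T : Shape} (f : S ⟶ T) : cyl s (C.ofShape f) = G.map f := by
  unfold cyl
  rw [s.map_ofShape]
  rfl

include hs in
theorem cyl_snd {S T : Shape} (f : C.arr S T) : (s.map f).1.2 = f := by
  have := congrArg (fun F : GlobTheory.TheoryMap C C => F.map f) hs
  exact this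

include hs in
theorem cyl_ι₀ {S T : Shape} (f : C.arr S T) : ι₀.app S ≫ cyl s f = frArr C f ≫ ι₀.app T := by
  have := (s.map f).2.1
  rw [cyl_snd s hs] at this
  exact this

include hs in
theorem cyl_ι₁ {S T : Shape} (f : C.arr S T) : ι₁.app S ≫ cyl s f = frArr C f ≫ ι₁.app T := by
  have := (s.map f).2.2
  rw [cyl_snd s hs] at this
  exact this

/-- the functor on `C` of cylinders -/
noncomputable def cylF : C.Ob ⥤ GlobTheory.GlobModel C where
  obj S := G.obj S.shape
  map {S T} f := cyl s (show C.arr S.shape T.shape from f)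
  map_id S := cyl_one s S.shape
  map_comp _ _ := cyl_seq s _ _

theorem cylF_incl {S T : Shape} (f : S ⟶ T) :
    (cylF s).map (C.incl.map f) = G.map f := cyl_ofShape s f

/-- the path object -/
noncomputable def pathObj (X : GlobTheory.GlobModel C) : GlobTheory.GlobModel C where
  functor := (cylF s).op ⋙ yoneda.obj X
  sums S b h hb hh := by
    have := ((hG S b h hb hh).op.map (yoneda.obj X)).flip
    rw [← cylF_incl s, ← cylF_incl s, ← cylF_incl s, ← cylF_incl s] at this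
    exact this

/-- the path functor -/
noncomputable def pathF : GlobTheory.GlobModel C ⥤ GlobTheory.GlobModel C where
  obj X := pathObj s X
  map {X Y} f := (Functor.whiskerLeft (cylF s).op (yoneda.map f) :
    (pathObj s X).functor ⟶ (pathObj s Y).functor)
  map_id X := by
    change Functor.whiskerLeft (cylF s).op (yoneda.map (𝟙 X)) = 𝟙 _
    rw [yoneda.map_id]
    rfl
  map_comp f g := by
    change Functor.whiskerLeft (cylF s).op (yoneda.map (f ≫ g)) =
      Functor.whiskerLeft (cylF s).op (yoneda.map f) ≫ Functor.whiskerLeft (cylF s).op (yoneda.map g)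
    rw [yoneda.map_comp]
    rfl

/-- Yoneda -/
noncomputable def yo (S : Shape) (X : GlobTheory.GlobModel C) :
    ((FrM C).obj S ⟶ X) ≃ X.functor.obj (op (⟨S⟩ : C.Ob)) :=
  yonedaEquiv (X := (⟨S⟩ : C.Ob)) (F := X.functor)

theorem yo_left {S T : Shape} (f : C.arr S T) {X : GlobTheory.GlobModel C}
    (g : (FrM C).obj T ⟶ X) :
    yo S X (frArr C f ≫ g) = X.functor.map (Quiver.Hom.op
      (show (⟨S⟩ : C.Ob) ⟶ (⟨T⟩ : C.Ob) from f)) (yo T X g) := by
  exact (yonedaEquiv_naturality (F := X.functor) g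
    (show (⟨S⟩ : C.Ob) ⟶ (⟨T⟩ : C.Ob) from f)).symm

theorem yo_right {S : Shape} {X Y : GlobTheory.GlobModel C}
    (g : (FrM C).obj S ⟶ X) (h : X ⟶ Y) :
    yo S Y (g ≫ h) = (show X.functor ⟶ Y.functor from h).app (op (⟨S⟩ : C.Ob)) (yo S X g) := by
  exact yonedaEquiv_comp (F := X.functor) (G := Y.functor) g h

/-- an end of the path object -/
noncomputable def ev (ι : FrM C ⟶ G)
    (hι : ∀ {S T : Shape} (f : C.arr S T), ι.app S ≫ cyl s f = frArr C f ≫ ι.app T)
    (X : GlobTheory.GlobModel C) : pathObj s X ⟶ X :=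
  ({ app := fun S => TypeCat.ofHom (fun φ => yo S.unop.shape X (ι.app S.unop.shape ≫ φ))
     naturality := by
      intro S T f
      ext φ
      change G.obj S.unop.shape ⟶ X at φ
      change yo T.unop.shape X (ι.app T.unop.shape ≫ (cyl s f.unop ≫ φ)) =
        X.functor.map f (yo S.unop.shape X (ι.app S.unop.shape ≫ φ))
      rw [← Category.assoc, hι, Category.assoc]
      exact yo_left _ _ } : (pathObj s X).functor ⟶ X.functor)

theorem ev_apply (ι : FrM C ⟶ G)
    (hι : ∀ {S T : Shape} (f : C.arr S T), ι.app S ≫ cyl s f = frArr C f ≫ ι.app T)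
    (X : GlobTheory.GlobModel C) (S : Shape) (φ : G.obj S ⟶ X) :
    (show (pathObj s X).functor ⟶ X.functor from ev s ι hι X).app (op (⟨S⟩ : C.Ob)) φ =
      yo S X (ι.app S ≫ φ) := rfl

/-- the end as a natural transformation -/
noncomputable def evN (ι : FrM C ⟶ G)
    (hι : ∀ {S T : Shape} (f : C.arr S T), ι.app S ≫ cyl s f = frArr C f ≫ ι.app T) :
    pathF s ⟶ 𝟭 (GlobTheory.GlobModel C) where
  app X := ev s ι hι X
  naturality := by
    intro X Y h
    refine NatTrans.ext (funext fun S => ?_)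
    ext φ
    change G.obj S.unop.shape ⟶ X at φ
    change yo S.unop.shape Y (ι.app S.unop.shape ≫ (φ ≫ h)) =
      (show X.functor ⟶ Y.functor from h).app _ (yo S.unop.shape X (ι.app S.unop.shape ≫ φ))
    rw [← Category.assoc]
    exact yo_right _ _

include hs in
/-- the path functor -/
theorem pathFun : Nonempty (PathFun (FrM C) G ι₀ ι₁) := by
  refine ⟨{ P := pathF s, e := fun S X => yo S (pathObj s X), e_left := ?_, e_right := ?_,
            ev₀ := evN s ι₀ (fun f => cyl_ι₀ s hs f), ev₁ := evN s ι₁ (fun f => cyl_ι₁ s hs f),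
            e_ev₀ := ?_, e_ev₁ := ?_ }⟩
  · intro S T f X g
    have := yo_left (C.ofShape f) (X := pathObj s X) g
    refine this.trans ?_
    change cyl s (C.ofShape f) ≫ _ = _
    rw [cyl_ofShape]
    rfl
  · intro S X Y g h
    exact yo_right (Y := pathObj s Y) g ((pathF s).map h)
  · intro S X g
    apply (yo S X).injective
    refine (yo_right g (ev s ι₀ (fun f => cyl_ι₀ s hs f) X)).trans ?_
    exact ev_apply s ι₀ _ X S _
  · intro S X g
    apply (yo S X).injective
    refine (yo_right g (ev s ι₁ (fun f => cyl_ι₁ s hs f) X)).trans ?_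
    exact ev_apply s ι₁ _ X S _

end Section

end

end Paths

theorem hasPaths_FrM (C : GlobTheory.{u}) (hC : C.IsCoheratorTheory) : HasPaths (FrM C) := by
  intro G hG ι₀ ι₁ hL
  obtain ⟨s, hs⟩ := exists_section hC.1 (Paths.proj G ι₀ ι₁ hG)
    (Paths.lift G ι₀ ι₁ hG hL)
  exact Paths.pathFun s hs

end Crest.Agent.R248
end

-- ▼ part R248/Lift
section

/-!
Row 248 (S0382). Lifting of cells against maps of models, sections over cellular models,
universal property (in terms of cells) of the pushout along the source inclusion.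
-/

set_option autoImplicit false

open CategoryTheory CategoryTheory.Limits Opposite

universe u

namespace Crest.Agent.R248

open Crest.GeometryTopology.Coherator
open Crest.GeometryTopology.Coherator.GlobTheory
open Crest.GeometryTopology.Coherator.GlobTheory.GlobModel

variable {C : GlobTheory.{u}}

/-- Cell lifting property ("trivial fibration"). -/
def CellLift {P X : C.GlobModel} (p : P ⟶ X) : Prop :=
  ∀ (n : ℕ) (s : P.cells.Sphere n) (x : X.cells.cell n),
    X.cells.bdry n x = (cellsMap p).sphere n s →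
      ∃ z : P.cells.cell n, P.cells.bdry n z = s ∧ (cellsMap p).app n z = x

theorem cellsMap_comp_app {X Y Z : C.GlobModel} (f : X ⟶ Y) (g : Y ⟶ Z) (n : ℕ)
    (x : X.cells.cell n) :
    (cellsMap (f ≫ g)).app n x = (cellsMap g).app n ((cellsMap f).app n x) := rfl

theorem cellsMap_id_app {X : C.GlobModel} (n : ℕ) (x : X.cells.cell n) :
    (cellsMap (𝟙 X)).app n x = x := rfl

theorem sphere_comp {X Y Z : C.GlobModel} (f : X ⟶ Y) (g : Y ⟶ Z) (n : ℕ)
    (s : X.cells.Sphere n) :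
    (cellsMap (f ≫ g)).sphere n s = (cellsMap g).sphere n ((cellsMap f).sphere n s) := by
  cases n with
  | zero => rfl
  | succ n => rfl

theorem bdry_map {X Y : C.GlobModel} (f : X ⟶ Y) (n : ℕ) (x : X.cells.cell n) :
    Y.cells.bdry n ((cellsMap f).app n x) = (cellsMap f).sphere n (X.cells.bdry n x) := by
  cases n with
  | zero => rfl
  | succ n =>
    apply Subtype.ext
    apply Prod.ext
    · exact ((cellsMap f).app_src n x).symm
    · exact ((cellsMap f).app_tgt n x).symm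

theorem hasLiftingProperty_of_isAttaching {X Y : C.GlobModel} {f : X ⟶ Y} (hf : IsAttaching f)
    {P Z : C.GlobModel} (p : P ⟶ Z) (hp : CellLift p) : HasLiftingProperty f p where
  sq_hasLift {g k} sq := by
    have hw : g ≫ p = f ≫ k := sq.w
    have h1 : ∀ i, ∃ z : P.cells.cell (hf.dimOf i),
        P.cells.bdry _ z = (cellsMap g).sphere _ (hf.sphere i) ∧
        (cellsMap p).app _ z = (cellsMap k).app _ (hf.newCell i) := by
      intro i
      apply hp
      rw [bdry_map, hf.newCell_bdry, ← sphere_comp, ← sphere_comp, hw]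
    choose z hz1 hz2 using h1
    obtain ⟨h, ⟨hh1, hh2⟩, -⟩ := hf.universal P g z hz1
    obtain ⟨h', -, hu⟩ := hf.universal Z (g ≫ p) (fun i => (cellsMap p).app _ (z i)) (by
      intro i
      rw [bdry_map, hz1, sphere_comp])
    refine ⟨⟨⟨h, hh1, ?_⟩⟩⟩
    have e1 : h ≫ p = h' := hu _ ⟨by rw [← Category.assoc, hh1], by
      intro i
      rw [cellsMap_comp_app, hh2]⟩
    have e2 : k = h' := hu _ ⟨hw.symm, by
      intro i
      rw [hz2]⟩
    rw [e1, e2]



/-! ### Maps out of disks -/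

/-- The cell named by a map from a disk. -/
noncomputable def diskCell {X : C.GlobModel} {n : ℕ} (a : diskModel C n ⟶ X) : X.cells.cell n :=
  yonedaEquiv (a : (diskModel C n).functor ⟶ X.functor)

/-- The map from a disk naming a cell. -/
noncomputable def diskMap {X : C.GlobModel} {n : ℕ} (x : X.cells.cell n) : diskModel C n ⟶ X :=
  (yonedaEquiv.symm (x : X.functor.obj (op (⟨Shape.globe n⟩ : C.Ob))) :
    (diskModel C n).functor ⟶ X.functor)

theorem diskCell_diskMap {X : C.GlobModel} {n : ℕ} (x : X.cells.cell n) :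
    diskCell (diskMap x) = x :=
  yonedaEquiv.apply_symm_apply _

theorem diskMap_diskCell {X : C.GlobModel} {n : ℕ} (a : diskModel C n ⟶ X) :
    diskMap (diskCell a) = a :=
  yonedaEquiv.symm_apply_apply _

theorem diskCell_injective {X : C.GlobModel} {n : ℕ} {a b : diskModel C n ⟶ X}
    (h : diskCell a = diskCell b) : a = b := by
  rw [← diskMap_diskCell a, h, diskMap_diskCell]

theorem diskCell_comp {X Y : C.GlobModel} {n : ℕ} (a : diskModel C n ⟶ X) (f : X ⟶ Y) :
    diskCell (a ≫ f) = (cellsMap f).app n (diskCell a) :=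
  yonedaEquiv_comp _ _

theorem src_diskCell {X : C.GlobModel} {n : ℕ} (b : diskModel C (n + 1) ⟶ X) :
    X.cells.src n (diskCell b) = diskCell (sourceIncl C n ≫ b) :=
  yonedaEquiv_naturality (b : (diskModel C (n + 1)).functor ⟶ X.functor)
    (C.incl.map (Shape.σ n))

/-! ### Actions and units -/

theorem act_seq (X : C.GlobModel) {R S T : Shape} (f : C.arr R S) (g : C.arr S T)
    (t : X.functor.obj (op (⟨T⟩ : C.Ob))) :
    X.act (C.seq f g) t = X.act f (X.act g t) := by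
  have := X.functor.map_comp (Quiver.Hom.op (X := (⟨S⟩ : C.Ob)) (Y := (⟨T⟩ : C.Ob)) g)
    (Quiver.Hom.op (X := (⟨R⟩ : C.Ob)) (Y := (⟨S⟩ : C.Ob)) f)
  exact types_congr_hom this t

theorem act_one (X : C.GlobModel) {S : Shape} (t : X.functor.obj (op (⟨S⟩ : C.Ob))) :
    X.act (C.one S) t = t :=
  types_congr_hom (X.functor.map_id (op (⟨S⟩ : C.Ob))) t



theorem src_unitCell (X : C.GlobModel) (e : C.UnitChoice) (n : ℕ) (x : X.cells.cell n) :
    X.cells.src n (X.unitCell e n x) = x := by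
  exact (act_seq X (C.ofShape (Shape.σ n)) (e.unit n) x).symm.trans
    ((congrArg (fun o => X.act o x) (e.src_unit n)).trans (act_one X x))


theorem map_act {X Y : C.GlobModel} (f : X ⟶ Y) {S T : Shape} (o : C.arr S T)
    (t : X.functor.obj (op (⟨T⟩ : C.Ob))) :
    f.app (op (⟨S⟩ : C.Ob)) (X.act o t) = Y.act o (f.app (op (⟨T⟩ : C.Ob)) t) :=
  types_congr_hom (f.naturality
    (Quiver.Hom.op (X := (⟨S⟩ : C.Ob)) (Y := (⟨T⟩ : C.Ob)) o)) t

theorem map_unitCell {X Y : C.GlobModel} (f : X ⟶ Y) (e : C.UnitChoice) (n : ℕ)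
    (x : X.cells.cell n) :
    (cellsMap f).app (n + 1) (X.unitCell e n x) = Y.unitCell e n ((cellsMap f).app n x) :=
  map_act f (e.unit n) x

theorem map_basePoint {X Y : C.GlobModel} (f : X ⟶ Y) (e : C.UnitChoice) (x : X.cells.cell 0)
    (n : ℕ) :
    (cellsMap f).app n (X.basePoint e x n) = Y.basePoint e ((cellsMap f).app 0 x) n := by
  induction n with
  | zero => rfl
  | succ n ih =>
    show (cellsMap f).app (n + 1) (X.unitCell e n (X.basePoint e x n)) =
      Y.unitCell e n (Y.basePoint e ((cellsMap f).app 0 x) n)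
    rw [map_unitCell, ih]



/-! ### The pushout along the source inclusion, in terms of cells -/

section Pushout

variable {X Y : C.GlobModel} {n : ℕ} {a : diskModel C n ⟶ X} {i : X ⟶ Y}
  {b : diskModel C (n + 1) ⟶ Y}


/-- Maps out of the pushout. -/
theorem exists_desc (sq : IsPushout a (sourceIncl C n) i b) {Z : C.GlobModel} (g : X ⟶ Z)
    (z : Z.cells.cell (n + 1)) (hz : Z.cells.src n z = (cellsMap g).app n (diskCell a)) :
    ∃ h : Y ⟶ Z, i ≫ h = g ∧ (cellsMap h).app (n + 1) (diskCell b) = z := by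
  have hw : a ≫ g = sourceIncl C n ≫ diskMap z := by
    apply diskCell_injective
    rw [diskCell_comp, ← src_diskCell, diskCell_diskMap, hz]
  refine ⟨sq.desc g (diskMap z) hw, sq.inl_desc _ _ _, ?_⟩
  rw [← diskCell_comp, sq.inr_desc, diskCell_diskMap]


/-- The retraction `r : Y ⟶ X` sending the new cell to the unit on `a`. -/
theorem exists_retraction (e : C.UnitChoice) (sq : IsPushout a (sourceIncl C n) i b) :
    ∃ r : Y ⟶ X, i ≫ r = 𝟙 X ∧
      (cellsMap r).app (n + 1) (diskCell b) = X.unitCell e n (diskCell a) := by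
  apply exists_desc sq
  rw [cellsMap_id_app, src_unitCell]

/-- Reduction of the weak equivalence statement to a statement about parallel cells with the
same image under the retraction. -/
theorem isWeakEquiv_of_retraction (e : C.UnitChoice) (i : X ⟶ Y) (r : Y ⟶ X) (hr : i ≫ r = 𝟙 X)
    (H : ∀ (k : ℕ) (u v : Y.cells.cell k), Y.cells.AreParallel k u v →
      (cellsMap r).app k u = (cellsMap r).app k v → Y.cells.Step k u v) :
    IsWeakEquiv e i := by
  have hri : ∀ (k : ℕ) (x : X.cells.cell k), (cellsMap r).app k ((cellsMap i).app k x) = x := by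
    intro k x
    rw [← cellsMap_comp_app, hr, cellsMap_id_app]
  constructor
  · constructor
    · intro p q hpq
      have h := congrArg (componentsMap r) hpq
      induction p using Quot.ind with
      | mk p =>
        induction q using Quot.ind with
        | mk q =>
          have h' : Quot.mk (X.cells.Step 0) ((cellsMap r).app 0 ((cellsMap i).app 0 p)) =
            Quot.mk (X.cells.Step 0) ((cellsMap r).app 0 ((cellsMap i).app 0 q)) := h
          rw [hri, hri] at h'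
          exact h'
    · intro q
      induction q using Quot.ind with
      | mk q =>
        refine ⟨Quot.mk _ ((cellsMap r).app 0 q), ?_⟩
        exact Quot.sound (H 0 _ _ trivial (hri 0 _))
  · intro x n
    -- the retraction on loops
    have hbase : ∀ k, (cellsMap r).app k (Y.basePoint e ((cellsMap i).app 0 x) k) =
        X.basePoint e x k := by
      intro k
      rw [map_basePoint, hri]
    let ρ : Y.LoopsAt e ((cellsMap i).app 0 x) n → X.LoopsAt e x n := fun w =>
      ⟨(cellsMap r).app (n + 1) w.1, by rw [← (cellsMap r).app_src, w.2.1, hbase],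
        by rw [← (cellsMap r).app_tgt, w.2.2, hbase]⟩
    let R : Y.HomotopyClasses e ((cellsMap i).app 0 x) n → X.HomotopyClasses e x n :=
      Quot.map ρ (by
        rintro w w' ⟨c, hs, ht⟩
        exact ⟨(cellsMap r).app (n + 2) c, by rw [← (cellsMap r).app_src, hs],
          by rw [← (cellsMap r).app_tgt, ht]⟩)
    constructor
    · apply Function.LeftInverse.injective (g := R)
      intro p
      induction p using Quot.ind with
      | mk p =>
        apply congrArg (Quot.mk _)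
        apply Subtype.ext
        exact hri _ _
    · intro q
      induction q using Quot.ind with
      | mk q =>
        refine ⟨Quot.mk _ (ρ q), ?_⟩
        apply Quot.sound
        apply H (n + 1)
        · constructor
          · rw [q.2.1]
            exact (loopsMap i e x n (ρ q)).2.1
          · rw [q.2.2]
            exact (loopsMap i e x n (ρ q)).2.2
        · exact hri _ _

end Pushout

end Crest.Agent.R248
end

-- ▼ part R248/Final

/-! TASK Final: from `abstract_main` to the statement of S0382. -/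

set_option autoImplicit false

namespace Crest.Agent.R248

open CategoryTheory CategoryTheory.Limits Opposite
open Crest.GeometryTopology.Coherator
open Crest.GeometryTopology.Coherator.GlobTheory
open Crest.GeometryTopology.Coherator.GlobTheory.GlobModel

universe u

section

variable {C : GlobTheory.{u}}

/-- the cell named by a map out of the free model on a globe -/
noncomputable def gcell {X : C.GlobModel} {n : ℕ} (a : glob (FrM C) n ⟶ X) : X.cells.cell n :=
  diskCell (a : diskModel C n ⟶ X)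

/-- the map out of the free model on a globe naming a cell -/
noncomputable def gmap {X : C.GlobModel} {n : ℕ} (x : X.cells.cell n) : glob (FrM C) n ⟶ X :=
  (diskMap x : diskModel C n ⟶ X)

theorem gcell_gmap {X : C.GlobModel} {n : ℕ} (x : X.cells.cell n) : gcell (gmap x) = x :=
  diskCell_diskMap x

theorem gcell_injective {X : C.GlobModel} {n : ℕ} {a b : glob (FrM C) n ⟶ X}
    (h : gcell a = gcell b) : a = b := diskCell_injective h

theorem gcell_comp {X Y : C.GlobModel} {n : ℕ} (a : glob (FrM C) n ⟶ X) (f : X ⟶ Y) :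
    gcell (a ≫ f) = (cellsMap f).app n (gcell a) := diskCell_comp _ _

theorem src_gcell {X : C.GlobModel} {n : ℕ} (b : glob (FrM C) (n + 1) ⟶ X) :
    X.cells.src n (gcell b) = gcell (sg (FrM C) n ≫ b) :=
  src_diskCell (b : diskModel C (n + 1) ⟶ X)

theorem tgt_gcell {X : C.GlobModel} {n : ℕ} (b : glob (FrM C) (n + 1) ⟶ X) :
    X.cells.tgt n (gcell b) = gcell (tg (FrM C) n ≫ b) :=
  yonedaEquiv_naturality (b : (diskModel C (n + 1)).functor ⟶ X.functor)
    (C.incl.map (Shape.τ n))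

/-- maps out of the boundary of a disk agree if the cells are parallel -/
theorem bdι_eq_of_areParallel {X : C.GlobModel} {n : ℕ} (u v : glob (FrM C) n ⟶ X)
    (h : X.cells.AreParallel n (gcell u) (gcell v)) :
    bdι (FrM C) n ≫ u = bdι (FrM C) n ≫ v := by
  cases n with
  | zero => exact (bdInit (FrM C)).hom_ext _ _
  | succ n =>
    obtain ⟨hs, ht⟩ := h
    rw [src_gcell, src_gcell] at hs
    rw [tgt_gcell, tgt_gcell] at ht
    exact bdι_succ_ext (gcell_injective hs) (gcell_injective ht)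

/-- A sphere gives a map out of the boundary. -/
theorem exists_sphereMap {X : C.GlobModel} {n : ℕ} (s : X.cells.Sphere n) :
    ∃ g : bd (FrM C) n ⟶ X, ∀ {Y : C.GlobModel} (p : X ⟶ Y) (y : glob (FrM C) n ⟶ Y),
      (bdι (FrM C) n ≫ y = g ≫ p) ↔
        Y.cells.bdry n (gcell y) = (cellsMap p).sphere n s := by
  cases n with
  | zero =>
    refine ⟨(bdInit (FrM C)).to X, ?_⟩
    intro Y p y
    exact ⟨fun _ => rfl, fun _ => (bdInit (FrM C)).hom_ext _ _⟩
  | succ n =>
    obtain ⟨⟨x, y⟩, hxy⟩ := s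
    have hpar : bdι (FrM C) n ≫ gmap x = bdι (FrM C) n ≫ gmap y := by
      apply bdι_eq_of_areParallel
      rw [gcell_gmap, gcell_gmap]
      exact hxy
    refine ⟨(bd_sq (FrM C) n).desc (gmap x) (gmap y) hpar, ?_⟩
    intro Y p z
    constructor
    · intro hz
      have h1 : sg (FrM C) n ≫ z = gmap x ≫ p := by
        rw [← bdInl_bdι, Category.assoc, hz, ← Category.assoc, (bd_sq (FrM C) n).inl_desc]
      have h2 : tg (FrM C) n ≫ z = gmap y ≫ p := by
        rw [← bdInr_bdι, Category.assoc, hz, ← Category.assoc, (bd_sq (FrM C) n).inr_desc]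
      apply Subtype.ext
      apply Prod.ext
      · show Y.cells.src n (gcell z) = (cellsMap p).app n x
        rw [src_gcell, h1, gcell_comp, gcell_gmap]
      · show Y.cells.tgt n (gcell z) = (cellsMap p).app n y
        rw [tgt_gcell, h2, gcell_comp, gcell_gmap]
    · intro hz
      have h1 : Y.cells.src n (gcell z) = (cellsMap p).app n x :=
        congrArg (fun t => t.1.1) hz
      have h2 : Y.cells.tgt n (gcell z) = (cellsMap p).app n y :=
        congrArg (fun t => t.1.2) hz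
      rw [src_gcell] at h1
      rw [tgt_gcell] at h2
      apply (bd_sq (FrM C) n).hom_ext
      · rw [← Category.assoc, bdInl_bdι, ← Category.assoc, (bd_sq (FrM C) n).inl_desc]
        apply gcell_injective
        rw [h1, gcell_comp, gcell_gmap]
      · rw [← Category.assoc, bdInr_bdι, ← Category.assoc, (bd_sq (FrM C) n).inr_desc]
        apply gcell_injective
        rw [h2, gcell_comp, gcell_gmap]

theorem cellLift_of_rlp {P X : C.GlobModel} (p : P ⟶ X) (hp : (GenCof (FrM C) ⊤).rlp p) :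
    CellLift p := by
  intro n s x hx
  obtain ⟨g, hg⟩ := exists_sphereMap s
  have hsq : g ≫ p = bdι (FrM C) n ≫ gmap x := by
    refine ((hg p (gmap x)).2 ?_).symm
    rw [gcell_gmap, hx]
  have hl : HasLiftingProperty (bdι (FrM C) n) p := hp _ (GenCof.mk n le_top)
  obtain ⟨⟨l⟩⟩ := hl.sq_hasLift ⟨hsq⟩
  refine ⟨gcell l.l, ?_, ?_⟩
  · have h1 : bdι (FrM C) n ≫ l.l = g ≫ 𝟙 P := by rw [l.fac_left, Category.comp_id]
    have h2 := (hg (𝟙 P) l.l).1 h1
    rw [h2]
    cases n with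
    | zero => rfl
    | succ n => rfl
  · rw [← gcell_comp, l.fac_right, gcell_gmap]

/-- cellular models are cofibrant -/
theorem cofibrant_of_cellular (C : GlobTheory.{u}) (_hC : C.IsCoheratorTheory)
    (X : C.GlobModel) (hX : X.IsCellularModel) : Cofibrant (FrM C) ⊤ X := by
  intro P Z p hp
  have hcl := cellLift_of_rlp p hp
  obtain ⟨c⟩ := hX
  let _ := c.linOrd
  let _ := c.bot
  let _ := c.succ
  have _ := c.wf
  have hl : HasLiftingProperty (c.chain.incl.app ⊥) p :=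
    HasLiftingProperty.transfiniteComposition.hasLiftingProperty_ι_app_bot
      (hc := c.chain.isColimit)
      (fun j hj => hasLiftingProperty_of_isAttaching (c.attach j hj) p hcl)
  have hini : IsInitial (c.chain.F.obj ⊥) := c.startIsInitial.ofIso c.chain.isoBot.symm
  have e : initial.to X = (initialIsInitial.uniqueUpToIso hini).hom ≫ c.chain.incl.app ⊥ :=
    initialIsInitial.hom_ext _ _
  rw [e]
  infer_instance

/-- the unit operation as a map of free models -/
noncomputable def unitMap (e : C.UnitChoice) (n : ℕ) : glob (FrM C) (n + 1) ⟶ glob (FrM C) n :=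
  (yoneda.map (X := (⟨Shape.globe (n + 1)⟩ : C.Ob)) (Y := (⟨Shape.globe n⟩ : C.Ob)) (e.unit n) :
      (diskModel C (n + 1)).functor ⟶ (diskModel C n).functor)

theorem sg_unitMap (e : C.UnitChoice) (n : ℕ) : sg (FrM C) n ≫ unitMap e n = 𝟙 _ := by
  refine (yoneda.map_comp (X := (⟨Shape.globe n⟩ : C.Ob)) (Y := (⟨Shape.globe (n + 1)⟩ : C.Ob))
      (Z := (⟨Shape.globe n⟩ : C.Ob)) (C.ofShape (Shape.σ n)) (e.unit n)).symm.trans ?_
  exact (congrArg (yoneda.map (X := (⟨Shape.globe n⟩ : C.Ob)) (Y := (⟨Shape.globe n⟩ : C.Ob)))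
      (e.src_unit n)).trans (yoneda.map_id _)

theorem tg_unitMap (e : C.UnitChoice) (n : ℕ) : tg (FrM C) n ≫ unitMap e n = 𝟙 _ := by
  refine (yoneda.map_comp (X := (⟨Shape.globe n⟩ : C.Ob)) (Y := (⟨Shape.globe (n + 1)⟩ : C.Ob))
      (Z := (⟨Shape.globe n⟩ : C.Ob)) (C.ofShape (Shape.τ n)) (e.unit n)).symm.trans ?_
  exact (congrArg (yoneda.map (X := (⟨Shape.globe n⟩ : C.Ob)) (Y := (⟨Shape.globe n⟩ : C.Ob)))
      (e.tgt_unit n)).trans (yoneda.map_id _)

theorem gcell_unitMap (e : C.UnitChoice) {X : C.GlobModel} (n : ℕ) (a : glob (FrM C) n ⟶ X) :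
    gcell (unitMap e n ≫ a) = X.unitCell e n (gcell a) :=
  (yonedaEquiv_naturality (X := (⟨Shape.globe n⟩ : C.Ob))
      (Y := (⟨Shape.globe (n + 1)⟩ : C.Ob)) (F := X.functor)
      (a : (diskModel C n).functor ⟶ X.functor) (e.unit n)).symm

end

theorem final (C : GlobTheory.{u}) (hC : C.IsCoheratorTheory) (e : C.UnitChoice)
    (X : C.GlobModel) (hX : X.IsCellularModel) (n : ℕ)
    (a : GlobTheory.GlobModel.diskModel C n ⟶ X)
    (Y : C.GlobModel) (i : X ⟶ Y) (b : GlobTheory.GlobModel.diskModel C (n + 1) ⟶ Y)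
    (sq : IsPushout a (GlobTheory.GlobModel.sourceIncl C n) i b) :
    GlobTheory.GlobModel.IsWeakEquiv e i := by
  obtain ⟨r, hr, hrb⟩ := exists_retraction e sq
  apply isWeakEquiv_of_retraction e i r hr
  intro k u v huv h
  have hS := setting_FrM C hC
  have hp := hasPaths_FrM C hC
  have hcof := cofibrant_of_cellular C hC X hX
  let b' : glob (FrM C) (n + 1) ⟶ Y := b
  let a' : glob (FrM C) n ⟶ X := a
  have hrb' : b' ≫ r = unitMap e n ≫ a' := by
    apply gcell_injective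
    rw [gcell_comp, gcell_unitMap]
    exact hrb
  obtain ⟨w, hw1, hw2⟩ := abstract_strong hS hp n hcof a' i b' sq (unitMap e n) (sg_unitMap e n)
    (tg_unitMap e n) r hr hrb' k (gmap u) (gmap v)
    (by
      apply bdι_eq_of_areParallel
      rw [gcell_gmap, gcell_gmap]
      exact huv)
    (by
      apply gcell_injective
      rw [gcell_comp, gcell_comp, gcell_gmap, gcell_gmap, h])
  refine ⟨gcell w, ?_, ?_⟩
  · rw [src_gcell, hw1, gcell_gmap]
  · rw [tgt_gcell, hw2, gcell_gmap]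

end Crest.Agent.R248
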