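import Crest.Agent.R248.Core
import Mathlib
import Crest.Prelude.Def_GlobularCoherator

-- ▼ part R248/Good
section

/-! TASK Good: cofibrations and good maps. -/

set_option autoImplicit false

namespace Crest.Agent.R248

open CategoryTheory CategoryTheory.Limits Opposite
open Crest.GeometryTopology.Coherator

universe v w

variable {M : Type w} [Category.{v} M] [HasPushouts M] [HasInitial M] {Fr : Shape ⥤ M}

/-- `f` is a cofibration of level `k` and pushing out along `f` preserves contractibility in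
dimension `k` (for cofibrant objects of level `k`). -/
def Good (Fr : Shape ⥤ M) (k : ℕ) : MorphismProperty M := fun A B f =>
  Cof Fr k f ∧ ∀ (V Z : M) (g : A ⟶ V) (i : V ⟶ Z) (b : B ⟶ Z), Cofibrant Fr k V →
    IsPushout g f i b → Contr Fr k V → Contr Fr k Z

theorem Cof.comp {κ : ℕ∞} {A B D : M} {f : A ⟶ B} {g : B ⟶ D} (hf : Cof Fr κ f) (hg : Cof Fr κ g) :
    Cof Fr κ (f ≫ g) :=
  MorphismProperty.comp_mem (GenCof Fr κ).rlp.llp f g hf hg

theorem Cof.of_isIso {κ : ℕ∞} {A B : M} (f : A ⟶ B) [IsIso f] : Cof Fr κ f :=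
  MorphismProperty.llp_of_isIso _ f

/-- cobase change: `f'` is the pushout of `f` -/
theorem Cof.cobase {κ : ℕ∞} {A B A' B' : M} {f : A ⟶ B} {g : A ⟶ A'} {f' : A' ⟶ B'} {g' : B ⟶ B'}
    (sq : IsPushout g f f' g') (hf : Cof Fr κ f) : Cof Fr κ f' :=
  MorphismProperty.of_isPushout (P := (GenCof Fr κ).rlp.llp) sq hf

theorem GenCof.mono {κ κ' : ℕ∞} (h : κ ≤ κ') : GenCof Fr κ ≤ GenCof Fr κ' := by
  intro A B f hf
  obtain ⟨j, hj⟩ := hf
  exact GenCof.mk j (hj.trans (by gcongr))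

theorem Cof.mono {κ κ' : ℕ∞} (h : κ ≤ κ') {A B : M} {f : A ⟶ B} (hf : Cof Fr κ f) : Cof Fr κ' f :=
  MorphismProperty.antitone_llp (MorphismProperty.antitone_rlp (GenCof.mono h)) _ hf

theorem cof_bdι {κ : ℕ∞} {j : ℕ} (hj : (j : ℕ∞) ≤ κ + 1) : Cof Fr κ (bdι Fr j) :=
  MorphismProperty.le_llp_rlp _ _ (GenCof.mk j hj)

theorem cof_sg {κ : ℕ∞} {j : ℕ} (hj : (j : ℕ∞) ≤ κ) : Cof Fr κ (sg Fr j) := by
  rw [← bdInl_bdι]
  refine Cof.comp (Cof.cobase (bd_sq Fr j) (cof_bdι (hj.trans le_self_add))) (cof_bdι ?_)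
  push_cast
  gcongr

theorem cof_tg {κ : ℕ∞} {j : ℕ} (hj : (j : ℕ∞) ≤ κ) : Cof Fr κ (tg Fr j) := by
  rw [← bdInr_bdι]
  refine Cof.comp (Cof.cobase (bd_sq Fr j).flip (cof_bdι (hj.trans le_self_add))) (cof_bdι ?_)
  push_cast
  gcongr

theorem Cofibrant.of_cof {κ : ℕ∞} {A B : M} {f : A ⟶ B} (hA : Cofibrant Fr κ A) (hf : Cof Fr κ f) :
    Cofibrant Fr κ B := by
  have h : initial.to B = initial.to A ≫ f := initialIsInitial.hom_ext _ _
  unfold Cofibrant
  rw [h]
  exact Cof.comp hA hf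

theorem cofibrant_bd {κ : ℕ∞} {j : ℕ} (hj : (j : ℕ∞) ≤ κ + 2) : Cofibrant Fr κ (bd Fr j) := by
  induction j with
  | zero =>
    have : IsIso (initial.to (bd Fr 0)) :=
      (initialIsInitial.uniqueUpToIso (bdInit Fr)).isIso_hom
    exact Cof.of_isIso _
  | succ j ih =>
    have h1 : (j : ℕ∞) ≤ κ + 1 := by
      have h2 : ((j : ℕ∞) + 1) ≤ (κ + 1) + 1 := by
        have : (κ + 1) + 1 = κ + 2 := by rw [add_assoc, one_add_one_eq_two]
        rw [this]
        exact_mod_cast hj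
      exact (ENat.add_le_add_iff_right (by simp)).1 h2
    have h2 : (j : ℕ∞) ≤ κ + 2 := h1.trans (by gcongr; norm_num)
    refine Cofibrant.of_cof (Cofibrant.of_cof (ih h2) (cof_bdι h1)) (Cof.cobase (bd_sq Fr j) (cof_bdι h1))

theorem cofibrant_glob {κ : ℕ∞} {j : ℕ} (hj : (j : ℕ∞) ≤ κ + 1) : Cofibrant Fr κ (glob Fr j) :=
  Cofibrant.of_cof (cofibrant_bd (hj.trans (by gcongr; norm_num))) (cof_bdι hj)

/-- faces between globes are cofibrations -/
theorem cof_face {κ : ℕ∞} {b h : ℕ} (hh : b < h) (up : Bool) (hk : (h : ℕ∞) ≤ κ + 1) :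
    Cof Fr κ (Fr.map (Shape.faceMap hh up)) := by
  obtain ⟨d, rfl⟩ : ∃ d, h = b + 1 + d := ⟨h - (b + 1), by omega⟩
  induction d with
  | zero =>
    have hb : (b : ℕ∞) ≤ κ := by
      have : (b : ℕ∞) + 1 ≤ κ + 1 := by exact_mod_cast hk
      exact (ENat.add_le_add_iff_right (by simp)).1 this
    cases up
    · exact cof_sg hb
    · exact cof_tg hb
  | succ d ih =>
    have hb : ((b + 1 + d : ℕ) : ℕ∞) ≤ κ := by
      have : ((b + 1 + d : ℕ) : ℕ∞) + 1 ≤ κ + 1 := by exact_mod_cast hk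
      exact (ENat.add_le_add_iff_right (by simp)).1 this
    have h1 : b < b + 1 + d := by omega
    have h2 : b + 1 + d < b + 1 + d + 1 := by omega
    have e : Shape.faceMap hh up = Shape.faceMap h1 up ≫ Shape.faceMap h2 false :=
      (faceMap_comp h1 h2 up false).symm
    rw [e, Fr.map_comp]
    exact Cof.comp (ih h1 (hb.trans le_self_add)) (cof_sg hb)

theorem cofibrant_obj (hS : Sums Fr) {κ : ℕ∞} (S : Shape) (hd : (S.dim : ℕ∞) ≤ κ + 1) :
    Cofibrant Fr κ (Fr.obj S) := by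
  obtain ⟨n, P⟩ := S
  induction P with
  | single h => exact cofibrant_glob hd
  | @glue last P b h hb hh ih =>
    have hd' : (max P.dim h : ℕ) = (Shape.glue ⟨last, P⟩ b h hb hh).dim := rfl
    have h1 : ((Shape.dim ⟨last, P⟩ : ℕ) : ℕ∞) ≤ κ + 1 := by
      refine le_trans ?_ hd
      exact_mod_cast (le_max_left P.dim h)
    have h2 : (h : ℕ∞) ≤ κ + 1 := by
      refine le_trans ?_ hd
      exact_mod_cast (le_max_right P.dim h)
    exact Cofibrant.of_cof (ih h1) (Cof.cobase (hS ⟨last, P⟩ b h hb hh) (cof_face hh false h2))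

theorem Contr.of_retract {k : ℕ} {X Y : M} (i : X ⟶ Y) (r : Y ⟶ X) (h : i ≫ r = 𝟙 X)
    (hY : Contr Fr k Y) : Contr Fr k X := by
  intro u v huv
  obtain ⟨w, h1, h2⟩ := hY (u ≫ i) (v ≫ i) (by rw [← Category.assoc, huv, Category.assoc])
  exact ⟨w ≫ r, by rw [← Category.assoc, h1, Category.assoc, h, Category.comp_id],
    by rw [← Category.assoc, h2, Category.assoc, h, Category.comp_id]⟩

theorem Contr.of_iso {k : ℕ} {X Y : M} (i : X ≅ Y) (hY : Contr Fr k Y) : Contr Fr k X :=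
  Contr.of_retract i.hom i.inv i.hom_inv_id hY

theorem good_sg {k m : ℕ} (hm : m ≤ k) (h : PO Fr k m) : Good Fr k (sg Fr m) :=
  ⟨cof_sg (by exact_mod_cast hm), fun V Z g i b hV sq hc => h V hV g Z i b sq hc⟩

theorem Good.comp {k : ℕ} {A B D : M} {f : A ⟶ B} {g : B ⟶ D} (hf : Good Fr k f) (hg : Good Fr k g) :
    Good Fr k (f ≫ g) := by
  refine ⟨hf.1.comp hg.1, fun V Z g₀ i b hV sq hc => ?_⟩
  have sq1 : IsPushout g₀ f (pushout.inl g₀ f) (pushout.inr g₀ f) := IsPushout.of_hasPushout _ _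
  have hw : g₀ ≫ i = f ≫ g ≫ b := by rw [sq.w, Category.assoc]
  have sq2 : IsPushout (pushout.inr g₀ f) g (pushout.desc i (g ≫ b) hw) b := by
    refine IsPushout.of_left (h₁₁ := f) (h₁₂ := g) (v₁₁ := g₀) (v₁₂ := pushout.inr g₀ f)
      (v₁₃ := b) (h₂₁ := pushout.inl g₀ f) (h₂₂ := pushout.desc i (g ≫ b) hw) ?_ ?_ sq1.flip |>.flip
    · rw [pushout.inl_desc]
      exact sq.flip
    · rw [pushout.inr_desc]
  exact hg.2 _ _ _ _ _ (hV.of_cof (hf.1.cobase sq1)) sq2 (hf.2 _ _ _ _ _ hV sq1 hc)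

theorem Good.of_isIso {k : ℕ} {A B : M} (f : A ⟶ B) [IsIso f] : Good Fr k f := by
  refine ⟨Cof.of_isIso f, fun V Z g i b hV sq hc => ?_⟩
  have : IsIso i := sq.isIso_inl_of_isIso
  exact Contr.of_iso (asIso i).symm hc

theorem Good.cobase {k : ℕ} {A B A' B' : M} {f : A ⟶ B} {g : A ⟶ A'} {f' : A' ⟶ B'} {g' : B ⟶ B'}
    (sq : IsPushout g f f' g') (hf : Good Fr k f) : Good Fr k f' :=
  ⟨hf.1.cobase sq, fun V Z g₀ i b hV sq' hc =>
    hf.2 V Z (g ≫ g₀) i (g' ≫ b) hV (sq.paste_horiz sq') hc⟩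

theorem Good.contr {k : ℕ} {A B : M} {f : A ⟶ B} (hf : Good Fr k f) (hA : Cofibrant Fr k A)
    (hc : Contr Fr k A) : Contr Fr k B :=
  hf.2 A B (𝟙 A) f (𝟙 B) hA (IsPushout.of_id_fst) hc

end Crest.Agent.R248
end

-- ▼ part R248/Calc
section

/-! TASK Calc: coherator calculus in a `Setting`. -/

set_option autoImplicit false

namespace Crest.Agent.R248

open CategoryTheory CategoryTheory.Limits Opposite
open Crest.GeometryTopology.Coherator

universe v w

variable {M : Type w} [Category.{v} M] [HasPushouts M] [HasInitial M] {Fr : Shape ⥤ M}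

/-- equality on the boundary in positive dimension, in terms of the two faces -/
theorem bdι_succ_ext {j : ℕ} {X : M} {u v : glob Fr (j + 1) ⟶ X}
    (h0 : sg Fr j ≫ u = sg Fr j ≫ v) (h1 : tg Fr j ≫ u = tg Fr j ≫ v) :
    bdι Fr (j + 1) ≫ u = bdι Fr (j + 1) ≫ v := by
  apply (bd_sq Fr j).hom_ext
  · rw [← Category.assoc, ← Category.assoc, bdInl_bdι, h0]
  · rw [← Category.assoc, ← Category.assoc, bdInr_bdι, h1]

theorem hinge_globe {a b : ℕ} (hb : b < a) :
    (Shape.globe a).hinge (b := b) hb = Shape.faceMap hb true := by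
  show GlobPsh.globeRepFace hb true ≫ 𝟙 _ = GlobPsh.globeRepFace hb true
  rw [Category.comp_id]

/-- filling a pair of parallel cells that factor through the free model on a shape -/
theorem Setting.step (S : Setting Fr) {k : ℕ} (T : Shape) (hT : T.dim ≤ k + 1) {X : M}
    (x : Fr.obj T ⟶ X) (u v : glob Fr k ⟶ Fr.obj T) (h : bdι Fr k ≫ u = bdι Fr k ≫ v) :
    Step Fr (u ≫ x) (v ≫ x) := by
  obtain ⟨w, h1, h2⟩ := S.fill k T hT u v h
  exact ⟨w ≫ x, by rw [← Category.assoc, h1], by rw [← Category.assoc, h2]⟩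

theorem dim_globe (n : ℕ) : (Shape.globe n).dim = n := rfl

/-- the shape `D_a ⨿_{D_b} D_h` -/
abbrev sh2 (a b h : ℕ) (hb : b < a) (hh : b < h) : Shape := (Shape.globe a).glue b h hb hh

theorem dim_sh2 (a b h : ℕ) (hb : b < a) (hh : b < h) : (sh2 a b h hb hh).dim = max a h := rfl

theorem sq_sh2 (S : Setting Fr) {a b h : ℕ} (hb : b < a) (hh : b < h) :
    IsPushout (Fr.map (Shape.faceMap hb true)) (Fr.map (Shape.faceMap hh false))
      (Fr.map ((Shape.globe a).inLeft b h hb hh)) (Fr.map ((Shape.globe a).inRight b h hb hh)) := by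
  have := S.sums (Shape.globe a) b h hb hh
  rwa [hinge_globe] at this

/-- a unit operation -/
theorem exists_unit (S : Setting Fr) (n : ℕ) :
    ∃ e : glob Fr (n + 1) ⟶ glob Fr n, sg Fr n ≫ e = 𝟙 _ ∧ tg Fr n ≫ e = 𝟙 _ :=
  S.fill n (Shape.globe n) (Nat.le_succ n) (𝟙 _) (𝟙 _) rfl

/-- an inversion operation -/
theorem exists_inv (S : Setting Fr) (n : ℕ) :
    ∃ e : glob Fr (n + 1) ⟶ glob Fr (n + 1), sg Fr n ≫ e = tg Fr n ∧ tg Fr n ≫ e = sg Fr n :=
  S.fill n (Shape.globe (n + 1)) le_rfl (tg Fr n) (sg Fr n) (bdι_sg Fr n).symm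

theorem Step.refl (S : Setting Fr) {j : ℕ} {X : M} (u : glob Fr j ⟶ X) : Step Fr u u := by
  obtain ⟨e, h1, h2⟩ := exists_unit S j
  exact ⟨e ≫ u, by rw [← Category.assoc, h1, Category.id_comp],
    by rw [← Category.assoc, h2, Category.id_comp]⟩

theorem Step.symm (S : Setting Fr) {j : ℕ} {X : M} {u v : glob Fr j ⟶ X} (h : Step Fr u v) :
    Step Fr v u := by
  obtain ⟨e, h1, h2⟩ := exists_inv S j
  obtain ⟨w, rfl, rfl⟩ := h
  exact ⟨e ≫ w, by rw [← Category.assoc, h1], by rw [← Category.assoc, h2]⟩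

/-- a binary composition operation -/
theorem exists_compOp (S : Setting Fr) (n : ℕ) :
    ∃ c : glob Fr (n + 1) ⟶ Fr.obj (sh2 (n + 1) n (n + 1) (Nat.lt_succ_self n) (Nat.lt_succ_self n)),
      sg Fr n ≫ c = sg Fr n ≫ Fr.map ((Shape.globe (n + 1)).inLeft n (n + 1) (Nat.lt_succ_self n)
        (Nat.lt_succ_self n)) ∧
      tg Fr n ≫ c = tg Fr n ≫ Fr.map ((Shape.globe (n + 1)).inRight n (n + 1) (Nat.lt_succ_self n)
        (Nat.lt_succ_self n)) := by
  have hsq := sq_sh2 S (Nat.lt_succ_self n) (Nat.lt_succ_self n)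
  apply S.fill n
  · rw [dim_sh2]; exact le_of_eq (max_self _)
  · have hw : tg Fr n ≫ _ = sg Fr n ≫ _ := hsq.w
    rw [← Category.assoc, bdι_sg, Category.assoc, hw, ← Category.assoc, bdι_sg, Category.assoc]

theorem Step.trans (S : Setting Fr) {j : ℕ} {X : M} {u v x : glob Fr j ⟶ X} (h : Step Fr u v)
    (h' : Step Fr v x) : Step Fr u x := by
  obtain ⟨c, h1, h2⟩ := exists_compOp S j
  obtain ⟨w, rfl, hw⟩ := h
  obtain ⟨w', hw', rfl⟩ := h'
  have hsq := sq_sh2 S (Nat.lt_succ_self j) (Nat.lt_succ_self j)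
  have e : Fr.map (Shape.faceMap (Nat.lt_succ_self j) true) ≫ w =
      Fr.map (Shape.faceMap (Nat.lt_succ_self j) false) ≫ w' := hw.trans hw'.symm
  refine ⟨c ≫ hsq.desc w w' e, ?_, ?_⟩
  · rw [← Category.assoc, h1, Category.assoc, hsq.inl_desc]
  · rw [← Category.assoc, h2, Category.assoc, hsq.inr_desc]

omit [HasPushouts M] [HasInitial M] in
theorem Step.comp {j : ℕ} {X Y : M} {u v : glob Fr j ⟶ X} (h : Step Fr u v) (f : X ⟶ Y) :
    Step Fr (u ≫ f) (v ≫ f) := by
  obtain ⟨w, h1, h2⟩ := h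
  exact ⟨w ≫ f, by rw [← Category.assoc, h1], by rw [← Category.assoc, h2]⟩

theorem Step.parallel {j : ℕ} {X : M} {u v : glob Fr j ⟶ X} (h : Step Fr u v) :
    bdι Fr j ≫ u = bdι Fr j ≫ v := by
  obtain ⟨w, rfl, rfl⟩ := h
  rw [← Category.assoc, ← Category.assoc, bdι_sg]

/-- `CompData`: a chosen composition operation -/
structure CompOp (Fr : Shape ⥤ M) (n : ℕ) where
  op : glob Fr (n + 1) ⟶
    Fr.obj (sh2 (n + 1) n (n + 1) (Nat.lt_succ_self n) (Nat.lt_succ_self n))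
  sq : IsPushout (tg Fr n) (sg Fr n)
    (Fr.map ((Shape.globe (n + 1)).inLeft n (n + 1) (Nat.lt_succ_self n) (Nat.lt_succ_self n)))
    (Fr.map ((Shape.globe (n + 1)).inRight n (n + 1) (Nat.lt_succ_self n) (Nat.lt_succ_self n)))
  src : sg Fr n ≫ op = sg Fr n ≫ Fr.map ((Shape.globe (n + 1)).inLeft n (n + 1)
    (Nat.lt_succ_self n) (Nat.lt_succ_self n))
  tgt : tg Fr n ≫ op = tg Fr n ≫ Fr.map ((Shape.globe (n + 1)).inRight n (n + 1)
    (Nat.lt_succ_self n) (Nat.lt_succ_self n))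

namespace CompOp

omit [HasPushouts M] [HasInitial M]

variable {n : ℕ} (c : CompOp Fr n)

/-- composition of cells -/
noncomputable def ap {X : M} (l g : glob Fr (n + 1) ⟶ X) (h : tg Fr n ≫ l = sg Fr n ≫ g) :
    glob Fr (n + 1) ⟶ X := c.op ≫ c.sq.desc l g h

theorem sg_ap {X : M} (l g : glob Fr (n + 1) ⟶ X) (h : tg Fr n ≫ l = sg Fr n ≫ g) :
    sg Fr n ≫ c.ap l g h = sg Fr n ≫ l := by
  unfold ap
  rw [← Category.assoc, c.src, Category.assoc, c.sq.inl_desc]

theorem tg_ap {X : M} (l g : glob Fr (n + 1) ⟶ X) (h : tg Fr n ≫ l = sg Fr n ≫ g) :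
    tg Fr n ≫ c.ap l g h = tg Fr n ≫ g := by
  unfold ap
  rw [← Category.assoc, c.tgt, Category.assoc, c.sq.inr_desc]

theorem ap_comp {X Y : M} (l g : glob Fr (n + 1) ⟶ X) (h : tg Fr n ≫ l = sg Fr n ≫ g)
    (f : X ⟶ Y) : c.ap l g h ≫ f =
      c.ap (l ≫ f) (g ≫ f) (by rw [← Category.assoc, h, Category.assoc]) := by
  unfold ap
  rw [Category.assoc]
  congr 1
  apply c.sq.hom_ext
  · rw [← Category.assoc, c.sq.inl_desc, c.sq.inl_desc]
  · rw [← Category.assoc, c.sq.inr_desc, c.sq.inr_desc]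

end CompOp

theorem nonempty_compOp (S : Setting Fr) (n : ℕ) : Nonempty (CompOp Fr n) := by
  obtain ⟨c, h1, h2⟩ := exists_compOp S n
  exact ⟨⟨c, sq_sh2 S _ _, h1, h2⟩⟩


/-- left whiskering: `a ~ a'` implies `b ∘ a ~ b ∘ a'` -/
theorem CompOp.whiskL (S : Setting Fr) {n : ℕ} (c : CompOp Fr n) {X : M}
    {a a' b : glob Fr (n + 1) ⟶ X} (h : tg Fr n ≫ a = sg Fr n ≫ b)
    (h' : tg Fr n ≫ a' = sg Fr n ≫ b) (hs : Step Fr a a') : Step Fr (c.ap a b h) (c.ap a' b h') := by
  obtain ⟨α, rfl, rfl⟩ := hs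
  have hn : n < n + 2 := by omega
  have hsq := sq_sh2 S (a := n + 2) (h := n + 1) hn (Nat.lt_succ_self n)
  have e2 : Fr.map (Shape.faceMap hn true) = tg Fr n ≫ sg Fr (n + 1) := by
    unfold sg tg Shape.σ Shape.τ
    rw [← Fr.map_comp, faceMap_comp]
  have e2' : Fr.map (Shape.faceMap hn true) = tg Fr n ≫ tg Fr (n + 1) := by
    rw [e2, tg_sg]
  set L := Fr.map ((Shape.globe (n + 2)).inLeft n (n + 1) hn (Nat.lt_succ_self n)) with hL
  set R := Fr.map ((Shape.globe (n + 2)).inRight n (n + 1) hn (Nat.lt_succ_self n)) with hR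
  have w1 : tg Fr n ≫ (sg Fr (n + 1) ≫ L) = sg Fr n ≫ R := by
    rw [← Category.assoc, ← e2]; exact hsq.w
  have w2 : tg Fr n ≫ (tg Fr (n + 1) ≫ L) = sg Fr n ≫ R := by
    rw [← Category.assoc, ← e2']; exact hsq.w
  have e : Fr.map (Shape.faceMap hn true) ≫ α =
      Fr.map (Shape.faceMap (Nat.lt_succ_self n) false) ≫ b := by
    rw [e2, Category.assoc]; exact h
  have key := S.step (k := n + 1) (sh2 (n + 2) n (n + 1) hn (Nat.lt_succ_self n))
    (by rw [dim_sh2]; omega) (hsq.desc α b e)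
    (c.ap (sg Fr (n + 1) ≫ L) R w1) (c.ap (tg Fr (n + 1) ≫ L) R w2)
    (by
      apply bdι_succ_ext
      · rw [c.sg_ap, c.sg_ap, ← Category.assoc, ← Category.assoc, sg_sg]
      · rw [c.tg_ap, c.tg_ap])
  rw [c.ap_comp, c.ap_comp] at key
  convert key using 2
  · rw [Category.assoc, hsq.inl_desc]
  · exact (hsq.inr_desc _ _ _).symm
  · rw [Category.assoc, hsq.inl_desc]
  · exact (hsq.inr_desc _ _ _).symm

/-- associativity up to a cell -/
theorem CompOp.assoc (S : Setting Fr) {n : ℕ} (c : CompOp Fr n) {X : M}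
    {a b d : glob Fr (n + 1) ⟶ X} (h : tg Fr n ≫ a = sg Fr n ≫ b)
    (h' : tg Fr n ≫ b = sg Fr n ≫ d) :
    Step Fr (c.ap (c.ap a b h) d (by rw [c.tg_ap, h']))
      (c.ap a (c.ap b d h') (by rw [c.sg_ap, h])) := by
  have hn : n < n + 1 := Nat.lt_succ_self n
  set T := sh2 (n + 1) n (n + 1) hn hn with hT
  have hsq : IsPushout (Fr.map (T.hinge hn)) (Fr.map (Shape.faceMap hn false))
      (Fr.map (T.inLeft n (n + 1) hn hn)) (Fr.map (T.inRight n (n + 1) hn hn)) :=
    S.sums T n (n + 1) hn hn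
  rw [show T.hinge (b := n) hn = Shape.faceMap hn true ≫ (Shape.globe (n + 1)).inRight n (n + 1) hn hn
    from rfl, Fr.map_comp] at hsq
  set L0 := Fr.map ((Shape.globe (n + 1)).inLeft n (n + 1) hn hn) with hL0
  set R0 := Fr.map ((Shape.globe (n + 1)).inRight n (n + 1) hn hn) with hR0
  set L := Fr.map (T.inLeft n (n + 1) hn hn) with hL
  set R := Fr.map (T.inRight n (n + 1) hn hn) with hR
  have w0 : tg Fr n ≫ (L0 ≫ L) = sg Fr n ≫ (R0 ≫ L) := by
    rw [← Category.assoc, ← Category.assoc, c.sq.w]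
  have w1 : tg Fr n ≫ (R0 ≫ L) = sg Fr n ≫ R := by
    rw [← Category.assoc]; exact hsq.w
  have e : (Fr.map (Shape.faceMap hn true) ≫ R0) ≫ c.sq.desc a b h =
      Fr.map (Shape.faceMap hn false) ≫ d := by
    rw [Category.assoc, c.sq.inr_desc]; exact h'
  have key := S.step (k := n + 1) (T.glue n (n + 1) hn hn)
    (by show max (max (n+1) (n+1)) (n+1) ≤ n + 1 + 1; omega) (hsq.desc (c.sq.desc a b h) d e)
    (c.ap (c.ap (L0 ≫ L) (R0 ≫ L) w0) R (by rw [c.tg_ap, w1]))
    (c.ap (L0 ≫ L) (c.ap (R0 ≫ L) R w1) (by rw [c.sg_ap, w0]))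
    (by
      apply bdι_succ_ext
      · rw [c.sg_ap, c.sg_ap, c.sg_ap]
      · rw [c.tg_ap, c.tg_ap, c.tg_ap])
  have eL : (L0 ≫ L) ≫ hsq.desc (c.sq.desc a b h) d e = a := by
    rw [Category.assoc, hsq.inl_desc, c.sq.inl_desc]
  have eM : (R0 ≫ L) ≫ hsq.desc (c.sq.desc a b h) d e = b := by
    rw [Category.assoc, hsq.inl_desc, c.sq.inr_desc]
  have eR : R ≫ hsq.desc (c.sq.desc a b h) d e = d := hsq.inr_desc _ _ _
  simp only [c.ap_comp, eL, eM, eR] at key
  exact key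


end Crest.Agent.R248
end

-- ▼ part R248/Whisker
section

/-! Contractibility engine (helper598): whiskers at `n`-cells connected to shape cells, moving lemma. -/

set_option autoImplicit false

namespace Crest.Agent.R248

open CategoryTheory CategoryTheory.Limits Opposite
open Crest.GeometryTopology.Coherator

universe v w

variable {M : Type w} [Category.{v} M] [HasPushouts M] [HasInitial M] {Fr : Shape ⥤ M}

/-- Moving lemma: let `u a` be connected `n`-cells of `A`, `A'` obtained from `A` by attaching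
`w' : u → u'` and `A₂` by attaching `w : a → a'`. Then `A₂` is a retract, under `A`, of a good
extension of `A'`. -/
theorem moving (S : Setting Fr) {n k : ℕ} (hn : n + 1 ≤ k) (hPO : PO Fr k (n + 1))
    {A : M} {u a : glob Fr n ⟶ A} (hua : Step Fr u a)
    {A' : M} {j' : A ⟶ A'} {w' : glob Fr (n + 1) ⟶ A'} (sq' : IsPushout u (sg Fr n) j' w')
    {A₂ : M} {j : A ⟶ A₂} {w : glob Fr (n + 1) ⟶ A₂} (sq : IsPushout a (sg Fr n) j w) :
    ∃ (Ah : M) (g : A' ⟶ Ah) (s : A₂ ⟶ Ah) (t : Ah ⟶ A₂), Good Fr k g ∧ s ≫ t = 𝟙 A₂ ∧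
      j ≫ s = j' ≫ g := by
  obtain ⟨p, hp1, hp2⟩ := hua
  obtain ⟨c⟩ := nonempty_compOp S n
  obtain ⟨iv, hi1, hi2⟩ := exists_inv S n
  -- the cell `q` of `A'`
  have hq : tg Fr n ≫ (iv ≫ p ≫ j') = sg Fr n ≫ w' := by
    rw [← Category.assoc, hi2, ← Category.assoc, hp1, sq'.w]
  let q : glob Fr (n + 1) ⟶ A' := c.ap (iv ≫ p ≫ j') w' hq
  have hq1 : sg Fr n ≫ q = a ≫ j' := by
    rw [c.sg_ap, ← Category.assoc, hi1, ← Category.assoc, hp2]
  have hsqα : IsPushout q (sg Fr (n + 1)) (pushout.inl q (sg Fr (n + 1)))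
    (pushout.inr q (sg Fr (n + 1))) := IsPushout.of_hasPushout _ _
  set g := pushout.inl q (sg Fr (n + 1)) with hg
  set α := pushout.inr q (sg Fr (n + 1)) with hα
  -- the map `s`
  have hs : a ≫ (j' ≫ g) = sg Fr n ≫ (tg Fr (n + 1) ≫ α) := by
    rw [← Category.assoc (sg Fr n), ← sg_sg, Category.assoc, ← hsqα.w, ← Category.assoc (sg Fr n),
      hq1, Category.assoc]
  -- the map `t'`
  have hP : tg Fr n ≫ (p ≫ j) = sg Fr n ≫ w := by
    rw [← Category.assoc, hp2, sq.w]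
  let ψ : glob Fr (n + 1) ⟶ A₂ := c.ap (p ≫ j) w hP
  have ht' : u ≫ j = sg Fr n ≫ ψ := by
    rw [c.sg_ap, ← Category.assoc, hp1]
  let t' : A' ⟶ A₂ := sq'.desc j ψ ht'
  have hqt : q ≫ t' = c.ap (iv ≫ p ≫ j) ψ (by
      rw [c.sg_ap, ← Category.assoc, hi2]) := by
    rw [c.ap_comp]
    have e1 : (iv ≫ p ≫ j') ≫ t' = iv ≫ p ≫ j := by
      rw [Category.assoc, Category.assoc, sq'.inl_desc]
    have e2 : w' ≫ t' = ψ := sq'.inr_desc _ _ _
    congr 1
  -- the filler
  have key : Step Fr (q ≫ t') w := by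
    rw [hqt]
    set T := sh2 (n + 1) n (n + 1) (Nat.lt_succ_self n) (Nat.lt_succ_self n) with hT
    have hLR : tg Fr n ≫ Fr.map ((Shape.globe (n + 1)).inLeft n (n + 1) (Nat.lt_succ_self n)
        (Nat.lt_succ_self n)) = sg Fr n ≫ Fr.map ((Shape.globe (n + 1)).inRight n (n + 1)
        (Nat.lt_succ_self n) (Nat.lt_succ_self n)) := c.sq.w
    set L := Fr.map ((Shape.globe (n + 1)).inLeft n (n + 1) (Nat.lt_succ_self n)
        (Nat.lt_succ_self n)) with hL
    set R := Fr.map ((Shape.globe (n + 1)).inRight n (n + 1)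
        (Nat.lt_succ_self n) (Nat.lt_succ_self n)) with hR
    have h1 : tg Fr n ≫ (iv ≫ L) = sg Fr n ≫ c.ap L R hLR := by
      rw [c.sg_ap, ← Category.assoc, hi2]
    have := S.step (k := n + 1) T (by rw [hT, dim_sh2]; omega) (c.sq.desc (p ≫ j) w hP)
      (c.ap (iv ≫ L) (c.ap L R hLR) h1) R (by
        apply bdι_succ_ext
        · rw [c.sg_ap, ← Category.assoc, hi1, hLR]
        · rw [c.tg_ap, c.tg_ap])
    have e1 : L ≫ c.sq.desc (p ≫ j) w hP = p ≫ j := c.sq.inl_desc _ _ _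
    have e2 : R ≫ c.sq.desc (p ≫ j) w hP = w := c.sq.inr_desc _ _ _
    simp only [c.ap_comp, Category.assoc, e1, e2] at this
    exact this
  obtain ⟨α', hα1, hα2⟩ := key
  let t : pushout q (sg Fr (n + 1)) ⟶ A₂ := hsqα.desc t' α' hα1.symm
  have htg : g ≫ t = t' := hsqα.inl_desc _ _ _
  have htα : α ≫ t = α' := hsqα.inr_desc _ _ _
  refine ⟨_, g, sq.desc (j' ≫ g) (tg Fr (n + 1) ≫ α) hs, t, ?_, ?_, sq.inl_desc _ _ _⟩
  · exact Good.cobase hsqα (good_sg hn hPO)
  · apply sq.hom_ext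
    · rw [sq.inl_desc_assoc, Category.assoc, htg, Category.comp_id]
      exact sq'.inl_desc _ _ _
    · rw [sq.inr_desc_assoc, Category.assoc, htα, Category.comp_id, hα2]


/-- `Whisk Fr k n W N f r`: the map `r : A ⟶ Z` is a composite of good maps and of `N` whiskers, i.e.
pushouts of `sg Fr n`, along `n`-cells connected to shape cells of `W` (seen in `A` through `f`). -/
inductive Whisk (Fr : Shape ⥤ M) (k n : ℕ) (W : Shape) :
    ℕ → ∀ {A Z : M}, (Fr.obj W ⟶ A) → (A ⟶ Z) → Prop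
  | nil {A Z : M} (f : Fr.obj W ⟶ A) (g : A ⟶ Z) (hg : Good Fr k g) : Whisk Fr k n W 0 f g
  | cons {N : ℕ} {A A₁ A₂ Z : M} (f : Fr.obj W ⟶ A) (g : A ⟶ A₁) (hg : Good Fr k g)
      (c : Shape.globe n ⟶ W) (a : glob Fr n ⟶ A₁) (hca : Step Fr (Fr.map c ≫ f ≫ g) a)
      (j : A₁ ⟶ A₂) (b : glob Fr (n + 1) ⟶ A₂) (sq : IsPushout a (sg Fr n) j b)
      (r : A₂ ⟶ Z) (hr : Whisk Fr k n W N (f ≫ g ≫ j) r) :
      Whisk Fr k n W (N + 1) f (g ≫ j ≫ r)

namespace Whisk

variable {k n : ℕ} {W : Shape}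

theorem good_prefix {N : ℕ} {A A₁ Z : M} {f : Fr.obj W ⟶ A} {g : A ⟶ A₁} (hg : Good Fr k g)
    {r : A₁ ⟶ Z} (hr : Whisk Fr k n W N (f ≫ g) r) : Whisk Fr k n W N f (g ≫ r) := by
  generalize hf : f ≫ g = f' at hr
  cases hr with
  | nil _ _ h => exact .nil _ _ (hg.comp h)
  | cons _ g' hg' c a hca j b sq r hr =>
    subst hf
    rw [← Category.assoc g]
    refine .cons f (g ≫ g') (hg.comp hg') c a ?_ j b sq r ?_
    · simpa only [Category.assoc] using hca
    · simpa only [Category.assoc] using hr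

theorem comp {N N' : ℕ} {A A₁ Z : M} {f : Fr.obj W ⟶ A} {r : A ⟶ A₁}
    (hr : Whisk Fr k n W N f r) {r' : A₁ ⟶ Z} (hr' : Whisk Fr k n W N' (f ≫ r) r') :
    Whisk Fr k n W (N + N') f (r ≫ r') := by
  induction hr with
  | nil f g hg =>
    rw [Nat.zero_add]
    exact good_prefix hg hr'
  | cons f g hg c a hca j b sq r hr ih =>
    rw [Nat.add_right_comm, Category.assoc, Category.assoc]
    refine .cons f g hg c a hca j b sq _ (ih ?_)
    simpa only [Category.assoc] using hr'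

theorem cobase {N : ℕ} {A Z A' Z' : M} {f : Fr.obj W ⟶ A} {r : A ⟶ Z}
    (hr : Whisk Fr k n W N f r) (h : A ⟶ A') (r' : A' ⟶ Z') (h' : Z ⟶ Z')
    (sq : IsPushout h r r' h') : Whisk Fr k n W N (f ≫ h) r' := by
  induction hr generalizing A' with
  | nil f g hg => exact .nil _ _ (Good.cobase sq hg)
  | @cons N A A₁ A₂ Z f g hg c a hca j b sqa r hr ih =>
    -- first square
    have sq1 : IsPushout h g (pushout.inl h g) (pushout.inr h g) := IsPushout.of_hasPushout _ _
    set g' := pushout.inl h g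
    set h1 := pushout.inr h g
    have sq2 : IsPushout h1 j (pushout.inl h1 j) (pushout.inr h1 j) := IsPushout.of_hasPushout _ _
    set j' := pushout.inl h1 j
    set h2 := pushout.inr h1 j
    have sq12 : IsPushout h (g ≫ j) (g' ≫ j') h2 := sq1.paste_vert sq2
    have hw : h ≫ r' = (g ≫ j) ≫ (r ≫ h') := by
      rw [sq.w]; simp only [Category.assoc]
    let r'' : pushout h1 j ⟶ Z' := sq12.desc r' (r ≫ h') hw
    have e1 : (g' ≫ j') ≫ r'' = r' := sq12.inl_desc _ _ _
    have e2 : h2 ≫ r'' = r ≫ h' := sq12.inr_desc _ _ _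
    have sq3 : IsPushout h2 r r'' h' := by
      refine IsPushout.of_top ?_ e2 sq12
      rw [e1, Category.assoc]
      exact sq
    have := ih h2 r'' h' sq3
    rw [← e1, Category.assoc]
    refine .cons (f ≫ h) g' (Good.cobase sq1 hg) c (a ≫ h1) ?_ j' (b ≫ h2) ?_ r'' ?_
    · have := hca.comp h1
      simp only [Category.assoc] at this ⊢
      rwa [sq1.w]
    · exact sqa.paste_horiz sq2
    · have e : (f ≫ g ≫ j) ≫ h2 = (f ≫ h) ≫ g' ≫ j' := by
        simp only [Category.assoc]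
        rw [sq12.w]
        simp only [Category.assoc]
      rwa [← e]

theorem reshape {N : ℕ} {A Z : M} {f : Fr.obj W ⟶ A} {r : A ⟶ Z}
    (hr : Whisk Fr k n W N f r) {W' : Shape} (ι : W ⟶ W') (f' : Fr.obj W' ⟶ A)
    (hf : Fr.map ι ≫ f' = f) : Whisk Fr k n W' N f' r := by
  induction hr with
  | nil f g hg => exact .nil _ _ hg
  | cons f g hg c a hca j b sq r hr ih =>
    subst hf
    refine .cons f' g hg (c ≫ ι) a ?_ j b sq r (ih _ (by simp only [Category.assoc]))
    simpa only [Category.assoc, Fr.map_comp] using hca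

end Whisk

/-- The column lemma as a proposition. -/
def ColumnProp (Fr : Shape ⥤ M) : Prop :=
  ∀ (W : Shape) (n : ℕ) (c : Shape.globe n ⟶ W), ∃ (W' : Shape) (u : Shape.globe n ⟶ W)
    (ι : W ⟶ W') (w : glob Fr (n + 1) ⟶ Fr.obj W'), W'.dim ≤ max W.dim (n + 1) ∧
      Step Fr (Fr.map u) (Fr.map c) ∧ IsPushout (Fr.map u) (sg Fr n) (Fr.map ι) w

/-- The main claim. -/
theorem Whisk.contr (S : Setting Fr) (hcol : ColumnProp Fr) {k n : ℕ} (hn : n + 1 ≤ k)
    (hPO : ∀ m, n < m → m ≤ k → PO Fr k m) : ∀ (N : ℕ) (W : Shape), W.dim ≤ k + 1 →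
    ∀ {A Z : M} (f : Fr.obj W ⟶ A) (r : A ⟶ Z), Good Fr k f → Whisk Fr k n W N f r →
      Contr Fr k Z := by
  intro N
  induction N with
  | zero =>
    intro W hW A Z f r hf hr
    cases hr with
    | nil _ _ hg =>
      refine (hf.comp hg).contr (cofibrant_obj S.sums W ?_) (S.fill k W hW)
      exact_mod_cast hW
  | succ N ih =>
    intro W hW A Z f r hf hr
    cases hr with
    | @cons _ _ A₁ A₂ _ _ g hg c a hca j b sq r hr =>
      obtain ⟨W', u, ι, w₀, hdim, huc, sqW⟩ := hcol W n c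
      have hf1 : Good Fr k (f ≫ g) := hf.comp hg
      set f1 := f ≫ g with hf1def
      have sqA : IsPushout f1 (Fr.map ι) (pushout.inl f1 (Fr.map ι)) (pushout.inr f1 (Fr.map ι)) :=
        IsPushout.of_hasPushout _ _
      set j'' := pushout.inl f1 (Fr.map ι)
      set f'' := pushout.inr f1 (Fr.map ι)
      have hf'' : Good Fr k f'' := Good.cobase sqA.flip hf1
      have sqA' : IsPushout (Fr.map u ≫ f1) (sg Fr n) j'' (w₀ ≫ f'') :=
        (sqW.paste_horiz sqA)
      have hua : Step Fr (Fr.map u ≫ f1) a := (huc.comp f1).trans S hca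
      obtain ⟨Ah, g', s, t, hg', hst, hjs⟩ := moving S hn (hPO (n + 1) (Nat.lt_succ_self n) hn)
        hua sqA' sq
      have sqZ : IsPushout s r (pushout.inl s r) (pushout.inr s r) := IsPushout.of_hasPushout _ _
      set rh := pushout.inl s r
      set zh := pushout.inr s r
      have hrh := hr.cobase s rh zh sqZ
      have e : Fr.map ι ≫ (f'' ≫ g') = (f ≫ g ≫ j) ≫ s := by
        rw [← Category.assoc f, ← hf1def, Category.assoc, hjs, ← Category.assoc, ← sqA.w,
          Category.assoc]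
      have hrh' := hrh.reshape ι (f'' ≫ g') e
      have hdim' : W'.dim ≤ k + 1 := hdim.trans (max_le hW (by omega))
      have hZ := ih W' hdim' (f'' ≫ g') rh (hf''.comp hg') hrh'
      refine Contr.of_retract zh (sqZ.desc (t ≫ r) (𝟙 _) ?_) ?_ hZ
      · rw [← Category.assoc, hst, Category.id_comp, Category.comp_id]
      · exact sqZ.inr_desc _ _ _

end Crest.Agent.R248
end

-- ▼ part R248/CylWhisk
section

/-! Whisker decomposition of cylinders (helper598). -/

set_option autoImplicit false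

namespace Crest.Agent.R248

open CategoryTheory CategoryTheory.Limits Opposite
open Crest.GeometryTopology.Coherator

universe v w

variable {M : Type w} [Category.{v} M] [HasPushouts M] [HasInitial M] {Fr : Shape ⥤ M}

namespace CylSeq

variable (C : CylSeq Fr)

theorem sg_i₀ (j : ℕ) : sg Fr j ≫ C.i₀ (j + 1) = C.i₀ j ≫ C.s j := by
  rw [← bdInl_bdι, Category.assoc, ← C.k₀_δ, ← Category.assoc, C.inl_k₀, Category.assoc]
  rfl

theorem tg_i₀ (j : ℕ) : tg Fr j ≫ C.i₀ (j + 1) = C.i₀ j ≫ C.t j := by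
  rw [← bdInr_bdι, Category.assoc, ← C.k₀_δ, ← Category.assoc, C.inr_k₀, Category.assoc]
  rfl

/-- The open box in dimension `h+1` is obtained from `P = A h ∪_{D_h} D_{h+1}` by pushing out the
inclusion `q h : O h ⟶ A h`. -/
theorem exists_box (h : ℕ) {P : M} {x : C.A h ⟶ P} {y : glob Fr (h + 1) ⟶ P}
    (sqP : IsPushout (C.i₀ h) (sg Fr h) x y) :
    ∃ (ψ : C.O h ⟶ P) (χ : P ⟶ C.O (h + 1)), IsPushout ψ (C.q h) χ (C.inr h ≫ C.oB (h + 1)) ∧
      C.oD h ≫ ψ = tg Fr h ≫ y ∧ y ≫ χ = C.oD (h + 1) ∧ x ≫ χ = C.inl h ≫ C.oB (h + 1) := by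
  have hψ : C.k₀ h ≫ (C.δ h ≫ x) = bdι Fr h ≫ (tg Fr h ≫ y) := by
    rw [← Category.assoc, C.k₀_δ, Category.assoc, sqP.w, ← Category.assoc, ← Category.assoc, bdι_sg]
  have hχ : C.i₀ h ≫ (C.inl h ≫ C.oB (h + 1)) = sg Fr h ≫ C.oD (h + 1) := by
    rw [← Category.assoc, ← C.inl_k₀, Category.assoc, (C.sqO (h + 1)).w, ← Category.assoc, bdInl_bdι]
  let ψ : C.O h ⟶ P := (C.sqO h).desc (C.δ h ≫ x) (tg Fr h ≫ y) hψ
  have hψB : C.oB h ≫ ψ = C.δ h ≫ x := (C.sqO h).inl_desc _ _ _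
  have hψD : C.oD h ≫ ψ = tg Fr h ≫ y := (C.sqO h).inr_desc _ _ _
  let χ : P ⟶ C.O (h + 1) := sqP.desc (C.inl h ≫ C.oB (h + 1)) (C.oD (h + 1)) hχ
  have hχx : x ≫ χ = C.inl h ≫ C.oB (h + 1) := sqP.inl_desc _ _ _
  have hχy : y ≫ χ = C.oD (h + 1) := sqP.inr_desc _ _ _
  have hw : ψ ≫ χ = C.q h ≫ (C.inr h ≫ C.oB (h + 1)) := by
    apply (C.sqO h).hom_ext
    · rw [← Category.assoc, hψB, Category.assoc, hχx, ← Category.assoc (C.oB h), C.oB_q,
        ← Category.assoc, (C.sq h).w, Category.assoc]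
    · rw [← Category.assoc, hψD, Category.assoc, hχy, ← Category.assoc (C.oD h), C.oD_q,
        ← Category.assoc (C.i₀ h), ← C.inr_k₀, Category.assoc, (C.sqO (h + 1)).w, ← Category.assoc,
        bdInr_bdι]
  have key : ∀ (Z : M) (α : P ⟶ Z) (β : C.A h ⟶ Z), ψ ≫ α = C.q h ≫ β →
      ∃ γ : C.O (h + 1) ⟶ Z, χ ≫ γ = α ∧ (C.inr h ≫ C.oB (h + 1)) ≫ γ = β := by
    intro Z α β hαβ
    have hB : C.δ h ≫ (x ≫ α) = C.δ h ≫ β := by
      have := congrArg (fun t => C.oB h ≫ t) hαβ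
      rwa [← Category.assoc, hψB, ← Category.assoc (C.oB h), C.oB_q, Category.assoc] at this
    have hD : tg Fr h ≫ (y ≫ α) = C.i₀ h ≫ β := by
      have := congrArg (fun t => C.oD h ≫ t) hαβ
      rwa [← Category.assoc, hψD, ← Category.assoc (C.oD h), C.oD_q, Category.assoc] at this
    let γB : C.B (h + 1) ⟶ Z := (C.sq h).desc (x ≫ α) β hB
    have hγ1 : C.inl h ≫ γB = x ≫ α := (C.sq h).inl_desc _ _ _
    have hγ2 : C.inr h ≫ γB = β := (C.sq h).inr_desc _ _ _
    have hO : C.k₀ (h + 1) ≫ γB = bdι Fr (h + 1) ≫ (y ≫ α) := by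
      apply (bd_sq Fr h).hom_ext
      · rw [← Category.assoc, C.inl_k₀, Category.assoc, hγ1, ← Category.assoc (C.i₀ h), sqP.w,
          ← Category.assoc (bdInl Fr h), bdInl_bdι, Category.assoc]
      · rw [← Category.assoc, C.inr_k₀, Category.assoc, hγ2,
          ← Category.assoc (bdInr Fr h), bdInr_bdι, hD]
    let γ : C.O (h + 1) ⟶ Z := (C.sqO (h + 1)).desc γB (y ≫ α) hO
    have e1 : C.oB (h + 1) ≫ γ = γB := (C.sqO (h + 1)).inl_desc _ _ _
    have e2 : C.oD (h + 1) ≫ γ = y ≫ α := (C.sqO (h + 1)).inr_desc _ _ _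
    refine ⟨γ, ?_, ?_⟩
    · apply sqP.hom_ext
      · rw [← Category.assoc, hχx, Category.assoc, e1, hγ1]
      · rw [← Category.assoc, hχy, e2]
    · rw [Category.assoc, e1, hγ2]
  have uniq : ∀ (Z : M) (γ γ' : C.O (h + 1) ⟶ Z), χ ≫ γ = χ ≫ γ' →
      (C.inr h ≫ C.oB (h + 1)) ≫ γ = (C.inr h ≫ C.oB (h + 1)) ≫ γ' → γ = γ' := by
    intro Z γ γ' h1 h2
    apply (C.sqO (h + 1)).hom_ext
    · apply (C.sq h).hom_ext
      · have := congrArg (fun t => x ≫ t) h1
        rwa [← Category.assoc, ← Category.assoc, hχx, Category.assoc, Category.assoc] at this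
      · simpa only [Category.assoc] using h2
    · have := congrArg (fun t => y ≫ t) h1
      rwa [← Category.assoc, ← Category.assoc, hχy] at this
  refine ⟨ψ, χ, IsPushout.of_isColimit' ⟨hw⟩ (PushoutCocone.IsColimit.mk _
    (fun s => (key _ s.inl s.inr s.condition).choose)
    (fun s => (key _ s.inl s.inr s.condition).choose_spec.1)
    (fun s => (key _ s.inl s.inr s.condition).choose_spec.2)
    (fun s m h1 h2 => uniq _ _ _
      (h1.trans (key _ s.inl s.inr s.condition).choose_spec.1.symm)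
      (h2.trans (key _ s.inl s.inr s.condition).choose_spec.2.symm))),
    hψD, hχy, hχx⟩


end CylSeq

/-- existential version of `Whisk` -/
def Wh (Fr : Shape ⥤ M) (k n : ℕ) (W : Shape) {A Z : M} (f : Fr.obj W ⟶ A) (r : A ⟶ Z) : Prop :=
  ∃ N, Whisk Fr k n W N f r

namespace Wh

variable {k n : ℕ} {W : Shape}

theorem good {A Z : M} (f : Fr.obj W ⟶ A) {g : A ⟶ Z} (hg : Good Fr k g) : Wh Fr k n W f g :=
  ⟨0, .nil f g hg⟩

theorem iso {A Z : M} (f : Fr.obj W ⟶ A) (g : A ⟶ Z) [IsIso g] : Wh Fr k n W f g :=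
  good f (Good.of_isIso g)

theorem comp {A A₁ Z : M} {f : Fr.obj W ⟶ A} {r : A ⟶ A₁}
    (hr : Wh Fr k n W f r) {r' : A₁ ⟶ Z} (hr' : Wh Fr k n W (f ≫ r) r') :
    Wh Fr k n W f (r ≫ r') := by
  obtain ⟨N, h⟩ := hr
  obtain ⟨N', h'⟩ := hr'
  exact ⟨N + N', h.comp h'⟩

theorem cobase {A Z A' Z' : M} {f : Fr.obj W ⟶ A} {r : A ⟶ Z}
    (hr : Wh Fr k n W f r) {h : A ⟶ A'} {r' : A' ⟶ Z'} {h' : Z ⟶ Z'}
    (sq : IsPushout h r r' h') : Wh Fr k n W (f ≫ h) r' := by
  obtain ⟨N, hr⟩ := hr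
  exact ⟨N, hr.cobase h r' h' sq⟩

theorem reshape {A Z : M} {f : Fr.obj W ⟶ A} {r : A ⟶ Z}
    (hr : Wh Fr k n W f r) {W' : Shape} (ι : W ⟶ W') (f' : Fr.obj W' ⟶ A)
    (hf : Fr.map ι ≫ f' = f) : Wh Fr k n W' f' r := by
  obtain ⟨N, hr⟩ := hr
  exact ⟨N, hr.reshape ι f' hf⟩

/-- one whisker -/
theorem whisker (S : Setting Fr) {A Z : M} (f : Fr.obj W ⟶ A) (c : Shape.globe n ⟶ W)
    {a : glob Fr n ⟶ A} (ha : Fr.map c ≫ f = a) {j : A ⟶ Z} {b : glob Fr (n + 1) ⟶ Z}
    (sq : IsPushout a (sg Fr n) j b) : Wh Fr k n W f j := by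
  refine ⟨0 + 1, ?_⟩
  have := Whisk.cons (k := k) (N := 0) f (𝟙 A) (Good.of_isIso _) c a
    (by rw [Category.comp_id, ha]; exact Step.refl S a) j b sq (𝟙 Z) (.nil _ _ (Good.of_isIso _))
  rwa [Category.id_comp, Category.comp_id] at this

end Wh

namespace CylSeq

variable (C : CylSeq Fr)

theorem isIso_oD (j : ℕ) (low : ∀ i, i < j → C.Low i) : IsIso (C.oD j) := by
  induction j with
  | zero =>
    have : IsIso (C.k₀ 0) := by
      have e : C.k₀ 0 = ((bdInit Fr).uniqueUpToIso C.init).hom := (bdInit Fr).hom_ext _ _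
      rw [e]; infer_instance
    exact (C.sqO 0).isIso_inr_of_isIso
  | succ j ih =>
    have h1 : IsIso (C.oD j) := ih fun i hi => low i (by omega)
    have h2 : IsIso (C.i₀ j) := (low j (by omega)).1
    have h3 : IsIso (C.q j) := by
      have : IsIso (C.oD j ≫ C.q j) := by rw [C.oD_q]; exact h2
      exact IsIso.of_isIso_comp_left (C.oD j) (C.q j)
    have sqP : IsPushout (C.i₀ j) (sg Fr j) (pushout.inl (C.i₀ j) (sg Fr j))
      (pushout.inr (C.i₀ j) (sg Fr j)) := IsPushout.of_hasPushout _ _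
    obtain ⟨ψ, χ, sqB, -, hy, -⟩ := C.exists_box j sqP
    have h4 : IsIso χ := sqB.isIso_inl_of_isIso
    have h5 : IsIso (pushout.inr (C.i₀ j) (sg Fr j)) := sqP.isIso_inr_of_isIso
    rw [← hy]
    infer_instance

theorem isIso_q (j : ℕ) (low : ∀ i, i ≤ j → C.Low i) : IsIso (C.q j) := by
  have h1 : IsIso (C.oD j) := C.isIso_oD j fun i hi => low i hi.le
  have h2 : IsIso (C.i₀ j) := (low j le_rfl).1
  have : IsIso (C.oD j ≫ C.q j) := by rw [C.oD_q]; exact h2
  exact IsIso.of_isIso_comp_left (C.oD j) (C.q j)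

variable {n m k : ℕ}

/-- `O j ⟶ A j` -/
theorem wh_q (S : Setting Fr) (low : ∀ j, j < n → C.Low j) (bot : C.MidWith n (C.oD n))
    (mid : ∀ j, n < j → j ≤ m → C.Mid j) (hPO : ∀ m, n < m → PO Fr k m)
    {j : ℕ} (hj : j ≤ k) (hjm : j ≤ m) :
    Wh Fr k n (Shape.globe j) (C.oD j) (C.q j) := by
  rcases lt_trichotomy j n with h | h | h
  · have := C.isIso_q j fun i hi => low i (by omega)
    exact Wh.iso _ _
  · subst h
    obtain ⟨-, θ, sq, -⟩ := bot
    exact Wh.whisker S (C.oD j) (𝟙 _) (by rw [Fr.map_id, Category.id_comp]) sq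
  · obtain ⟨w, -, θ, sq, -⟩ := mid j h hjm
    exact Wh.good _ (Good.cobase sq (good_sg hj (hPO j h)))

/-- `P = A h ∪ D_{h+1} ⟶ O (h+1)` -/
theorem wh_box (S : Setting Fr) (low : ∀ j, j < n → C.Low j) (bot : C.MidWith n (C.oD n))
    (mid : ∀ j, n < j → j ≤ m → C.Mid j) (hPO : ∀ m, n < m → PO Fr k m)
    {h : ℕ} (hh : h ≤ k) (hhm : h ≤ m) {P : M} {x : C.A h ⟶ P} {y : glob Fr (h + 1) ⟶ P}
    (sqP : IsPushout (C.i₀ h) (sg Fr h) x y) :
    ∃ χ : P ⟶ C.O (h + 1), y ≫ χ = C.oD (h + 1) ∧ x ≫ χ = C.inl h ≫ C.oB (h + 1) ∧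
      Wh Fr k n (Shape.globe (h + 1)) y χ := by
  obtain ⟨ψ, χ, sqB, hψ, hy, hx⟩ := C.exists_box h sqP
  refine ⟨χ, hy, hx, ?_⟩
  rcases lt_trichotomy h n with hn | hn | hn
  · have := C.isIso_q h fun i hi => low i (by omega)
    have : IsIso χ := sqB.isIso_inl_of_isIso
    exact Wh.iso _ _
  · subst hn
    obtain ⟨-, θ, sq, -⟩ := bot
    exact Wh.whisker S y (Shape.τ h) hψ.symm (sq.paste_horiz sqB)
  · obtain ⟨w, -, θ, sq, -⟩ := mid h hn hhm
    exact Wh.good _ (Good.cobase sqB (Good.cobase sq (good_sg hh (hPO h hn))))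

/-- `P = A h ∪ D_{h+1} ⟶ A (h+1)` -/
theorem wh_step (S : Setting Fr) (low : ∀ j, j < n → C.Low j) (bot : C.MidWith n (C.oD n))
    (mid : ∀ j, n < j → j ≤ m → C.Mid j) (hPO : ∀ m, n < m → PO Fr k m)
    {h : ℕ} (hh : h + 1 ≤ k) (hhm : h + 1 ≤ m) {P : M} {x : C.A h ⟶ P} {y : glob Fr (h + 1) ⟶ P}
    (sqP : IsPushout (C.i₀ h) (sg Fr h) x y) :
    ∃ ρ : P ⟶ C.A (h + 1), y ≫ ρ = C.i₀ (h + 1) ∧ x ≫ ρ = C.s h ∧
      Wh Fr k n (Shape.globe (h + 1)) y ρ := by
  obtain ⟨χ, hy, hx, hχ⟩ := C.wh_box S low bot mid hPO (h := h) (by omega) (by omega) sqP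
  refine ⟨χ ≫ C.q (h + 1), ?_, ?_, hχ.comp ?_⟩
  · rw [← Category.assoc, hy, C.oD_q]
  · rw [← Category.assoc, hx, Category.assoc, C.oB_q]; rfl
  · rw [hy]
    exact C.wh_q S low bot mid hPO hh hhm

/-- `D_h ⟶ A h` -/
theorem wh_i₀ (S : Setting Fr) (low : ∀ j, j < n → C.Low j) (bot : C.MidWith n (C.oD n))
    (mid : ∀ j, n < j → j ≤ m → C.Mid j) (hPO : ∀ m, n < m → PO Fr k m)
    {h : ℕ} (hh : h ≤ k) (hhm : h ≤ m) :
    Wh Fr k n (Shape.globe h) (𝟙 (glob Fr h)) (C.i₀ h) := by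
  induction h with
  | zero =>
    have : IsIso (C.oD 0) := C.isIso_oD 0 (fun i hi => absurd hi (Nat.not_lt_zero i))
    rw [← C.oD_q]
    refine (Wh.iso _ _).comp ?_
    rw [Category.id_comp]
    exact C.wh_q S low bot mid hPO hh hhm
  | succ h ih =>
    have sqP : IsPushout (C.i₀ h) (sg Fr h) (pushout.inl (C.i₀ h) (sg Fr h))
      (pushout.inr (C.i₀ h) (sg Fr h)) := IsPushout.of_hasPushout _ _
    obtain ⟨ρ, hy, -, hρ⟩ := C.wh_step S low bot mid hPO hh hhm sqP
    rw [← hy]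
    have h1 := (ih (by omega) (by omega)).cobase sqP.flip
    have h2 := h1.reshape (Shape.σ h) (𝟙 _) (by rw [Category.comp_id, Category.id_comp])
    refine h2.comp ?_
    rwa [Category.id_comp]

/-- `D_h ⟶ O h` -/
theorem wh_oD (S : Setting Fr) (low : ∀ j, j < n → C.Low j) (bot : C.MidWith n (C.oD n))
    (mid : ∀ j, n < j → j ≤ m → C.Mid j) (hPO : ∀ m, n < m → PO Fr k m)
    {h : ℕ} (hh : h ≤ k + 1) (hhm : h ≤ m + 1) :
    Wh Fr k n (Shape.globe h) (𝟙 (glob Fr h)) (C.oD h) := by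
  cases h with
  | zero =>
    have : IsIso (C.oD 0) := C.isIso_oD 0 (fun i hi => absurd hi (Nat.not_lt_zero i))
    exact Wh.iso _ _
  | succ h =>
    have sqP : IsPushout (C.i₀ h) (sg Fr h) (pushout.inl (C.i₀ h) (sg Fr h))
      (pushout.inr (C.i₀ h) (sg Fr h)) := IsPushout.of_hasPushout _ _
    obtain ⟨χ, hy, -, hχ⟩ := C.wh_box S low bot mid hPO (h := h) (by omega) (by omega) sqP
    rw [← hy]
    have h1 := (C.wh_i₀ S low bot mid hPO (h := h) (by omega) (by omega)).cobase sqP.flip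
    have h2 := h1.reshape (Shape.σ h) (𝟙 _) (by rw [Category.comp_id, Category.id_comp])
    refine h2.comp ?_
    rwa [Category.id_comp]

end CylSeq

end Crest.Agent.R248
end

-- ▼ part R248/Segal
section

/-!
Segal conditions for models of globular theories, and maps from globes to shapes.
-/

set_option autoImplicit false

open CategoryTheory CategoryTheory.Limits Opposite
open Crest.GeometryTopology.Coherator Crest.GeometryTopology.Coherator.GlobTheory
open Crest.GeometryTopology.Coherator.GlobPsh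

namespace Crest.Agent.R248.Segal

universe u

/-! ### Maps from a globe to a glued shape -/

/-- The gluing square of presheaves. -/
theorem isPushout_psh (S : Shape) (b h : ℕ) (hb : b < S.last) (hh : b < h) :
    IsPushout (globeRepFace hb true ≫ S.apex : globeRep b ⟶ S.psh)
      (globeRepFace hh false : globeRep b ⟶ globeRep h)
      (S.inLeft b h hb hh : S.psh ⟶ (S.glue b h hb hh).psh)
      (S.inRight b h hb hh : globeRep h ⟶ (S.glue b h hb hh).psh) :=
  IsPushout.of_hasPushout _ _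

theorem factor_aux {P Q : GlobPsh.{0}} (φ : Q ⟶ P) (i : ℕ) (g : globeRep i ⟶ P)
    (y : Q.obj (op (GlobeObj.mk i))) (hy : φ.app _ y = yonedaEquiv g) :
    (yonedaEquiv.symm y : globeRep i ⟶ Q) ≫ φ = g := by
  apply yonedaEquiv.injective
  rw [yonedaEquiv_comp, Equiv.apply_symm_apply]
  exact hy

/-- Every globe in a glued shape lies in one of the two pieces. -/
theorem globe_glue_factor (S : Shape) (b h : ℕ) (hb : b < S.last) (hh : b < h) (i : ℕ)
    (g : Shape.globe i ⟶ S.glue b h hb hh) :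
    (∃ g' : Shape.globe i ⟶ S, g' ≫ S.inLeft b h hb hh = g) ∨
    (∃ g' : Shape.globe i ⟶ Shape.globe h, g' ≫ S.inRight b h hb hh = g) := by
  have hpo := (isPushout_psh S b h hb hh).map
    ((evaluation GlobeObjᵒᵖ (Type 0)).obj (op (GlobeObj.mk i)))
  let g0 : globeRep i ⟶ (S.glue b h hb hh).psh := g
  rcases Types.eq_or_eq_of_isPushout hpo (yonedaEquiv g0) with ⟨y, hy⟩ | ⟨y, hy⟩
  · exact Or.inl ⟨_, factor_aux (S.inLeft b h hb hh : S.psh ⟶ (S.glue b h hb hh).psh) i g0 y hy⟩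
  · exact Or.inr ⟨_, factor_aux (Q := globeRep h)
      (S.inRight b h hb hh : globeRep h ⟶ (S.glue b h hb hh).psh) i g0 y hy⟩

/-! ### Maps between globes -/

/-- Every map between globes is the identity or a face. -/
theorem globe_globe_cases (i n : ℕ) (g : Shape.globe i ⟶ Shape.globe n) :
    (∃ h : i = n, g = eqToHom (by rw [h])) ∨ (∃ (h : i < n) (b : Bool), g = Shape.faceMap h b) := by
  let g0 : globeRep i ⟶ globeRep n := g
  obtain ⟨f, hf⟩ : ∃ f : GlobeObj.mk i ⟶ GlobeObj.mk n, yoneda.map f = g0 :=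
    ⟨yoneda.preimage g0, Functor.map_preimage _ _⟩
  have hf' : g = (yoneda.map f : globeRep i ⟶ globeRep n) := hf.symm
  clear hf
  rcases f with _ | ⟨lt, upper⟩
  · left
    refine ⟨rfl, ?_⟩
    rw [hf']
    exact yoneda.map_id _
  · right
    exact ⟨lt, upper, hf'⟩

/-- Induction on shapes by gluing globes. -/
theorem shape_ind {motive : Shape → Prop} (hs : ∀ n, motive (Shape.globe n))
    (hg : ∀ (S : Shape) (b h : ℕ) (hb : b < S.last) (hh : b < h), motive S →
      motive (S.glue b h hb hh)) (S : Shape) : motive S := by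
  obtain ⟨n, P⟩ := S
  induction P with
  | single n => exact hs n
  | glue P b h hb hh ih => exact hg ⟨_, P⟩ b h hb hh ih

theorem dim_globe (n : ℕ) : (Shape.globe n).dim = n := rfl

theorem dim_glue (S : Shape) (b h : ℕ) (hb : b < S.last) (hh : b < h) :
    (S.glue b h hb hh).dim = max S.dim h := rfl

/-- There are no globes above the dimension of a shape. -/
theorem no_globe_above (S : Shape) (i : ℕ) (hi : S.dim < i) : IsEmpty (Shape.globe i ⟶ S) := by
  induction S using shape_ind with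
  | hs n =>
    refine ⟨fun g => ?_⟩
    rw [dim_globe] at hi
    rcases globe_globe_cases i n g with ⟨h, _⟩ | ⟨h, _, _⟩ <;> omega
  | hg S b h hb hh ih =>
    rw [dim_glue] at hi
    refine ⟨fun g => ?_⟩
    rcases globe_glue_factor S b h hb hh i g with ⟨g', _⟩ | ⟨g', _⟩
    · exact (ih (lt_of_le_of_lt (le_max_left _ _) hi)).false g'
    · have : h < i := lt_of_le_of_lt (le_max_right _ _) hi
      rcases globe_globe_cases i h g' with ⟨h, _⟩ | ⟨h, _, _⟩ <;> omega

/-! ### Evaluation of tuples on globes -/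

variable {C : GlobTheory.{u}}

/-- The type of `S`-tuples of a model. -/
abbrev Tup (K : C.GlobModel) (S : Shape) : Type u := K.functor.obj (op (⟨S⟩ : C.Ob))

/-- Restriction of an `S`-tuple of a model along a map of shapes. -/
noncomputable def res (K : C.GlobModel) {S T : Shape} (g : S ⟶ T) (s : Tup K T) : Tup K S :=
  K.functor.map (C.incl.map g).op s


theorem res_comp (K : C.GlobModel) {R S T : Shape} (f : R ⟶ S) (g : S ⟶ T)
    (s : Tup K T) : res K (f ≫ g) s = res K f (res K g s) := by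
  unfold res
  rw [C.incl.map_comp, op_comp, K.functor.map_comp]
  rfl




theorem hinge_inLeft (S : Shape) (b h : ℕ) (hb : b < S.last) (hh : b < h) :
    S.hinge hb ≫ S.inLeft b h hb hh = Shape.faceMap hh false ≫ S.inRight b h hb hh :=
  (isPushout_psh S b h hb hh).w

/-- Two tuples of a model agreeing on both pieces of a glued shape agree. -/
theorem ext_glue (K : C.GlobModel) (S : Shape) (b h : ℕ) (hb : b < S.last) (hh : b < h)
    (s s' : Tup K (S.glue b h hb hh))
    (h1 : res K (S.inLeft b h hb hh) s = res K (S.inLeft b h hb hh) s')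
    (h2 : res K (S.inRight b h hb hh) s = res K (S.inRight b h hb hh) s') : s = s' :=
  Types.ext_of_isPullback (K.sums S b h hb hh) h1 h2



/-- Natural families of cells of a model indexed by the globes of a shape. -/
def IsNatFamily (K : C.GlobModel) (S : Shape)
    (x : ∀ i, (Shape.globe i ⟶ S) → Tup K (Shape.globe i)) : Prop :=
  ∀ (i : ℕ) (g : Shape.globe (i + 1) ⟶ S),
    x i (Shape.σ i ≫ g) = res K (Shape.σ i) (x (i + 1) g) ∧
    x i (Shape.τ i ≫ g) = res K (Shape.τ i) (x (i + 1) g)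

theorem faceMap_comp {l m n : ℕ} (h : l < m) (h' : m < n) (b b' : Bool) :
    Shape.faceMap h b ≫ Shape.faceMap h' b' = Shape.faceMap (h.trans h') b := by
  have : GlobeObj.faceArrow h b ≫ GlobeObj.faceArrow h' b' =
      GlobeObj.faceArrow (h.trans h') b := rfl
  have h2 : yoneda.map (GlobeObj.faceArrow h b) ≫ yoneda.map (GlobeObj.faceArrow h' b') =
      yoneda.map (GlobeObj.faceArrow (h.trans h') b) := by
    rw [← Functor.map_comp, this]
  exact h2

theorem IsNatFamily.face {K : C.GlobModel} {S : Shape}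
    {x : ∀ i, (Shape.globe i ⟶ S) → Tup K (Shape.globe i)} (hx : IsNatFamily K S x) :
    ∀ (m n : ℕ) (h : m < n) (b : Bool) (g : Shape.globe n ⟶ S),
      x m (Shape.faceMap h b ≫ g) = res K (Shape.faceMap h b) (x n g) := by
  intro m n h
  induction n, h using Nat.le_induction with
  | base =>
    intro b g
    cases b
    · exact (hx m g).1
    · exact (hx m g).2
  | succ n h ih =>
    intro b g
    rw [show Shape.faceMap (_ : m < n + 1) b = Shape.faceMap h b ≫ Shape.σ n from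
      (faceMap_comp _ _ _ _).symm, Category.assoc, ih, (hx n g).1, res_comp]




end Crest.Agent.R248.Segal
end

-- ▼ part R248/Column
section

/-! Column lemma (helper270): every shape cell `c : globe n ⟶ S` is `Step`-connected to a shape cell `u`
such that `S ∪_u D_{n+1}` is again a shape.  Main statement: `exists_column`. -/

set_option autoImplicit false

namespace Crest.Agent.R248

open CategoryTheory CategoryTheory.Limits Opposite
open Crest.GeometryTopology.Coherator Crest.GeometryTopology.Coherator.GlobPsh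

universe v w

namespace Column

/-- the shape of a pasting scheme -/
abbrev sh {m : ℕ} (P : Pasting m) : Shape := ⟨m, P⟩

/-- the last globe as a map of shapes -/
noncomputable def apx {m : ℕ} (P : Pasting m) : Shape.globe m ⟶ sh P :=
  (P.build.2 : globeRep m ⟶ (sh P).psh)

/-- the target face of the last globe -/
noncomputable def hng {m : ℕ} (P : Pasting m) {b : ℕ} (hb : b < m) : Shape.globe b ⟶ sh P :=
  (sh P).hinge hb

/-- left inclusion -/
noncomputable def inL {m : ℕ} (P : Pasting m) (b h : ℕ) (hb : b < m) (hh : b < h) :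
    sh P ⟶ sh (.glue P b h hb hh) :=
  (sh P).inLeft b h hb hh

/-- right inclusion -/
noncomputable def inR {m : ℕ} (P : Pasting m) (b h : ℕ) (hb : b < m) (hh : b < h) :
    Shape.globe h ⟶ sh (.glue P b h hb hh) :=
  (sh P).inRight b h hb hh

/-- gluing square in `Shape`, as a commutative square -/
theorem hng_inL {m : ℕ} (P : Pasting m) (b h : ℕ) (hb : b < m) (hh : b < h) :
    hng P hb ≫ inL P b h hb hh = Shape.faceMap hh false ≫ inR P b h hb hh :=
  Segal.hinge_inLeft (sh P) b h hb hh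

theorem exists_desc {m : ℕ} (P : Pasting m) (b h : ℕ) (hb : b < m) (hh : b < h) {T : Shape}
    (f : sh P ⟶ T) (g : Shape.globe h ⟶ T) (hfg : hng P hb ≫ f = Shape.faceMap hh false ≫ g) :
    ∃ k : sh (.glue P b h hb hh) ⟶ T, inL P b h hb hh ≫ k = f ∧ inR P b h hb hh ≫ k = g := by
  have hpo := Segal.isPushout_psh (sh P) b h hb hh
  exact ⟨hpo.desc (f : (sh P).psh ⟶ T.psh) (g : globeRep h ⟶ T.psh) hfg,
    hpo.inl_desc _ _ _, hpo.inr_desc _ _ _⟩

theorem factor {m : ℕ} (P : Pasting m) (b h : ℕ) (hb : b < m) (hh : b < h) (i : ℕ)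
    (g : Shape.globe i ⟶ sh (.glue P b h hb hh)) :
    (∃ g' : Shape.globe i ⟶ sh P, g' ≫ inL P b h hb hh = g) ∨
    (∃ g' : Shape.globe i ⟶ Shape.globe h, g' ≫ inR P b h hb hh = g) :=
  Segal.globe_glue_factor (sh P) b h hb hh i g

theorem hng_eq {m : ℕ} (P : Pasting m) {b : ℕ} (hb : b < m) :
    hng P hb = Shape.faceMap hb true ≫ apx P := rfl


theorem apx_single (m : ℕ) : apx (.single m) = 𝟙 (Shape.globe m) := rfl

/-- lower faces of the hinge -/
theorem face_hng {m : ℕ} (P : Pasting m) {a b : ℕ} (ha : a < b) (hb : b < m) (β : Bool) :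
    Shape.faceMap ha β ≫ hng P hb = Shape.faceMap (ha.trans hb) β ≫ apx P := by
  rw [hng_eq, ← Category.assoc, faceMap_comp]

variable {M : Type w} [Category.{v} M] {Fr : Shape ⥤ M}

theorem sums_map (hF : Sums Fr) {m : ℕ} (P : Pasting m) (b h : ℕ) (hb : b < m) (hh : b < h) :
    IsPushout (Fr.map (hng P hb)) (Fr.map (Shape.faceMap hh false))
      (Fr.map (inL P b h hb hh)) (Fr.map (inR P b h hb hh)) :=
  hF (sh P) b h hb hh

variable [HasPushouts M] [HasInitial M]

/-- extension of a shape by an `(n+1)`-globe at an `n`-cell connected to `c` -/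
structure Ext1 (Fr : Shape ⥤ M) {m m' : ℕ} (P : Pasting m) (P' : Pasting m') (n : ℕ)
    (c : Shape.globe n ⟶ sh P) (ι : sh P ⟶ sh P') : Prop where
  dim_le : P'.dim ≤ max P.dim (n + 1)
  ex : ∃ (u : Shape.globe n ⟶ sh P) (w : Shape.globe (n + 1) ⟶ sh P'),
    Step Fr (Fr.map u) (Fr.map c) ∧ IsPushout (Fr.map u) (sg Fr n) (Fr.map ι) (Fr.map w)

theorem ext_glue (hF : Sums Fr) {m m' : ℕ} {P : Pasting m} {P' : Pasting m'} {n : ℕ}
    {c : Shape.globe n ⟶ sh P} {ι : sh P ⟶ sh P'} (hE : Ext1 Fr P P' n c ι) {b h : ℕ}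
    (hb : b < m) (hb' : b < m') (hh : b < h)
    (hι : hng P hb ≫ ι = hng P' hb') :
    ∃ ι' : sh (.glue P b h hb hh) ⟶ sh (.glue P' b h hb' hh),
      apx (.glue P b h hb hh) ≫ ι' = apx (.glue P' b h hb' hh) ∧
      Ext1 Fr (.glue P b h hb hh) (.glue P' b h hb' hh) n
        (c ≫ inL P b h hb hh) ι' := by
  obtain ⟨ι', h1, h2⟩ := exists_desc P b h hb hh (ι ≫ inL P' b h hb' hh)
    (inR P' b h hb' hh) (by
      rw [← Category.assoc, hι]
      exact hng_inL P' b h hb' hh)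
  refine ⟨ι', h2, ?_⟩
  obtain ⟨hd, u, w, hs, hpo⟩ := hE
  refine ⟨?_, u ≫ inL P b h hb hh, w ≫ inL P' b h hb' hh, ?_, ?_⟩
  · show max P'.dim h ≤ max (max P.dim h) (n + 1)
    omega
  · rw [Fr.map_comp, Fr.map_comp]
    exact hs.comp _
  · have key : IsPushout (Fr.map (inL P b h hb hh)) (Fr.map ι) (Fr.map ι')
        (Fr.map (inL P' b h hb' hh)) := by
      have hl := sums_map hF P b h hb hh
      have ho := sums_map hF P' b h hb' hh
      have ho' : IsPushout (Fr.map (hng P hb) ≫ Fr.map ι) (Fr.map (Shape.faceMap hh false))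
          (Fr.map (inL P' b h hb' hh))
          (Fr.map (inR P b h hb hh) ≫ Fr.map ι') := by
        rw [← Fr.map_comp, hι, ← Fr.map_comp, h2]
        exact ho
      exact (IsPushout.of_left ho' (by
        rw [← Fr.map_comp, ← Fr.map_comp, h1]) hl).flip
    rw [Fr.map_comp, Fr.map_comp]
    exact IsPushout.paste_horiz hpo key

omit [HasPushouts M] [HasInitial M] in
theorem step_faces {n h : ℕ} (hn : n < h) :
    Step Fr (Fr.map (Shape.faceMap hn false)) (Fr.map (Shape.faceMap hn true)) := by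
  rcases Nat.lt_or_ge (n + 1) h with h1 | h1
  · refine ⟨Fr.map (Shape.faceMap h1 true), ?_, ?_⟩
    · rw [← Fr.map_comp]
      exact congrArg _ (faceMap_comp _ _ _ _)
    · rw [← Fr.map_comp]
      exact congrArg _ (faceMap_comp _ _ _ _)
  · obtain rfl : h = n + 1 := by omega
    exact ⟨𝟙 _, Category.comp_id _, Category.comp_id _⟩

omit [HasPushouts M] [HasInitial M] in
theorem ext_hng (hF : Sums Fr) {m n : ℕ} (P : Pasting m) (hn : n < m) (c : Shape.globe n ⟶ sh P)
    (hc : Step Fr (Fr.map (hng P hn)) (Fr.map c)) :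
    Ext1 Fr P (.glue P n (n + 1) hn (Nat.lt_succ_self n)) n c
      (inL P n (n + 1) hn (Nat.lt_succ_self n)) :=
  ⟨by show max P.dim (n + 1) ≤ max P.dim (n + 1); exact le_rfl,
    hng P hn, inR P n (n + 1) hn (Nat.lt_succ_self n), hc, sums_map hF P n (n + 1) hn _⟩

omit [HasPushouts M] [HasInitial M] in
theorem ext_apx (hF : Sums Fr) {n : ℕ} (P : Pasting n) (c : Shape.globe n ⟶ sh P)
    (hc : Step Fr (Fr.map (apx P)) (Fr.map c)) :
    ∃ (P' : Pasting (n + 1)) (ι : sh P ⟶ sh P'), apx P ≫ ι = Shape.σ n ≫ apx P' ∧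
      Ext1 Fr P P' n c ι := by
  cases P with
  | single =>
    refine ⟨.single (n + 1), Shape.σ n, ?_, ?_, apx _, apx _, hc, ?_⟩
    · rw [apx_single, apx_single]
      exact (Category.id_comp _).trans (Category.comp_id _).symm
    · show n + 1 ≤ max n (n + 1)
      omega
    · have key : IsPushout (Fr.map (𝟙 (Shape.globe n))) (Fr.map (Shape.σ n))
          (Fr.map (Shape.σ n)) (Fr.map (𝟙 (Shape.globe (n + 1)))) := by
        rw [Fr.map_id, Fr.map_id]
        exact IsPushout.of_horiz_isIso ⟨by rw [Category.id_comp, Category.comp_id]⟩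
      exact key
  | glue P0 b _ hb hh =>
    have hh' : b < n + 1 := hh.trans (Nat.lt_succ_self n)
    have hff : (Shape.faceMap hh' false : Shape.globe b ⟶ Shape.globe (n + 1)) =
        Shape.faceMap hh false ≫ Shape.σ n := (faceMap_comp _ _ _ _).symm
    obtain ⟨ι, h1, h2⟩ := exists_desc P0 b n hb hh (inL P0 b (n + 1) hb hh')
      (Shape.σ n ≫ inR P0 b (n + 1) hb hh') (by
        rw [hng_inL, hff, Category.assoc])
    refine ⟨.glue P0 b (n + 1) hb hh', ι, h2, ?_, apx _, apx _, hc, ?_⟩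
    · show max P0.dim (n + 1) ≤ max (max P0.dim n) (n + 1)
      omega
    · have hl := (sums_map hF P0 b n hb hh).flip
      have ho := (sums_map hF P0 b (n + 1) hb hh').flip
      have ho' : IsPushout (Fr.map (Shape.faceMap hh false) ≫ Fr.map (Shape.σ n))
          (Fr.map (hng P0 hb)) (Fr.map (inR P0 b (n + 1) hb hh'))
          (Fr.map (inL P0 b n hb hh) ≫ Fr.map ι) := by
        rw [← Fr.map_comp, ← Fr.map_comp, h1, ← hff]
        exact ho
      exact (IsPushout.of_left ho' (by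
        rw [← Fr.map_comp, ← Fr.map_comp]; exact congrArg Fr.map h2.symm) hl).flip

/-- identity or target face -/
inductive LF : ∀ {n m : ℕ}, (Shape.globe n ⟶ Shape.globe m) → Prop
  | id (n : ℕ) : LF (𝟙 (Shape.globe n))
  | face {n m : ℕ} (h : n < m) : LF (Shape.faceMap h true)

/-- `c` is connected to the target face of the last globe -/
def ConnA (Fr : Shape ⥤ M) {m : ℕ} (P : Pasting m) {n : ℕ} (c : Shape.globe n ⟶ sh P) : Prop :=
  ∃ k : Shape.globe n ⟶ Shape.globe m, LF k ∧ Step Fr (Fr.map (k ≫ apx P)) (Fr.map c)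

/-- `P` can be extended at a cell connected to `c`, without changing the last globe -/
def ConnB (Fr : Shape ⥤ M) {m : ℕ} (P : Pasting m) {n : ℕ} (c : Shape.globe n ⟶ sh P) : Prop :=
  ∃ (P' : Pasting m) (ι : sh P ⟶ sh P'), apx P ≫ ι = apx P' ∧ Ext1 Fr P P' n c ι

theorem connA_apx (S : Setting Fr) {m : ℕ} (P : Pasting m) {n : ℕ}
    (g : Shape.globe n ⟶ Shape.globe m) : ConnA Fr P (g ≫ apx P) := by
  rcases Segal.globe_globe_cases n m g with ⟨h, hg⟩ | ⟨h, β, hg⟩
  · subst h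
    have hg' : g = 𝟙 _ := hg
    subst hg'
    exact ⟨𝟙 _, LF.id _, Step.refl S _⟩
  · subst hg
    refine ⟨Shape.faceMap h true, LF.face h, ?_⟩
    cases β with
    | true => exact Step.refl S _
    | false =>
      rw [Fr.map_comp, Fr.map_comp]
      exact (Step.symm S (step_faces h)).comp _

theorem dichotomy (S : Setting Fr) {m : ℕ} (P : Pasting m) {n : ℕ} (c : Shape.globe n ⟶ sh P) :
    ConnA Fr P c ∨ ConnB Fr P c := by
  induction P with
  | single h =>
    left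
    have e : (c : Shape.globe n ⟶ Shape.globe h) ≫ apx (.single h) = c := Category.comp_id _
    exact e ▸ connA_apx S (.single h) (c : Shape.globe n ⟶ Shape.globe h)
  | glue P b h hb hh ih =>
    rcases factor P b h hb hh n c with ⟨g, rfl⟩ | ⟨g, rfl⟩
    · rcases ih g with ⟨k, hk, hs⟩ | ⟨P', ι, hι, hE⟩
      · cases hk with
        | id =>
          -- `n = last P`, so `b < n`
          right
          obtain ⟨P', ι, hι, hE⟩ := ext_apx S.sums P g (by rwa [Category.id_comp] at hs)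
          have hb' : b < n + 1 := hb.trans (Nat.lt_succ_self n)
          obtain ⟨ι', h1, h2⟩ := ext_glue S.sums hE hb hb' hh (by
            rw [hng_eq, Category.assoc, hι, hng_eq, ← Category.assoc]
            congr 1
            exact faceMap_comp _ _ _ _)
          exact ⟨_, ι', h1, h2⟩
        | face hn =>
          rcases Nat.lt_or_ge b n with hbn | hbn
          · -- extend `P` by gluing
            right
            have hE := ext_hng S.sums P hn g hs
            have hb' : b < n + 1 := hbn.trans (Nat.lt_succ_self n)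
            obtain ⟨ι', h1, h2⟩ := ext_glue S.sums hE hb hb' hh (by
              have e1 : (hng P hb : Shape.globe b ⟶ sh P) = Shape.faceMap hbn true ≫ hng P hn := by
                rw [face_hng]; rfl
              rw [e1, Category.assoc, hng_inL, ← Category.assoc, faceMap_comp]
              rfl)
            exact ⟨_, ι', h1, h2⟩
          · left
            have hnh : n < h := lt_of_le_of_lt hbn hh
            refine ⟨Shape.faceMap hnh true, LF.face hnh, ?_⟩
            have hs' : Step Fr (Fr.map (hng P hn ≫ inL P b h hb hh))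
                (Fr.map (g ≫ inL P b h hb hh)) := by
              rw [Fr.map_comp, Fr.map_comp]
              exact hs.comp _
            refine Step.trans S ?_ hs'
            rcases Nat.eq_or_lt_of_le hbn with hbn' | hbn'
            · subst hbn'
              rw [hng_inL, Fr.map_comp, Fr.map_comp]
              exact (Step.symm S (step_faces hnh)).comp _
            · have e1 : (hng P hn : Shape.globe n ⟶ sh P) = Shape.faceMap hbn' true ≫ hng P hb := by
                rw [face_hng]; rfl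
              rw [e1, Category.assoc, hng_inL, ← Category.assoc, faceMap_comp]
              exact Step.refl S _
      · right
        obtain ⟨ι', h1, h2⟩ := ext_glue S.sums hE hb hb hh (by
          rw [hng_eq, hng_eq, Category.assoc, hι])
        exact ⟨_, ι', h1, h2⟩
    · left
      exact connA_apx S (.glue P b h hb hh) g

end Column

variable {M : Type w} [Category.{v} M] [HasPushouts M] [HasInitial M] {Fr : Shape ⥤ M}

open Column in
/-- **Column lemma.** Every shape cell `c` is connected to a shape cell `u` at which the shape can be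
extended by an `(n+1)`-globe within shapes. -/
theorem exists_column (S : Setting Fr) (W : Shape) {n : ℕ} (c : Shape.globe n ⟶ W) :
    ∃ (W' : Shape) (u : Shape.globe n ⟶ W) (ι : W ⟶ W') (w : Shape.globe (n + 1) ⟶ W'),
      W'.dim ≤ max W.dim (n + 1) ∧ Step Fr (Fr.map u) (Fr.map c) ∧
      IsPushout (Fr.map u) (sg Fr n) (Fr.map ι) (Fr.map w) := by
  obtain ⟨m, P⟩ := W
  have key : ∃ (m' : ℕ) (P' : Pasting m') (ι : sh P ⟶ sh P'), Ext1 Fr P P' n c ι := by
    rcases dichotomy S P c with ⟨k, hk, hs⟩ | ⟨P', ι, -, hE⟩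
    · cases hk with
      | id =>
        obtain ⟨P', ι, hι, hE⟩ := ext_apx S.sums P c (by rwa [Category.id_comp] at hs)
        exact ⟨_, P', ι, hE⟩
      | face hn => exact ⟨_, _, _, ext_hng S.sums P hn c hs⟩
    · exact ⟨_, P', ι, hE⟩
  obtain ⟨m', P', ι, hd, u, w, h1, h2⟩ := key
  exact ⟨sh P', u, ι, w, hd, h1, h2⟩

end Crest.Agent.R248
end

-- ▼ part R248/CylBuild
section

/-! TASK CylBuild: recursive construction of the cylinder sequence. -/

set_option autoImplicit false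

namespace Crest.Agent.R248

open CategoryTheory CategoryTheory.Limits Opposite
open Crest.GeometryTopology.Coherator

universe v w

variable {M : Type w} [Category.{v} M] [HasPushouts M] [HasInitial M]

namespace CylBuild

/-- boundary data in dimension `j` -/
structure Base (Fr : Shape ⥤ M) (j : ℕ) where
  B : M
  k₀ : bd Fr j ⟶ B
  k₁ : bd Fr j ⟶ B

variable {Fr : Shape ⥤ M} {j : ℕ}

/-- open box -/
noncomputable def Base.O (b : Base Fr j) : M := pushout b.k₀ (bdι Fr j)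

noncomputable def Base.oB (b : Base Fr j) : b.B ⟶ b.O := pushout.inl b.k₀ (bdι Fr j)

noncomputable def Base.oD (b : Base Fr j) : glob Fr j ⟶ b.O := pushout.inr b.k₀ (bdι Fr j)

theorem Base.sqO (b : Base Fr j) : IsPushout b.k₀ (bdι Fr j) b.oB b.oD :=
  IsPushout.of_hasPushout _ _

/-- filling data over boundary data -/
structure Ext (b : Base Fr j) where
  A : M
  q : b.O ⟶ A
  i₁ : glob Fr j ⟶ A
  w : b.k₁ ≫ b.oB ≫ q = bdι Fr j ≫ i₁

namespace Ext

variable {b : Base Fr j} (e : Ext b)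

noncomputable def δ : b.B ⟶ e.A := b.oB ≫ e.q

noncomputable def i₀ : glob Fr j ⟶ e.A := b.oD ≫ e.q

theorem k₀_δ : b.k₀ ≫ e.δ = bdι Fr j ≫ e.i₀ := by
  unfold δ i₀
  rw [← Category.assoc, ← Category.assoc, b.sqO.w]

theorem k₁_δ : b.k₁ ≫ e.δ = bdι Fr j ≫ e.i₁ := e.w

/-- the boundary data in the next dimension -/
noncomputable def next : Base Fr (j + 1) where
  B := pushout e.δ e.δ
  k₀ := (bd_sq Fr j).desc (e.i₀ ≫ pushout.inl _ _) (e.i₀ ≫ pushout.inr _ _) (by
    rw [← Category.assoc, ← Category.assoc, ← e.k₀_δ, Category.assoc, Category.assoc,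
      pushout.condition])
  k₁ := (bd_sq Fr j).desc (e.i₁ ≫ pushout.inl _ _) (e.i₁ ≫ pushout.inr _ _) (by
    rw [← Category.assoc, ← Category.assoc, ← e.k₁_δ, Category.assoc, Category.assoc,
      pushout.condition])

noncomputable def inl : e.A ⟶ e.next.B := pushout.inl e.δ e.δ

noncomputable def inr : e.A ⟶ e.next.B := pushout.inr e.δ e.δ

theorem sq : IsPushout e.δ e.δ e.inl e.inr := IsPushout.of_hasPushout _ _

theorem inl_k₀ : bdInl Fr j ≫ e.next.k₀ = e.i₀ ≫ e.inl := (bd_sq Fr j).inl_desc _ _ _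

theorem inr_k₀ : bdInr Fr j ≫ e.next.k₀ = e.i₀ ≫ e.inr := (bd_sq Fr j).inr_desc _ _ _

theorem inl_k₁ : bdInl Fr j ≫ e.next.k₁ = e.i₁ ≫ e.inl := (bd_sq Fr j).inl_desc _ _ _

theorem inr_k₁ : bdInr Fr j ≫ e.next.k₁ = e.i₁ ≫ e.inr := (bd_sq Fr j).inr_desc _ _ _

/-- `Low` -/
def IsLow : Prop := IsIso e.q ∧ e.i₁ = e.i₀

/-- `MidWith` -/
def IsMidWith (w : glob Fr j ⟶ b.O) : Prop :=
  bdι Fr j ≫ w = b.k₁ ≫ b.oB ∧
    ∃ θ : glob Fr (j + 1) ⟶ e.A, IsPushout w (sg Fr j) e.q θ ∧ tg Fr j ≫ θ = e.i₁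

/-- `High` -/
def IsHigh : Prop := IsPushout (b.k₁ ≫ b.oB) (bdι Fr j) e.q e.i₁

end Ext

/-- the trivial filling -/
noncomputable def extLow (b : Base Fr j) (h : b.k₀ = b.k₁) : Ext b where
  A := b.O
  q := 𝟙 _
  i₁ := b.oD
  w := by rw [Category.comp_id, ← h, b.sqO.w]

theorem extLow_isLow (b : Base Fr j) (h : b.k₀ = b.k₁) : (extLow b h).IsLow := by
  refine ⟨?_, ?_⟩
  · change IsIso (𝟙 _)
    infer_instance
  · change b.oD = b.oD ≫ 𝟙 _
    rw [Category.comp_id]

/-- filling with a transport -/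
noncomputable def extMid (b : Base Fr j) (w : glob Fr j ⟶ b.O)
    (h : bdι Fr j ≫ w = b.k₁ ≫ b.oB) : Ext b where
  A := pushout w (sg Fr j)
  q := pushout.inl _ _
  i₁ := tg Fr j ≫ pushout.inr _ _
  w := by
    rw [← Category.assoc, ← h, Category.assoc, pushout.condition, ← Category.assoc,
      ← Category.assoc, bdι_sg]

theorem extMid_isMid (b : Base Fr j) (w : glob Fr j ⟶ b.O)
    (h : bdι Fr j ≫ w = b.k₁ ≫ b.oB) : (extMid b w h).IsMidWith w :=
  ⟨h, pushout.inr _ _, IsPushout.of_hasPushout _ _, rfl⟩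

/-- the high filling -/
noncomputable def extHigh (b : Base Fr j) : Ext b where
  A := pushout (b.k₁ ≫ b.oB) (bdι Fr j)
  q := pushout.inl _ _
  i₁ := pushout.inr _ _
  w := by rw [← Category.assoc, pushout.condition]

theorem extHigh_isHigh (b : Base Fr j) : (extHigh b).IsHigh := IsPushout.of_hasPushout _ _

theorem exists_ext (n : ℕ) (κ : ℕ∞) (j : ℕ) (b : Base Fr j) :
    ∃ e : Ext b, (j < n → b.k₀ = b.k₁ → e.IsLow) ∧
      (j = n → (j : ℕ∞) ≤ κ → b.k₀ = b.k₁ → e.IsMidWith b.oD) ∧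
      (n < j → (j : ℕ∞) ≤ κ → (∃ w : glob Fr j ⟶ b.O, bdι Fr j ≫ w = b.k₁ ≫ b.oB) →
        ∃ w, e.IsMidWith w) ∧
      (n ≤ j → κ < (j : ℕ∞) → e.IsHigh) := by
  classical
  by_cases h : b.k₀ = b.k₁
  · rcases lt_trichotomy j n with hj | hj | hj
    · refine ⟨extLow b h, fun _ _ => extLow_isLow b h, fun h' => by omega, fun h' => by omega,
        fun h' => by omega⟩
    · by_cases hκ : (j : ℕ∞) ≤ κ
      · have hw : bdι Fr j ≫ b.oD = b.k₁ ≫ b.oB := by rw [← h, b.sqO.w]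
        exact ⟨extMid b b.oD hw, fun h' => by omega, fun _ _ _ => extMid_isMid b _ hw,
          fun h' => by omega, fun _ h' => absurd hκ (not_le.2 h')⟩
      · exact ⟨extHigh b, fun h' => by omega, fun _ h' => absurd h' hκ, fun _ h' => absurd h' hκ,
            fun _ _ => extHigh_isHigh b⟩
    · by_cases hκ : (j : ℕ∞) ≤ κ
      · by_cases hw : ∃ w : glob Fr j ⟶ b.O, bdι Fr j ≫ w = b.k₁ ≫ b.oB
        · obtain ⟨w, hw⟩ := hw
          exact ⟨extMid b w hw, fun h' => by omega, fun h' => by omega,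
            fun _ _ _ => ⟨w, extMid_isMid b w hw⟩, fun _ h' => absurd hκ (not_le.2 h')⟩
        · exact ⟨extHigh b, fun h' => by omega, fun h' => by omega, fun _ _ h' => absurd h' hw,
            fun _ _ => extHigh_isHigh b⟩
      · exact ⟨extHigh b, fun h' => by omega, fun h' => by omega, fun _ h' => absurd h' hκ,
            fun _ _ => extHigh_isHigh b⟩
  · by_cases hκ : (j : ℕ∞) ≤ κ
    · by_cases hw : ∃ w : glob Fr j ⟶ b.O, bdι Fr j ≫ w = b.k₁ ≫ b.oB
      · obtain ⟨w, hw⟩ := hw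
        exact ⟨extMid b w hw, fun _ h' => absurd h' h, fun _ _ h' => absurd h' h,
          fun _ _ _ => ⟨w, extMid_isMid b w hw⟩, fun _ h' => absurd hκ (not_le.2 h')⟩
      · exact ⟨extHigh b, fun _ h' => absurd h' h, fun _ _ h' => absurd h' h,
          fun _ _ h' => absurd h' hw, fun _ _ => extHigh_isHigh b⟩
    · exact ⟨extHigh b, fun _ h' => absurd h' h, fun _ _ h' => absurd h' h,
          fun _ h' => absurd h' hκ, fun _ _ => extHigh_isHigh b⟩

/-- the chosen filling -/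
noncomputable def ext (n : ℕ) (κ : ℕ∞) (j : ℕ) (b : Base Fr j) : Ext b := (exists_ext n κ j b).choose

/-- the boundary data in all dimensions -/
noncomputable def base (Fr : Shape ⥤ M) (n : ℕ) (κ : ℕ∞) : (j : ℕ) → Base Fr j
  | 0 => ⟨bd Fr 0, 𝟙 _, 𝟙 _⟩
  | j + 1 => (ext n κ j (base Fr n κ j)).next

/-- the filling in all dimensions -/
noncomputable def fil (Fr : Shape ⥤ M) (n : ℕ) (κ : ℕ∞) (j : ℕ) : Ext (base Fr n κ j) :=
  ext n κ j (base Fr n κ j)

/-- the cylinder sequence -/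
noncomputable def seq (Fr : Shape ⥤ M) (n : ℕ) (κ : ℕ∞) : CylSeq Fr where
  A j := (fil Fr n κ j).A
  B j := (base Fr n κ j).B
  O j := (base Fr n κ j).O
  δ j := (fil Fr n κ j).δ
  inl j := (fil Fr n κ j).inl
  inr j := (fil Fr n κ j).inr
  init := bdInit Fr
  sq j := (fil Fr n κ j).sq
  i₀ j := (fil Fr n κ j).i₀
  i₁ j := (fil Fr n κ j).i₁
  k₀ j := (base Fr n κ j).k₀
  k₁ j := (base Fr n κ j).k₁
  k₀_δ j := (fil Fr n κ j).k₀_δ
  k₁_δ j := (fil Fr n κ j).k₁_δ
  inl_k₀ j := (fil Fr n κ j).inl_k₀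
  inr_k₀ j := (fil Fr n κ j).inr_k₀
  inl_k₁ j := (fil Fr n κ j).inl_k₁
  inr_k₁ j := (fil Fr n κ j).inr_k₁
  oB j := (base Fr n κ j).oB
  oD j := (base Fr n κ j).oD
  sqO j := (base Fr n κ j).sqO
  q j := (fil Fr n κ j).q
  oB_q _ := rfl
  oD_q _ := rfl

theorem low_aux (n : ℕ) (κ : ℕ∞) (j : ℕ) (hj : j ≤ n) :
    (base Fr n κ j).k₀ = (base Fr n κ j).k₁ ∧ IsIso (base Fr n κ j).k₀ := by
  induction j with
  | zero => exact ⟨rfl, inferInstanceAs (IsIso (𝟙 (bd Fr 0)))⟩
  | succ j ih =>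
    obtain ⟨hk, hiso⟩ := ih (by omega)
    have hlow : (fil Fr n κ j).IsLow :=
      (exists_ext n κ j (base Fr n κ j)).choose_spec.1 (by omega) hk
    have hq := hlow.1
    have hi₀ : IsIso (fil Fr n κ j).i₀ := by
      have : IsIso (base Fr n κ j).oD := (base Fr n κ j).sqO.flip.isIso_inl_of_isIso
      unfold Ext.i₀
      infer_instance
    refine ⟨?_, ?_⟩
    · apply (bd_sq Fr j).hom_ext
      · change _ ≫ (fil Fr n κ j).next.k₀ = _ ≫ (fil Fr n κ j).next.k₁
        rw [Ext.inl_k₀, Ext.inl_k₁, hlow.2]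
      · change _ ≫ (fil Fr n κ j).next.k₀ = _ ≫ (fil Fr n κ j).next.k₁
        rw [Ext.inr_k₀, Ext.inr_k₁, hlow.2]
    · change IsIso (fil Fr n κ j).next.k₀
      have h2 : IsPushout (bdι Fr j) (bdι Fr j) ((fil Fr n κ j).i₀ ≫ (fil Fr n κ j).inl)
          ((fil Fr n κ j).i₀ ≫ (fil Fr n κ j).inr) :=
        (fil Fr n κ j).sq.of_iso' (asIso (base Fr n κ j).k₀) (asIso (fil Fr n κ j).i₀)
          (asIso (fil Fr n κ j).i₀) (Iso.refl _) (fil Fr n κ j).k₀_δ (fil Fr n κ j).k₀_δ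
          (by simp) (by simp)
      have h3 : (fil Fr n κ j).next.k₀ = ((bd_sq Fr j).isoIsPushout _ _ h2).hom := by
        apply (bd_sq Fr j).hom_ext
        · rw [Ext.inl_k₀, IsPushout.inl_isoIsPushout_hom]
        · rw [Ext.inr_k₀, IsPushout.inr_isoIsPushout_hom]
      rw [h3]
      infer_instance

end CylBuild

open CylBuild in
theorem exists_cylSeq (Fr : Shape ⥤ M) (n : ℕ) (κ : ℕ∞) (hn : (n : ℕ∞) ≤ κ + 1) :
    ∃ C : CylSeq Fr, (∀ j : ℕ, j < n → C.Low j) ∧ ((n : ℕ∞) ≤ κ → C.MidWith n (C.oD n)) ∧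
      (∀ j : ℕ, n < j → (j : ℕ∞) ≤ κ → C.TR j → C.Mid j) ∧
      (∀ j : ℕ, κ < (j : ℕ∞) → C.High j) := by
  have spec : ∀ j, _ := fun j => (exists_ext n κ j (base Fr n κ j)).choose_spec
  refine ⟨seq Fr n κ, ?_, ?_, ?_, ?_⟩
  · intro j hj
    obtain ⟨hk, hiso⟩ := low_aux (Fr := Fr) n κ j hj.le
    have hlow : (fil Fr n κ j).IsLow := (spec j).1 hj hk
    refine ⟨?_, hlow.2⟩
    have hq := hlow.1
    have : IsIso (base Fr n κ j).oD := (base Fr n κ j).sqO.flip.isIso_inl_of_isIso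
    change IsIso (fil Fr n κ j).i₀
    unfold Ext.i₀
    infer_instance
  · intro hnκ
    obtain ⟨hk, -⟩ := low_aux (Fr := Fr) n κ n le_rfl
    exact (spec n).2.1 rfl hnκ hk
  · intro j hj hκ hT
    exact (spec j).2.2.1 hj hκ hT
  · intro j hj
    have hnj : n ≤ j := by
      have h1 : κ + 1 ≤ (j : ℕ∞) := Order.add_one_le_of_lt hj
      exact_mod_cast hn.trans h1
    exact (spec j).2.2.2 hnj hj

/-- Existence of `n`-cylinders truncated above `κ`, given the existence of transports. -/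
theorem exists_isCyl_of_TR (Fr : Shape ⥤ M) (n : ℕ) (κ : ℕ∞) (hn : (n : ℕ∞) ≤ κ + 1)
    (H : ∀ (C : CylSeq Fr) (j : ℕ), n < j → (j : ℕ∞) ≤ κ →
      (∀ i : ℕ, i < n → C.Low i) → C.MidWith n (C.oD n) →
      (∀ i : ℕ, n < i → i < j → C.Mid i) → C.TR j) :
    ∃ C : CylSeq Fr, C.IsCyl n κ := by
  obtain ⟨C, low, bot, mid, high⟩ := exists_cylSeq Fr n κ hn
  refine ⟨C, hn, low, bot, ?_, high⟩
  intro j
  induction j using Nat.strong_induction_on with
  | _ j ih =>
    intro hj hκ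
    have hnκ : (n : ℕ∞) ≤ κ := le_trans (by exact_mod_cast hj.le) hκ
    exact mid j hj hκ (H C j hj hκ low (bot hnκ) (fun i hi hij =>
      ih i hij hi (le_trans (by exact_mod_cast hij.le) hκ)))

end Crest.Agent.R248
end

-- ▼ part R248/CylContr
section

/-! CylContr (helper598): contractibility of open boxes, existence of transports. -/

set_option autoImplicit false

namespace Crest.Agent.R248

open CategoryTheory CategoryTheory.Limits Opposite
open Crest.GeometryTopology.Coherator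

universe v w

variable {M : Type w} [Category.{v} M] [HasPushouts M] [HasInitial M] {Fr : Shape ⥤ M}

theorem columnProp (S : Setting Fr) : ColumnProp Fr := by
  intro W n c
  obtain ⟨W', u, ι, w, h1, h2, h3⟩ := exists_column S W c
  exact ⟨W', u, ι, Fr.map w, h1, h2, h3⟩

theorem Wh.contr (S : Setting Fr) {k n : ℕ} (hn : n + 1 ≤ k) (hPO : ∀ m, n < m → PO Fr k m)
    {W : Shape} (hW : W.dim ≤ k + 1) {Z : M} {r : Fr.obj W ⟶ Z}
    (hr : Wh Fr k n W (𝟙 _) r) : Contr Fr k Z := by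
  obtain ⟨N, hr⟩ := hr
  exact Whisk.contr S (columnProp S) hn (fun m hm _ => hPO m hm) N W hW (𝟙 _) r
    (Good.of_isIso _) hr

namespace CylSeq

variable (C : CylSeq Fr)

theorem contr_O (S : Setting Fr) {n : ℕ} (low : ∀ j, j < n → C.Low j) (bot : C.MidWith n (C.oD n))
    {k i : ℕ} (hi : n < i) (hik : i ≤ k + 1) (hnk : n + 1 ≤ k) (mid : ∀ j, n < j → j < i → C.Mid j)
    (hPO : ∀ m, n < m → PO Fr k m) : Contr Fr k (C.O i) := by
  obtain ⟨m, rfl⟩ : ∃ m, i = m + 1 := ⟨i - 1, by omega⟩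
  exact Wh.contr S hnk hPO (W := Shape.globe (m + 1)) (by rw [dim_globe]; exact hik)
    (C.wh_oD (m := m) S low bot (fun j hj hjm => mid j hj (by omega)) hPO hik le_rfl)

/-- a transport from a joining cell -/
theorem tr_of_step {i : ℕ}
    (h : Step Fr (C.i₁ i ≫ C.inl i ≫ C.oB (i + 1)) (C.i₁ i ≫ C.inr i ≫ C.oB (i + 1))) :
    C.TR (i + 1) := by
  obtain ⟨w, h1, h2⟩ := h
  refine ⟨w, ?_⟩
  apply (bd_sq Fr i).hom_ext
  · rw [← Category.assoc, bdInl_bdι, h1, ← Category.assoc (bdInl Fr i), C.inl_k₁, Category.assoc]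
  · rw [← Category.assoc, bdInr_bdι, h2, ← Category.assoc (bdInr Fr i), C.inr_k₁, Category.assoc]

theorem i₀_inl_oB (i : ℕ) : C.i₀ i ≫ C.inl i ≫ C.oB (i + 1) = sg Fr i ≫ C.oD (i + 1) := by
  rw [← Category.assoc, ← C.inl_k₀, Category.assoc, (C.sqO (i + 1)).w, ← Category.assoc, bdInl_bdι]

theorem i₀_inr_oB (i : ℕ) : C.i₀ i ≫ C.inr i ≫ C.oB (i + 1) = tg Fr i ≫ C.oD (i + 1) := by
  rw [← Category.assoc, ← C.inr_k₀, Category.assoc, (C.sqO (i + 1)).w, ← Category.assoc, bdInr_bdι]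

/-- the transport in dimension `n+1` -/
theorem tr_succ (S : Setting Fr) {n : ℕ} (bot : C.MidWith n (C.oD n)) : C.TR (n + 1) := by
  apply C.tr_of_step
  obtain ⟨-, θ, sq, hθ⟩ := bot
  have h0 : Step Fr (C.i₀ n) (C.i₁ n) := ⟨θ, by rw [← sq.w, C.oD_q], hθ⟩
  have h1 := h0.comp (C.inl n ≫ C.oB (n + 1))
  have h2 := h0.comp (C.inr n ≫ C.oB (n + 1))
  rw [C.i₀_inl_oB] at h1
  rw [C.i₀_inr_oB] at h2
  exact ((h1.symm S).trans S ⟨C.oD (n + 1), rfl, rfl⟩).trans S h2

theorem tr_of (S : Setting Fr) {n : ℕ} (low : ∀ j, j < n → C.Low j) (bot : C.MidWith n (C.oD n))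
    {j : ℕ} (hj : n < j) (mid : ∀ i, n < i → i < j → C.Mid i)
    (hPO : ∀ m, n < m → PO Fr (j - 1) m) : C.TR j := by
  obtain ⟨i, rfl⟩ : ∃ i, j = i + 1 := ⟨j - 1, by omega⟩
  rcases Nat.lt_succ_iff_lt_or_eq.mp hj with h | rfl
  · have hc : Contr Fr i (C.O (i + 1)) :=
      C.contr_O S low bot hj le_rfl h mid (by simpa using hPO)
    apply C.tr_of_step
    apply hc
    have e : C.δ i ≫ C.inl i ≫ C.oB (i + 1) = C.δ i ≫ C.inr i ≫ C.oB (i + 1) := by
      rw [← Category.assoc, (C.sq i).w, Category.assoc]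
    rw [← Category.assoc, ← C.k₁_δ, ← Category.assoc (bdι Fr i), ← C.k₁_δ, Category.assoc,
      Category.assoc, e]
  · exact C.tr_succ S bot

end CylSeq

theorem exists_isCyl (S : Setting Fr) (n : ℕ) (κ : ℕ∞) (hn : (n : ℕ∞) ≤ κ + 1)
    (hPO : ∀ k m : ℕ, n ≤ k → (k : ℕ∞) ≤ κ → n < m → PO Fr k m) :
    ∃ C : CylSeq Fr, C.IsCyl n κ := by
  refine exists_isCyl_of_TR Fr n κ hn fun C j hj hjκ low bot mid => ?_
  refine C.tr_of S low bot hj mid fun m hm => hPO (j - 1) m (by omega) ?_ hm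
  exact le_trans (by exact_mod_cast Nat.sub_le j 1) hjκ

end Crest.Agent.R248
end

-- ▼ part R248/NatExt
section

/-! TASK NatExt: a family of maps on globes compatible with faces extends to a natural transformation
out of a sum-preserving functor; two natural transformations out of it agreeing on globes are equal. -/

set_option autoImplicit false

namespace Crest.Agent.R248

open CategoryTheory CategoryTheory.Limits Opposite
open Crest.GeometryTopology.Coherator

universe v w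

variable {M : Type w} [Category.{v} M]

/-- induction on shapes -/
theorem shape_induction {motive : Shape → Prop} (hglobe : ∀ n, motive (Shape.globe n))
    (hglue : ∀ (S : Shape) (b h : ℕ) (hb : b < S.last) (hh : b < h), motive S →
      motive (S.glue b h hb hh)) (S : Shape) : motive S := by
  obtain ⟨n, P⟩ := S
  induction P with
  | single h => exact hglobe h
  | glue P b h hb hh ih => exact hglue ⟨_, P⟩ b h hb hh ih

/-- (suggested first step) every map from a globe to a glued shape factors through one of the two pieces -/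
theorem globe_to_glue (S : Shape) (b h : ℕ) (hb : b < S.last) (hh : b < h) (j : ℕ)
    (x : Shape.globe j ⟶ S.glue b h hb hh) :
    (∃ y : Shape.globe j ⟶ S, y ≫ S.inLeft b h hb hh = x) ∨
      (∃ y : Shape.globe j ⟶ Shape.globe h, y ≫ S.inRight b h hb hh = x) := by
  let f := GlobPsh.globeRepFace hb true ≫ S.apex
  let g := GlobPsh.globeRepFace hh false
  let x' : GlobPsh.globeRep j ⟶ pushout f g := x
  let D : WalkingSpan ⥤ GlobPsh.{0} := span f g
  let xe : (colimit D).obj (op (GlobeObj.mk j)) := x'.app _ (𝟙 _)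
  obtain ⟨k, y, hy⟩ := FunctorToTypes.jointly_surjective' (F := D) (op (GlobeObj.mk j)) xe
  have key : ∀ {P : GlobPsh.{0}} (q : P ⟶ pushout f g)
      (z : P.obj (op (GlobeObj.mk j))), xe = q.app _ z → yonedaEquiv.symm z ≫ q = x' := by
    intro P q z hz
    apply yonedaEquiv.injective
    rw [yonedaEquiv_comp, Equiv.apply_symm_apply]
    exact hz.symm
  have hL : ∀ z : S.psh.obj (op (GlobeObj.mk j)), xe = (pushout.inl f g).app _ z →
      (∃ y : Shape.globe j ⟶ S, y ≫ S.inLeft b h hb hh = x) := by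
    intro z hz
    exact ⟨(yonedaEquiv.symm z : GlobPsh.globeRep j ⟶ S.psh), key _ z hz⟩
  rcases k with _ | _ | _
  · left
    refine hL (f.app _ y) ?_
    rw [hy]
    have := colimit.w D WalkingSpan.Hom.fst
    exact (types_congr_hom (NatTrans.congr_app this (op (GlobeObj.mk j))) y).symm
  · left
    exact hL y hy
  · right
    exact ⟨(yonedaEquiv.symm y : GlobPsh.globeRep j ⟶ GlobPsh.globeRep h), key _ y hy⟩

theorem glue_condition (S : Shape) (b h : ℕ) (hb : b < S.last) (hh : b < h) :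
    S.hinge hb ≫ S.inLeft b h hb hh = Shape.faceMap hh false ≫ S.inRight b h hb hh := by
  exact pushout.condition (f := GlobPsh.globeRepFace hb true ≫ S.apex)
    (g := GlobPsh.globeRepFace hh false)

theorem globe_hom_cases {m n : ℕ} (x : Shape.globe m ⟶ Shape.globe n) :
    (∃ h : m = n, x = eqToHom (by rw [h])) ∨ ∃ (h : m < n) (b : Bool), x = Shape.faceMap h b := by
  let x' : yoneda.obj (GlobeObj.mk m) ⟶ yoneda.obj (GlobeObj.mk n) := x
  obtain ⟨a, ha⟩ := yoneda.map_surjective x'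
  let a' : GlobeObj.Arrow m n := a
  have ha' : yoneda.map (X := GlobeObj.mk m) (Y := GlobeObj.mk n) a' = x' := ha
  clear_value a'
  rcases a' with _ | ⟨lt, b⟩
  · left
    refine ⟨rfl, ?_⟩
    change x' = _
    rw [← ha']
    exact yoneda.map_id (GlobeObj.mk m)
  · right
    exact ⟨lt, b, ha'.symm⟩

section

variable {G G' : Shape ⥤ M} (α : ∀ j, glob G j ⟶ glob G' j)
    (hs : ∀ j, sg G j ≫ α (j + 1) = α j ≫ sg G' j)
    (ht : ∀ j, tg G j ≫ α (j + 1) = α j ≫ tg G' j)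

include hs ht in
theorem faceMap_nat {m n : ℕ} (h : m < n) (b : Bool) :
    G.map (Shape.faceMap h b) ≫ α n = α m ≫ G'.map (Shape.faceMap h b) := by
  induction n with
  | zero => omega
  | succ n ih =>
    rcases Nat.lt_succ_iff_lt_or_eq.1 h with h' | rfl
    · have hc : Shape.faceMap h b = Shape.faceMap h' b ≫ Shape.σ n :=
        (faceMap_comp h' (Nat.lt_succ_self n) b false).symm
      rw [hc, G.map_comp, G'.map_comp, Category.assoc]
      have := hs n
      unfold sg at this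
      rw [this, ← Category.assoc, ih h', Category.assoc]
    · cases b
      · exact hs m
      · exact ht m

include hs ht in
theorem globe_nat {m n : ℕ} (x : Shape.globe m ⟶ Shape.globe n) :
    G.map x ≫ α n = α m ≫ G'.map x := by
  rcases globe_hom_cases x with ⟨h, hx⟩ | ⟨h, b, rfl⟩
  · subst h
    have : x = 𝟙 _ := hx
    subst this
    rw [G.map_id, G'.map_id]
    simp
  · exact faceMap_nat α hs ht h b

/-- two maps out of `G.obj S` agreeing on all globes of `S` are equal -/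
theorem Sums.hom_ext (hG : Sums G) {S : Shape} {Z : M} {u v : G.obj S ⟶ Z}
    (H : ∀ j (x : Shape.globe j ⟶ S), G.map x ≫ u = G.map x ≫ v) : u = v := by
  induction S using shape_induction with
  | hglobe h =>
    have := H h (𝟙 _)
    rw [G.map_id] at this
    simpa using this
  | hglue S b h hb hh ih =>
    refine (hG S b h hb hh).hom_ext (ih ?_) ?_
    · intro j x
      rw [← Category.assoc, ← Category.assoc, ← G.map_comp]
      exact H j _
    · exact H h _

include hs ht in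
theorem exists_natTrans_aux (hG : Sums G) (S : Shape) :
    ∃ β : G.obj S ⟶ G'.obj S, ∀ j (x : Shape.globe j ⟶ S), G.map x ≫ β = α j ≫ G'.map x := by
  induction S using shape_induction with
  | hglobe h =>
    exact ⟨α h, fun j x => globe_nat α hs ht x⟩
  | hglue S b h hb hh ih =>
    obtain ⟨β, hβ⟩ := ih
    have sq := hG S b h hb hh
    have hc : G.map (S.hinge hb) ≫ β ≫ G'.map (S.inLeft b h hb hh) =
        G.map (Shape.faceMap hh false) ≫ α h ≫ G'.map (S.inRight b h hb hh) := by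
      have h1 := hβ b (S.hinge hb)
      have h2 := globe_nat α hs ht (Shape.faceMap hh false)
      rw [← Category.assoc, h1, ← Category.assoc, h2, Category.assoc, Category.assoc,
        ← G'.map_comp, ← G'.map_comp, glue_condition]
    refine ⟨sq.desc _ _ hc, ?_⟩
    intro j x
    rcases globe_to_glue S b h hb hh j x with ⟨y, rfl⟩ | ⟨y, rfl⟩
    · rw [G.map_comp, G'.map_comp, Category.assoc, sq.inl_desc, ← Category.assoc, hβ,
        Category.assoc]
    · rw [G.map_comp, G'.map_comp, Category.assoc, sq.inr_desc, ← Category.assoc,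
        globe_nat α hs ht, Category.assoc]

end

theorem exists_natTrans {G G' : Shape ⥤ M} (hG : Sums G) (α : ∀ j, glob G j ⟶ glob G' j)
    (hs : ∀ j, sg G j ≫ α (j + 1) = α j ≫ sg G' j)
    (ht : ∀ j, tg G j ≫ α (j + 1) = α j ≫ tg G' j) :
    ∃ β : G ⟶ G', ∀ j, β.app (Shape.globe j) = α j := by
  choose β hβ using exists_natTrans_aux α hs ht hG
  refine ⟨{ app := β, naturality := ?_ }, ?_⟩
  · intro S T f
    apply hG.hom_ext
    intro j x
    rw [← Category.assoc, ← G.map_comp, hβ, ← Category.assoc, hβ, Category.assoc, G'.map_comp]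
  · intro j
    have := hβ (Shape.globe j) j (𝟙 _)
    rw [G.map_id, G'.map_id] at this
    simpa using this


end Crest.Agent.R248
end

-- ▼ part R248/Past
section

/-! Past (helper598): contractibility of cylinders of globular sums (pasting induction). -/

set_option autoImplicit false

namespace Crest.Agent.R248

open CategoryTheory CategoryTheory.Limits Opposite
open Crest.GeometryTopology.Coherator

universe v w

variable {M : Type w} [Category.{v} M] [HasPushouts M] [HasInitial M] {Fr : Shape ⥤ M}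

section

variable (S : Setting Fr) (C : CylSeq Fr) {n k : ℕ}
  (low : ∀ j, j < n → C.Low j) (bot : C.MidWith n (C.oD n))
  (mid : ∀ j, n < j → j ≤ k → C.Mid j) (hPO : ∀ m, n < m → PO Fr k m)
  (G : Shape ⥤ M) (hG : Sums G) (φ : ∀ j, glob G j ≅ C.A j)
  (hs : ∀ j, sg G j ≫ (φ (j + 1)).hom = (φ j).hom ≫ C.s j)
  (ι₀ : Fr ⟶ G) (h₀ : ∀ j, ι₀.app (Shape.globe j) ≫ (φ j).hom = C.i₀ j)

include S low bot mid hPO hs h₀

theorem whG_step {h : ℕ} (hh : h + 1 ≤ k) {P : M} {x : glob G h ⟶ P} {y : glob Fr (h + 1) ⟶ P}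
    (sqP : IsPushout (ι₀.app (Shape.globe h)) (sg Fr h) x y) :
    ∃ ρ : P ⟶ glob G (h + 1), y ≫ ρ = ι₀.app (Shape.globe (h + 1)) ∧ x ≫ ρ = sg G h ∧
      Wh Fr k n (Shape.globe (h + 1)) y ρ := by
  have sq1 : IsPushout (φ h).hom x ((φ h).inv ≫ x) (𝟙 P) :=
    IsPushout.of_horiz_isIso ⟨by rw [Iso.hom_inv_id_assoc, Category.comp_id]⟩
  have sq2 := sqP.paste_horiz sq1
  rw [h₀, Category.comp_id] at sq2
  obtain ⟨ρ, hy, hx, hρ⟩ := C.wh_step (m := k) S low bot mid hPO hh hh sq2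
  refine ⟨ρ ≫ (φ (h + 1)).inv, ?_, ?_, hρ.comp (Wh.iso _ _)⟩
  · rw [← Category.assoc, hy, ← h₀, Category.assoc, Iso.hom_inv_id, Category.comp_id]
  · rw [Category.assoc] at hx
    have : x ≫ ρ = (φ h).hom ≫ C.s h := by rw [← hx, Iso.hom_inv_id_assoc]
    rw [← Category.assoc, this, ← hs, Category.assoc, Iso.hom_inv_id, Category.comp_id]

theorem whG_rel {b h : ℕ} (hb : b < h) (hh : h ≤ k) : ∀ {R : M} (x : glob G b ⟶ R)
    (y : glob Fr h ⟶ R)
    (_ : IsPushout (ι₀.app (Shape.globe b)) (Fr.map (Shape.faceMap hb false)) x y),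
    ∃ ρ : R ⟶ glob G h, y ≫ ρ = ι₀.app (Shape.globe h) ∧
      x ≫ ρ = G.map (Shape.faceMap hb false) ∧ Wh Fr k n (Shape.globe h) y ρ := by
  induction h, hb using Nat.le_induction with
  | base =>
    intro R x y sqR
    exact whG_step S C low bot mid hPO G φ hs ι₀ h₀ hh sqR
  | succ h hb ih =>
    intro R x' y' sqR
    have eF : Fr.map (Shape.faceMap (Nat.lt_succ_of_lt hb) false) =
        Fr.map (Shape.faceMap hb false) ≫ sg Fr h := by
      unfold sg Shape.σ
      rw [← Fr.map_comp, faceMap_comp]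
    have eG : G.map (Shape.faceMap (Nat.lt_succ_of_lt hb) false) =
        G.map (Shape.faceMap hb false) ≫ sg G h := by
      unfold sg Shape.σ
      rw [← G.map_comp, faceMap_comp]
    have sqR1 : IsPushout (ι₀.app (Shape.globe b)) (Fr.map (Shape.faceMap hb false))
      (pushout.inl _ _) (pushout.inr _ _) := IsPushout.of_hasPushout _ _
    set x := pushout.inl (ι₀.app (Shape.globe b)) (Fr.map (Shape.faceMap hb false))
    set y := pushout.inr (ι₀.app (Shape.globe b)) (Fr.map (Shape.faceMap hb false))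
    obtain ⟨ρ, hy, hx, hρ⟩ := ih (by omega) x y sqR1
    have sqR' : IsPushout (ι₀.app (Shape.globe b)) (Fr.map (Shape.faceMap hb false) ≫ sg Fr h)
      x' y' := by rw [← eF]; exact sqR
    let r := sqR1.desc x' (sg Fr h ≫ y') (by rw [sqR'.w, Category.assoc])
    have hr1 : x ≫ r = x' := sqR1.inl_desc _ _ _
    have hr2 : y ≫ r = sg Fr h ≫ y' := sqR1.inr_desc _ _ _
    have sq3 : IsPushout y (sg Fr h) r y' := by
      refine IsPushout.of_top ?_ hr2 sqR1
      rw [hr1]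
      exact sqR'
    have sqP : IsPushout (ι₀.app (Shape.globe h)) (sg Fr h) (pushout.inl _ _) (pushout.inr _ _) :=
      IsPushout.of_hasPushout _ _
    set xP := pushout.inl (ι₀.app (Shape.globe h)) (sg Fr h)
    set yP := pushout.inr (ι₀.app (Shape.globe h)) (sg Fr h)
    let r2 := sq3.desc (ρ ≫ xP) yP (by rw [← Category.assoc, hy, sqP.w])
    have hr3 : r ≫ r2 = ρ ≫ xP := sq3.inl_desc _ _ _
    have hr4 : y' ≫ r2 = yP := sq3.inr_desc _ _ _
    have sq4 : IsPushout ρ r xP r2 := by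
      refine IsPushout.of_left ?_ hr3.symm sq3
      rw [hy, hr4]
      exact sqP
    obtain ⟨ρ', hy', hx', hρ'⟩ := whG_step S C low bot mid hPO G φ hs ι₀ h₀ hh sqP
    have h1 := hρ.cobase sq4.flip
    have h2 := h1.reshape (Shape.σ h) y' hr2.symm
    refine ⟨r2 ≫ ρ', ?_, ?_, h2.comp ?_⟩
    · rw [← Category.assoc, hr4, hy']
    · rw [← hr1, Category.assoc, ← Category.assoc r, hr3, Category.assoc, hx', ← Category.assoc, hx]
      exact eG.symm
    · rw [hr4]; exact hρ'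

include hG

theorem whG (P : Shape) (hP : P.dim ≤ k) : Wh Fr k n P (𝟙 _) (ι₀.app P) := by
  induction P using shape_induction with
  | hglobe h =>
    have e : ι₀.app (Shape.globe h) = C.i₀ h ≫ (φ h).inv := by
      rw [← h₀, Category.assoc, Iso.hom_inv_id, Category.comp_id]
    rw [e]
    have hi : IsIso (φ h).inv := Iso.isIso_inv (φ h)
    exact (C.wh_i₀ (m := k) S low bot mid hPO hP hP).comp
      (Wh.good _ (@Good.of_isIso _ _ _ _ _ _ _ _ (φ h).inv hi))
  | hglue P b h hb hh ih =>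
    have hdim : max P.dim h ≤ k := hP
    have ih' := ih (by omega)
    have sqF := S.sums P b h hb hh
    have sqG := hG P b h hb hh
    have sqQ : IsPushout (ι₀.app P) (Fr.map (P.inLeft b h hb hh)) (pushout.inl _ _)
      (pushout.inr _ _) := IsPushout.of_hasPushout _ _
    set qL := pushout.inl (ι₀.app P) (Fr.map (P.inLeft b h hb hh))
    set qR := pushout.inr (ι₀.app P) (Fr.map (P.inLeft b h hb hh))
    have sqR : IsPushout (ι₀.app (Shape.globe b)) (Fr.map (Shape.faceMap hh false))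
      (pushout.inl _ _) (pushout.inr _ _) := IsPushout.of_hasPushout _ _
    set x := pushout.inl (ι₀.app (Shape.globe b)) (Fr.map (Shape.faceMap hh false))
    set y := pushout.inr (ι₀.app (Shape.globe b)) (Fr.map (Shape.faceMap hh false))
    obtain ⟨ρ, hy, hx, hρ⟩ := whG_rel S C low bot mid hPO G φ hs ι₀ h₀ hh (by omega) x y sqR
    -- `F(glue) ⟶ Q`
    have h1 : Wh Fr k n (P.glue b h hb hh) (𝟙 _) qR :=
      (ih'.cobase sqQ.flip).reshape (P.inLeft b h hb hh) (𝟙 _)
        (by rw [Category.comp_id, Category.id_comp])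
    have hnat : Fr.map (P.hinge hb) ≫ ι₀.app P = ι₀.app (Shape.globe b) ≫ G.map (P.hinge hb) :=
      ι₀.naturality _
    have hnatL : Fr.map (P.inLeft b h hb hh) ≫ ι₀.app (P.glue b h hb hh) =
      ι₀.app P ≫ G.map (P.inLeft b h hb hh) := ι₀.naturality _
    have hnatR : Fr.map (P.inRight b h hb hh) ≫ ι₀.app (P.glue b h hb hh) =
      ι₀.app (Shape.globe h) ≫ G.map (P.inRight b h hb hh) := ι₀.naturality _
    have sq1 : IsPushout (Fr.map (P.hinge hb) ≫ ι₀.app P) (Fr.map (Shape.faceMap hh false)) qL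
        (Fr.map (P.inRight b h hb hh) ≫ qR) := sqF.flip.paste_vert sqQ.flip |>.flip
    rw [hnat] at sq1
    let z := sqR.desc (G.map (P.hinge hb) ≫ qL) (Fr.map (P.inRight b h hb hh) ≫ qR)
      (by rw [← Category.assoc]; exact sq1.w)
    have hz1 : x ≫ z = G.map (P.hinge hb) ≫ qL := sqR.inl_desc _ _ _
    have hz2 : y ≫ z = Fr.map (P.inRight b h hb hh) ≫ qR := sqR.inr_desc _ _ _
    have sq2 : IsPushout (G.map (P.hinge hb)) x qL z := by
      refine IsPushout.of_left ?_ hz1.symm sqR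
      rw [hz2]
      exact sq1
    let ζ := sqQ.desc (G.map (P.inLeft b h hb hh)) (ι₀.app (P.glue b h hb hh)) hnatL.symm
    have hζ1 : qL ≫ ζ = G.map (P.inLeft b h hb hh) := sqQ.inl_desc _ _ _
    have hζ2 : qR ≫ ζ = ι₀.app (P.glue b h hb hh) := sqQ.inr_desc _ _ _
    have hw : z ≫ ζ = ρ ≫ G.map (P.inRight b h hb hh) := by
      apply sqR.hom_ext
      · rw [← Category.assoc, hz1, Category.assoc, hζ1, ← Category.assoc x, hx, sqG.w]
      · rw [← Category.assoc, hz2, Category.assoc, hζ2, ← Category.assoc y, hy, hnatR]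
    have sq3 : IsPushout z ρ ζ (G.map (P.inRight b h hb hh)) := by
      refine IsPushout.of_top ?_ hw sq2
      rw [hζ1, hx]
      exact sqG
    have h2 := (hρ.cobase sq3).reshape (P.inRight b h hb hh) qR hz2.symm
    rw [← hζ2]
    refine h1.comp ?_
    rwa [Category.id_comp]

end

section

variable (S : Setting Fr) (C : CylSeq Fr) {n : ℕ}
  (low : ∀ j, j < n → C.Low j) (bot : C.MidWith n (C.oD n))
  (G : Shape ⥤ M) (hG : Sums G) (φ : ∀ j, glob G j ≅ C.A j)
  (ι₀ : Fr ⟶ G) (h₀ : ∀ j, ι₀.app (Shape.globe j) ≫ (φ j).hom = C.i₀ j)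

include low bot h₀

theorem plus_globe (h : ℕ) (hh : h ≤ n) : ∃ h' : ℕ, ∃ (hle : h ≤ h') (_ : h' ≤ n + 1)
    (e : glob G h ≅ glob Fr h'), ∀ (b : ℕ) (hb : b < h) (β : Bool),
      Fr.map (Shape.faceMap hb β) ≫ ι₀.app (Shape.globe h) ≫ e.hom =
        Fr.map (Shape.faceMap (hb.trans_le hle) β) := by
  rcases Nat.lt_or_eq_of_le hh with hlt | rfl
  · have h1 : IsIso (C.i₀ h) := (low h hlt).1
    let e : glob G h ≅ glob Fr h := φ h ≪≫ (asIso (C.i₀ h)).symm
    refine ⟨h, le_rfl, by omega, e, fun b hb β => ?_⟩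
    have he : ι₀.app (Shape.globe h) ≫ e.hom = 𝟙 _ := by
      show ι₀.app (Shape.globe h) ≫ (φ h).hom ≫ inv (C.i₀ h) = 𝟙 _
      rw [← Category.assoc, h₀, IsIso.hom_inv_id]
    rw [he, Category.comp_id]
  · obtain ⟨-, θ, sq, -⟩ := bot
    have h1 : IsIso (C.oD h) := C.isIso_oD h low
    have h2 : IsIso θ := sq.isIso_inr_of_isIso
    let e : glob G h ≅ glob Fr (h + 1) := φ h ≪≫ (asIso θ).symm
    refine ⟨h + 1, by omega, le_rfl, e, fun b hb β => ?_⟩
    have he : ι₀.app (Shape.globe h) ≫ e.hom = sg Fr h := by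
      show ι₀.app (Shape.globe h) ≫ (φ h).hom ≫ inv θ = _
      rw [← Category.assoc, h₀, IsIso.comp_inv_eq, ← C.oD_q, sq.w]
    rw [he]
    unfold sg Shape.σ
    rw [← Fr.map_comp, faceMap_comp]

include S hG

theorem plus_shape (P : Shape) (hP : P.dim ≤ n) : ∃ P' : Shape, ∃ (hle : P.last ≤ P'.last)
    (_ : P'.dim ≤ n + 1) (e : G.obj P ≅ Fr.obj P'), ∀ (b : ℕ) (hb : b < P.last),
      Fr.map (P.hinge hb) ≫ ι₀.app P ≫ e.hom = Fr.map (P'.hinge (hb.trans_le hle)) := by
  induction P using shape_induction with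
  | hglobe h =>
    obtain ⟨h', hle, hn, e, he⟩ := plus_globe C low bot G φ ι₀ h₀ h hP
    refine ⟨Shape.globe h', hle, hn, e, fun b hb => ?_⟩
    have h1 : (Shape.globe h).hinge (b := b) hb = Shape.faceMap (n := h) hb true := hinge_globe hb
    have h2 : (Shape.globe h').hinge (b := b) (hb.trans_le hle) =
      Shape.faceMap (n := h') (hb.trans_le hle) true := hinge_globe (hb.trans_le hle)
    rw [h1, h2]
    exact he b hb true
  | hglue P b h hb hh ih =>
    have hdim : max P.dim h ≤ n := hP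
    obtain ⟨P', hle, hd, eP, heP⟩ := ih (by omega)
    obtain ⟨h', hle', hn, e, he⟩ := plus_globe C low bot G φ ι₀ h₀ h (by omega)
    have h1 : IsIso (C.i₀ b) := (low b (by omega)).1
    let eb : glob G b ≅ glob Fr b := φ b ≪≫ (asIso (C.i₀ b)).symm
    have heb : ι₀.app (Shape.globe b) ≫ eb.hom = 𝟙 _ := by
      show ι₀.app (Shape.globe b) ≫ (φ b).hom ≫ inv (C.i₀ b) = 𝟙 _
      rw [← Category.assoc, h₀, IsIso.hom_inv_id]
    have hinv : eb.inv = ι₀.app (Shape.globe b) := by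
      rw [← cancel_mono eb.hom, Iso.inv_hom_id, heb]
    have hb' : b < P'.last := hb.trans_le hle
    have hh' : b < h' := hh.trans_le hle'
    have sqF := S.sums P' b h' hb' hh'
    have sqG := hG P b h hb hh
    have hnat : Fr.map (P.hinge hb) ≫ ι₀.app P = ι₀.app (Shape.globe b) ≫ G.map (P.hinge hb) :=
      ι₀.naturality _
    have hnatf : Fr.map (Shape.faceMap hh false) ≫ ι₀.app (Shape.globe h) =
      ι₀.app (Shape.globe b) ≫ G.map (Shape.faceMap hh false) := ι₀.naturality _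
    have hnatR : Fr.map (P.inRight b h hb hh) ≫ ι₀.app (P.glue b h hb hh) =
      ι₀.app (Shape.globe h) ≫ G.map (P.inRight b h hb hh) := ι₀.naturality _
    have c1 : G.map (P.hinge hb) ≫ eP.hom = eb.hom ≫ Fr.map (P'.hinge hb') := by
      rw [← heP b hb, ← Category.assoc (Fr.map _), hnat, ← hinv, Category.assoc,
        Iso.hom_inv_id_assoc]
    have c2 : G.map (Shape.faceMap hh false) ≫ e.hom =
        eb.hom ≫ Fr.map (Shape.faceMap hh' false) := by
      rw [← he b hh false, ← Category.assoc (Fr.map _), hnatf, ← hinv, Category.assoc,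
        Iso.hom_inv_id_assoc]
    have sqF' : IsPushout (G.map (P.hinge hb)) (G.map (Shape.faceMap hh false))
        (eP.hom ≫ Fr.map (P'.inLeft b h' hb' hh')) (e.hom ≫ Fr.map (P'.inRight b h' hb' hh')) :=
      sqF.of_iso eb.symm eP.symm e.symm (Iso.refl _)
        (by rw [Iso.symm_hom, Iso.symm_hom, Iso.comp_inv_eq, Category.assoc, c1,
          Iso.inv_hom_id_assoc])
        (by rw [Iso.symm_hom, Iso.symm_hom, Iso.comp_inv_eq, Category.assoc, c2,
          Iso.inv_hom_id_assoc])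
        (by rw [Iso.symm_hom, Iso.inv_hom_id_assoc, Iso.refl_hom, Category.comp_id])
        (by rw [Iso.symm_hom, Iso.inv_hom_id_assoc, Iso.refl_hom, Category.comp_id])
    let E : G.obj (P.glue b h hb hh) ≅ Fr.obj (P'.glue b h' hb' hh') :=
      sqG.isoIsPushout _ _ sqF'
    have hE : G.map (P.inRight b h hb hh) ≫ E.hom = e.hom ≫ Fr.map (P'.inRight b h' hb' hh') :=
      IsPushout.inr_isoIsPushout_hom _ _ sqG sqF'
    refine ⟨P'.glue b h' hb' hh', hle', ?_, E, fun b' hb'' => ?_⟩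
    · show max P'.dim h' ≤ n + 1
      omega
    · have k1 : (P.glue b h hb hh).hinge (b := b') hb'' =
        Shape.faceMap (n := h) hb'' true ≫ P.inRight b h hb hh := rfl
      have k2 : (P'.glue b h' hb' hh').hinge (b := b') (hb''.trans_le hle') =
        Shape.faceMap (n := h') (hb''.trans_le hle') true ≫ P'.inRight b h' hb' hh' := rfl
      rw [k1, k2, Fr.map_comp, Fr.map_comp, Category.assoc,
        ← Category.assoc (Fr.map (P.inRight b h hb hh)), hnatR, Category.assoc, hE,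
        ← he b' hb'' true, Category.assoc, Category.assoc]

end

theorem contr_cyl (S : Setting Fr) (C : CylSeq Fr) {n : ℕ} {κ : ℕ∞} (hC : C.IsCyl n κ)
    (G : Shape ⥤ M) (hG : Sums G) (φ : ∀ j, glob G j ≅ C.A j)
    (hs : ∀ j, sg G j ≫ (φ (j + 1)).hom = (φ j).hom ≫ C.s j)
    (ht : ∀ j, tg G j ≫ (φ (j + 1)).hom = (φ j).hom ≫ C.t j)
    {k : ℕ} (hnk : n ≤ k) (hk : (k : ℕ∞) ≤ κ) (hPO : ∀ m, n < m → PO Fr k m)
    (P : Shape) (hP : P.dim ≤ k) : Contr Fr k (G.obj P) := by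
  obtain ⟨ι₀, h₀⟩ : ∃ ι₀ : Fr ⟶ G, ∀ j, ι₀.app (Shape.globe j) = C.i₀ j ≫ (φ j).inv := by
    apply exists_natTrans S.sums
    · intro j
      rw [← Category.assoc, C.sg_i₀, Category.assoc, Category.assoc]
      congr 1
      rw [Iso.eq_inv_comp, ← Category.assoc, ← hs, Category.assoc, Iso.hom_inv_id,
        Category.comp_id]
    · intro j
      rw [← Category.assoc, C.tg_i₀, Category.assoc, Category.assoc]
      congr 1
      rw [Iso.eq_inv_comp, ← Category.assoc, ← ht, Category.assoc, Iso.hom_inv_id,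
        Category.comp_id]
  have h₀' : ∀ j, ι₀.app (Shape.globe j) ≫ (φ j).hom = C.i₀ j := by
    intro j
    rw [h₀, Category.assoc, Iso.inv_hom_id, Category.comp_id]
  have hnκ : (n : ℕ∞) ≤ κ := le_trans (by exact_mod_cast hnk) hk
  rcases Nat.lt_or_eq_of_le hnk with h | rfl
  · refine Wh.contr S h hPO (W := P) (by omega)
      (whG S C hC.low (hC.bot hnκ) (fun j hj hjk => hC.mid j hj ?_) hPO G hG φ hs ι₀ h₀' P hP)
    exact le_trans (by exact_mod_cast hjk) hk
  · obtain ⟨P', -, hd, e, -⟩ :=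
      plus_shape S C hC.low (hC.bot hnκ) G hG φ ι₀ h₀' P hP
    exact Contr.of_iso e (S.fill n P' hd)

end Crest.Agent.R248
end

-- ▼ part R248/Ext
section

/-! TASK Ext: every coglobular object extends to a sum-preserving functor on shapes.
Route: turn `(A, s, t)` into a functor `GlobeObj ⥤ M`; take the left Kan extension along (ulift) Yoneda
(`Presheaf.uliftYonedaAdjunction`, precomposed with whiskering by `uliftFunctor` to fix universes);
restrict to shapes; it preserves the pushout squares defining `Pasting.build`. -/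

set_option autoImplicit false

namespace Crest.Agent.R248

open CategoryTheory CategoryTheory.Limits Opposite
open Crest.GeometryTopology.Coherator

universe v w

variable {M : Type w} [Category.{v} M]

section Coglob

variable (A : ℕ → M) (s t : ∀ j, A j ⟶ A (j + 1))

/-- iterated faces of a coglobular object -/
def itFace (b : Bool) (m : ℕ) : (n : ℕ) → m < n → (A m ⟶ A n)
  | 0, h => absurd h (Nat.not_lt_zero m)
  | k + 1, h =>
    if e : m = k then
      (eqToHom (by rw [e]) : A m ⟶ A k) ≫ (if b then t k else s k)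
    else
      itFace b m k (by omega) ≫ s k

theorem itFace_succ_self (b : Bool) (k : ℕ) :
    itFace A s t b k (k + 1) (Nat.lt_succ_self k) = if b then t k else s k := by
  rw [itFace, dif_pos rfl, eqToHom_refl, Category.id_comp]

theorem itFace_succ_of_lt (b : Bool) {m k : ℕ} (h : m < k) :
    itFace A s t b m (k + 1) (Nat.lt_succ_of_lt h) = itFace A s t b m k h ≫ s k := by
  rw [itFace, dif_neg (by omega)]

variable (hs : ∀ j, s j ≫ s (j + 1) = s j ≫ t (j + 1))
  (ht : ∀ j, t j ≫ s (j + 1) = t j ≫ t (j + 1))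

include hs ht

theorem itFace_comp_t (b : Bool) {m : ℕ} :
    ∀ {k : ℕ} (h : m < k), itFace A s t b m k h ≫ s k = itFace A s t b m k h ≫ t k
  | 0, h => absurd h (Nat.not_lt_zero m)
  | k + 1, h => by
    rcases Nat.lt_succ_iff_lt_or_eq.mp h with h' | rfl
    · rw [itFace_succ_of_lt A s t b h', Category.assoc, Category.assoc, hs]
    · rw [itFace_succ_self]
      cases b
      · exact hs m
      · exact ht m

theorem itFace_comp (b b' : Bool) {m n : ℕ} (h : m < n) :
    ∀ {k : ℕ} (h' : n < k),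
      itFace A s t b m n h ≫ itFace A s t b' n k h' = itFace A s t b m k (h.trans h')
  | 0, h' => absurd h' (Nat.not_lt_zero n)
  | k + 1, h' => by
    rcases Nat.lt_succ_iff_lt_or_eq.mp h' with h'' | rfl
    · rw [itFace_succ_of_lt A s t b' h'', ← Category.assoc, itFace_comp b b' h h'',
        ← itFace_succ_of_lt A s t b (h.trans h'')]
    · rw [itFace_succ_self, itFace_succ_of_lt A s t b h]
      cases b'
      · rfl
      · exact (itFace_comp_t A s t hs ht b h).symm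

omit hs ht in
/-- the action of an arrow of globes -/
def arrowMap : {m n : ℕ} → GlobeObj.Arrow m n → (A m ⟶ A n)
  | _, _, .refl _ => 𝟙 _
  | _, _, .pole h b => itFace A s t b _ _ h

/-- a coglobular object as a functor on `GlobeObj` -/
def cogl : GlobeObj ⥤ M where
  obj g := A g.dim
  map {a b} f := arrowMap A s t (m := a.dim) (n := b.dim) f
  map_id a := rfl
  map_comp {a b c} f g := by
    rcases a with ⟨a⟩
    rcases b with ⟨b⟩
    rcases c with ⟨c⟩
    change arrowMap A s t (GlobeObj.Arrow.seq f g) = arrowMap A s t f ≫ arrowMap A s t g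
    change GlobeObj.Arrow a b at f
    change GlobeObj.Arrow b c at g
    cases f with
    | refl => exact (Category.id_comp _).symm
    | pole h u =>
      cases g with
      | refl => exact (Category.comp_id _).symm
      | pole h' u' => exact (itFace_comp A s t hs ht u u' h h').symm

end Coglob

/-- the inclusion of shapes in presheaves on globes -/
noncomputable def shapePsh : Shape ⥤ GlobPsh.{0} where
  obj S := S.psh
  map f := f
  map_id _ := rfl
  map_comp _ _ := rfl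

theorem sums_shapePsh : Sums shapePsh := fun S b h hb hh =>
  IsPushout.of_hasPushout (GlobPsh.globeRepFace hb true ≫ S.apex) (GlobPsh.globeRepFace hh false)

theorem exists_ext [HasColimitsOfSize.{v, v} M] (A : ℕ → M) (s t : ∀ j, A j ⟶ A (j + 1))
    (hs : ∀ j, s j ≫ s (j + 1) = s j ≫ t (j + 1)) (ht : ∀ j, t j ≫ s (j + 1) = t j ≫ t (j + 1)) :
    ∃ (G : Shape ⥤ M) (φ : ∀ j, glob G j ≅ A j), Sums G ∧
      (∀ j, sg G j ≫ (φ (j + 1)).hom = (φ j).hom ≫ s j) ∧
      (∀ j, tg G j ≫ (φ (j + 1)).hom = (φ j).hom ≫ t j) := by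
  haveI : HasColimitsOfSize.{0, v} M := hasColimitsOfSizeShrink.{0, v, v, v} M
  let A' : GlobeObj ⥤ M := cogl A s t hs ht
  let U : GlobPsh.{0} ⥤ (GlobeObjᵒᵖ ⥤ Type v) :=
    (Functor.whiskeringRight _ _ _).obj uliftFunctor.{v}
  let L : (GlobeObjᵒᵖ ⥤ Type v) ⥤ M := uliftYoneda.{v}.leftKanExtension A'
  haveI : PreservesColimitsOfSize.{0, 0} L :=
    Presheaf.preservesColimitsOfSize_leftKanExtension.{0} A'
  let e : (yoneda ⋙ U) ⋙ L ≅ A' := Presheaf.isExtensionAlongULiftYoneda.{0} A'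
  refine ⟨shapePsh ⋙ U ⋙ L, fun j => e.app (GlobeObj.mk j), ?_, ?_, ?_⟩
  · intro S b h hb hh
    exact (sums_shapePsh S b h hb hh).map (U ⋙ L)
  · intro j
    have h1 := e.hom.naturality (GlobeObj.σ j)
    have h2 : A'.map (GlobeObj.σ j) = s j := itFace_succ_self A s t false j
    rw [h2] at h1
    exact h1
  · intro j
    have h1 := e.hom.naturality (GlobeObj.τ j)
    have h2 : A'.map (GlobeObj.τ j) = t j := itFace_succ_self A s t true j
    rw [h2] at h1
    exact h1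

end Crest.Agent.R248
private theorem rz_c9fa0343c8 : type_of% @_root_.Crest.Agent.R248.itFace.eq_def := @_root_.Crest.Agent.R248.itFace.eq_def -- L24
private theorem rz_6961ae174f : type_of% @_root_.Crest.Agent.R248.itFace.eq_1 := @_root_.Crest.Agent.R248.itFace.eq_1 -- L24
end

-- ▼ part R248/PathExists

/-! TASK PathExists: an `n`-cylinder carries a path functor.  Use `exists_ext` to get `G`, `exists_natTrans`
to get `ι₀ ι₁`, `contr_cyl` to prove `Lifts`, then `HasPaths`. -/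

set_option autoImplicit false

namespace Crest.Agent.R248

open CategoryTheory CategoryTheory.Limits Opposite
open Crest.GeometryTopology.Coherator

universe v w

section Aux

variable {M : Type w} [Category.{v} M] {Fr : Shape ⥤ M}

/-- two natural transformations agreeing on globes of dimension `≤ dim S` agree at `S` -/
theorem app_eq_of_dim_le {G : Shape ⥤ M} (hF : Sums Fr) (ι₀ ι₁ : Fr ⟶ G) (S : Shape)
    (H : ∀ j, j ≤ S.dim → ι₀.app (Shape.globe j) = ι₁.app (Shape.globe j)) :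
    ι₀.app S = ι₁.app S := by
  apply hF.hom_ext
  intro j x
  have hj : j ≤ S.dim := by
    by_contra hc
    exact (Segal.no_globe_above S j (by omega)).false x
  rw [ι₀.naturality, ι₁.naturality, H j hj]

variable [HasPushouts M] [HasInitial M]

namespace CylSeq

variable (C : CylSeq Fr)

theorem i₀_s (j : ℕ) : C.i₀ j ≫ C.s j = sg Fr j ≫ C.i₀ (j + 1) := by
  unfold s
  rw [← Category.assoc, ← C.inl_k₀ j, Category.assoc, C.k₀_δ, ← Category.assoc, bdInl_bdι]

theorem i₀_t (j : ℕ) : C.i₀ j ≫ C.t j = tg Fr j ≫ C.i₀ (j + 1) := by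
  unfold t
  rw [← Category.assoc, ← C.inr_k₀ j, Category.assoc, C.k₀_δ, ← Category.assoc, bdInr_bdι]

theorem i₁_s (j : ℕ) : C.i₁ j ≫ C.s j = sg Fr j ≫ C.i₁ (j + 1) := by
  unfold s
  rw [← Category.assoc, ← C.inl_k₁ j, Category.assoc, C.k₁_δ, ← Category.assoc, bdInl_bdι]

theorem i₁_t (j : ℕ) : C.i₁ j ≫ C.t j = tg Fr j ≫ C.i₁ (j + 1) := by
  unfold t
  rw [← Category.assoc, ← C.inr_k₁ j, Category.assoc, C.k₁_δ, ← Category.assoc, bdInr_bdι]

theorem δ_s (j : ℕ) : C.δ j ≫ C.s j = C.δ j ≫ C.t j := by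
  unfold s t
  rw [← Category.assoc, (C.sq j).w, Category.assoc]

theorem s_s (j : ℕ) : C.s j ≫ C.s (j + 1) = C.s j ≫ C.t (j + 1) := by
  have h : C.s j = C.inl j ≫ C.δ (j + 1) := rfl
  rw [h, Category.assoc, Category.assoc, C.δ_s]

theorem t_s (j : ℕ) : C.t j ≫ C.s (j + 1) = C.t j ≫ C.t (j + 1) := by
  have h : C.t j = C.inr j ≫ C.δ (j + 1) := rfl
  rw [h, Category.assoc, Category.assoc, C.δ_s]

end CylSeq

/-- the boundary of a globe of `G` is the boundary of the cylinder sequence -/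
theorem parallel_of_bdι (C : CylSeq Fr) (G : Shape ⥤ M) (φ : ∀ j, glob G j ≅ C.A j)
    (hs : ∀ j, sg G j ≫ (φ (j + 1)).hom = (φ j).hom ≫ C.s j)
    (ht : ∀ j, tg G j ≫ (φ (j + 1)).hom = (φ j).hom ≫ C.t j)
    (j : ℕ) {X : M} (Φ Ψ : glob G j ⟶ X) (h : bdι G j ≫ Φ = bdι G j ≫ Ψ) :
    C.δ j ≫ (φ j).inv ≫ Φ = C.δ j ≫ (φ j).inv ≫ Ψ := by
  cases j with
  | zero => exact C.init.hom_ext _ _
  | succ j =>
    have hs' : C.s j ≫ (φ (j + 1)).inv = (φ j).inv ≫ sg G j := by
      rw [Iso.eq_inv_comp, ← Category.assoc, ← hs, Category.assoc, Iso.hom_inv_id,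
        Category.comp_id]
    have ht' : C.t j ≫ (φ (j + 1)).inv = (φ j).inv ≫ tg G j := by
      rw [Iso.eq_inv_comp, ← Category.assoc, ← ht, Category.assoc, Iso.hom_inv_id,
        Category.comp_id]
    apply (C.sq j).hom_ext
    · have e : ∀ Ω : glob G (j + 1) ⟶ X, C.inl j ≫ C.δ (j + 1) ≫ (φ (j + 1)).inv ≫ Ω =
          (φ j).inv ≫ bdInl G j ≫ bdι G (j + 1) ≫ Ω := by
        intro Ω
        have := congrArg (· ≫ Ω) hs'
        simp only [CylSeq.s, Category.assoc] at this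
        rw [this, ← bdInl_bdι, Category.assoc]
      rw [e, e, h]
    · have e : ∀ Ω : glob G (j + 1) ⟶ X, C.inr j ≫ C.δ (j + 1) ≫ (φ (j + 1)).inv ≫ Ω =
          (φ j).inv ≫ bdInr G j ≫ bdι G (j + 1) ≫ Ω := by
        intro Ω
        have := congrArg (· ≫ Ω) ht'
        simp only [CylSeq.t, Category.assoc] at this
        rw [this, ← bdInr_bdι, Category.assoc]
      rw [e, e, h]

end Aux

variable {M : Type w} [Category.{v} M] [HasColimitsOfSize.{v, v} M] {Fr : Shape ⥤ M}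

theorem lifts_of_isCyl [HasPushouts M] [HasInitial M] (S : Setting Fr) (C : CylSeq Fr) {n : ℕ} {κ : ℕ∞}
    (hC : C.IsCyl n κ)
    (G : Shape ⥤ M) (hG : Sums G) (φ : ∀ j, glob G j ≅ C.A j)
    (hs : ∀ j, sg G j ≫ (φ (j + 1)).hom = (φ j).hom ≫ C.s j)
    (ht : ∀ j, tg G j ≫ (φ (j + 1)).hom = (φ j).hom ≫ C.t j)
    (ι₀ ι₁ : Fr ⟶ G) (h₀ : ∀ j, ι₀.app (Shape.globe j) ≫ (φ j).hom = C.i₀ j)
    (h₁ : ∀ j, ι₁.app (Shape.globe j) ≫ (φ j).hom = C.i₁ j)
    (hcontr : ∀ k : ℕ, n ≤ k → (k : ℕ∞) ≤ κ → ∀ P : Shape, P.dim ≤ k → Contr Fr k (G.obj P)) :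
    Lifts Fr G ι₀ ι₁ := by
  intro j P hP Φ Ψ f g hΦ₀ hΦ₁ hΨ₀ hΨ₁ hΦΨ hfg ρ hρf hρg
  -- transported data
  have h₀' : ∀ j, C.i₀ j ≫ (φ j).inv = ι₀.app (Shape.globe j) := by
    intro j; rw [← h₀, Category.assoc, Iso.hom_inv_id, Category.comp_id]
  have h₁' : ∀ j, C.i₁ j ≫ (φ j).inv = ι₁.app (Shape.globe j) := by
    intro j; rw [← h₁, Category.assoc, Iso.hom_inv_id, Category.comp_id]
  -- it suffices to build the map on `A (j+1)`
  suffices hA : ∃ R : C.A (j + 1) ⟶ G.obj P, C.s j ≫ R = (φ j).inv ≫ Φ ∧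
      C.t j ≫ R = (φ j).inv ≫ Ψ ∧ C.i₀ (j + 1) ≫ R = ρ ≫ ι₀.app P ∧
      C.i₁ (j + 1) ≫ R = ρ ≫ ι₁.app P by
    obtain ⟨R, hR1, hR2, hR3, hR4⟩ := hA
    refine ⟨(φ (j + 1)).hom ≫ R, ?_, ?_, ?_, ?_⟩
    · rw [← Category.assoc, hs, Category.assoc, hR1, Iso.hom_inv_id_assoc]
    · rw [← Category.assoc, ht, Category.assoc, hR2, Iso.hom_inv_id_assoc]
    · rw [← Category.assoc, h₀, hR3]
    · rw [← Category.assoc, h₁, hR4]
  -- the boundary
  have hδ : C.δ j ≫ (φ j).inv ≫ Φ = C.δ j ≫ (φ j).inv ≫ Ψ :=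
    parallel_of_bdι C G φ hs ht j Φ Ψ hΦΨ
  obtain ⟨x, hx1, hx2⟩ : ∃ x : C.B (j + 1) ⟶ G.obj P, C.inl j ≫ x = (φ j).inv ≫ Φ ∧
      C.inr j ≫ x = (φ j).inv ≫ Ψ :=
    ⟨(C.sq j).desc _ _ hδ, (C.sq j).inl_desc _ _ _, (C.sq j).inr_desc _ _ _⟩
  have hk₀ : C.k₀ (j + 1) ≫ x = bdι Fr (j + 1) ≫ ρ ≫ ι₀.app P := by
    apply (bd_sq Fr j).hom_ext
    · rw [← Category.assoc, C.inl_k₀, Category.assoc, hx1, ← Category.assoc, h₀', hΦ₀,
        ← Category.assoc, bdInl_bdι, ← Category.assoc, hρf]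
    · rw [← Category.assoc, C.inr_k₀, Category.assoc, hx2, ← Category.assoc, h₀', hΨ₀,
        ← Category.assoc, bdInr_bdι, ← Category.assoc, hρg]
  have hk₁ : C.k₁ (j + 1) ≫ x = bdι Fr (j + 1) ≫ ρ ≫ ι₁.app P := by
    apply (bd_sq Fr j).hom_ext
    · rw [← Category.assoc, C.inl_k₁, Category.assoc, hx1, ← Category.assoc, h₁', hΦ₁,
        ← Category.assoc, bdInl_bdι, ← Category.assoc, hρf]
    · rw [← Category.assoc, C.inr_k₁, Category.assoc, hx2, ← Category.assoc, h₁', hΨ₁,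
        ← Category.assoc, bdInr_bdι, ← Category.assoc, hρg]
  -- the open box
  obtain ⟨y, hy1, hy2⟩ : ∃ y : C.O (j + 1) ⟶ G.obj P, C.oB (j + 1) ≫ y = x ∧
      C.oD (j + 1) ≫ y = ρ ≫ ι₀.app P :=
    ⟨(C.sqO (j + 1)).desc _ _ hk₀, (C.sqO (j + 1)).inl_desc _ _ _, (C.sqO (j + 1)).inr_desc _ _ _⟩
  -- it suffices to extend along `q`
  suffices hq : ∃ R : C.A (j + 1) ⟶ G.obj P, C.q (j + 1) ≫ R = y ∧
      C.i₁ (j + 1) ≫ R = ρ ≫ ι₁.app P by
    obtain ⟨R, hR1, hR2⟩ := hq
    refine ⟨R, ?_, ?_, ?_, hR2⟩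
    · change (C.inl j ≫ C.δ (j + 1)) ≫ R = _
      rw [← C.oB_q, Category.assoc, Category.assoc, hR1, hy1, hx1]
    · change (C.inr j ≫ C.δ (j + 1)) ≫ R = _
      rw [← C.oB_q, Category.assoc, Category.assoc, hR1, hy1, hx2]
    · rw [← C.oD_q, Category.assoc, hR1, hy2]
  rcases lt_or_ge (j + 1) n with hjn | hjn
  · -- low dimensions
    have hlow := hC.low (j + 1) hjn
    have hlow' := hC.low j (by omega)
    have := hlow.1
    have := hlow'.1
    have hdim : ∀ i, i ≤ P.dim → ι₀.app (Shape.globe i) = ι₁.app (Shape.globe i) := by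
      intro i hi
      have : i < n := by omega
      rw [← h₀' i, ← h₁' i, (hC.low i this).2]
    have hιP : ι₀.app P = ι₁.app P := app_eq_of_dim_le S.sums ι₀ ι₁ P hdim
    refine ⟨inv (C.i₀ (j + 1)) ≫ ρ ≫ ι₀.app P, ?_, ?_⟩
    · -- compare on `O (j+1)`
      have hsinv : C.s j ≫ inv (C.i₀ (j + 1)) = inv (C.i₀ j) ≫ sg Fr j := by
        rw [IsIso.comp_inv_eq, Category.assoc, IsIso.eq_inv_comp, C.i₀_s]
      have htinv : C.t j ≫ inv (C.i₀ (j + 1)) = inv (C.i₀ j) ≫ tg Fr j := by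
        rw [IsIso.comp_inv_eq, Category.assoc, IsIso.eq_inv_comp, C.i₀_t]
      apply (C.sqO (j + 1)).hom_ext
      · rw [hy1]
        apply (C.sq j).hom_ext
        · rw [hx1, ← Category.assoc (C.oB _), C.oB_q]
          have : C.inl j ≫ C.δ (j + 1) ≫ inv (C.i₀ (j + 1)) ≫ ρ ≫ ι₀.app P =
              (C.s j ≫ inv (C.i₀ (j + 1))) ≫ ρ ≫ ι₀.app P := by
            simp only [CylSeq.s, Category.assoc]
          rw [this, hsinv, Category.assoc, ← Category.assoc (sg Fr j), hρf, ← hΦ₀, ← h₀' j,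
            Category.assoc, IsIso.inv_hom_id_assoc]
        · rw [hx2, ← Category.assoc (C.oB _), C.oB_q]
          have : C.inr j ≫ C.δ (j + 1) ≫ inv (C.i₀ (j + 1)) ≫ ρ ≫ ι₀.app P =
              (C.t j ≫ inv (C.i₀ (j + 1))) ≫ ρ ≫ ι₀.app P := by
            simp only [CylSeq.t, Category.assoc]
          rw [this, htinv, Category.assoc, ← Category.assoc (tg Fr j), hρg, ← hΨ₀, ← h₀' j,
            Category.assoc, IsIso.inv_hom_id_assoc]
      · rw [hy2, ← Category.assoc, C.oD_q, IsIso.hom_inv_id_assoc]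
    · rw [hlow.2, IsIso.hom_inv_id_assoc, hιP]
  · by_cases hjκ : ((j + 1 : ℕ) : ℕ∞) ≤ κ
    · -- middle dimensions
      obtain ⟨w, hw, θ, hsq, hθ⟩ : C.Mid (j + 1) := by
        rcases hjn.lt_or_eq with h | h
        · exact hC.mid (j + 1) h hjκ
        · exact ⟨C.oD (j + 1), by subst h; exact hC.bot hjκ⟩
      have hpar : bdι Fr (j + 1) ≫ (w ≫ y) = bdι Fr (j + 1) ≫ (ρ ≫ ι₁.app P) := by
        rw [← Category.assoc, hw, Category.assoc, hy1, hk₁]
      obtain ⟨W, hW1, hW2⟩ := hcontr (j + 1) hjn hjκ P hP _ _ hpar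
      refine ⟨hsq.desc y W hW1.symm, hsq.inl_desc _ _ _, ?_⟩
      rw [← hθ, Category.assoc, hsq.inr_desc, hW2]
    · -- high dimensions
      have hhigh := hC.high (j + 1) (not_le.mp hjκ)
      have hc : (C.k₁ (j + 1) ≫ C.oB (j + 1)) ≫ y = bdι Fr (j + 1) ≫ (ρ ≫ ι₁.app P) := by
        rw [Category.assoc, hy1, hk₁]
      have hsq : IsPushout (C.k₁ (j + 1) ≫ C.oB (j + 1)) (bdι Fr (j + 1)) (C.q (j + 1))
        (C.i₁ (j + 1)) := hhigh
      exact ⟨hsq.desc _ _ hc, hsq.inl_desc _ _ _, hsq.inr_desc _ _ _⟩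

theorem exists_pathOn [HasPushouts M] [HasInitial M] (S : Setting Fr) (hp : HasPaths Fr)
    (C : CylSeq Fr) {n : ℕ} {κ : ℕ∞} (hC : C.IsCyl n κ)
    (hPO : ∀ k m : ℕ, n ≤ k → (k : ℕ∞) ≤ κ → n < m → PO Fr k m) : Nonempty (PathOn C) := by
  obtain ⟨G, φ, hG, hs, ht⟩ := exists_ext C.A C.s C.t C.s_s C.t_s
  have hs' : ∀ j, C.s j ≫ (φ (j + 1)).inv = (φ j).inv ≫ sg G j := by
    intro j
    rw [Iso.eq_inv_comp, ← Category.assoc, ← hs, Category.assoc, Iso.hom_inv_id,
      Category.comp_id]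
  have ht' : ∀ j, C.t j ≫ (φ (j + 1)).inv = (φ j).inv ≫ tg G j := by
    intro j
    rw [Iso.eq_inv_comp, ← Category.assoc, ← ht, Category.assoc, Iso.hom_inv_id,
      Category.comp_id]
  obtain ⟨ι₀, hι₀⟩ := exists_natTrans S.sums (G' := G) (fun j => C.i₀ j ≫ (φ j).inv)
    (by intro j; rw [← Category.assoc, ← C.i₀_s, Category.assoc, Category.assoc, hs'])
    (by intro j; rw [← Category.assoc, ← C.i₀_t, Category.assoc, Category.assoc, ht'])
  obtain ⟨ι₁, hι₁⟩ := exists_natTrans S.sums (G' := G) (fun j => C.i₁ j ≫ (φ j).inv)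
    (by intro j; rw [← Category.assoc, ← C.i₁_s, Category.assoc, Category.assoc, hs'])
    (by intro j; rw [← Category.assoc, ← C.i₁_t, Category.assoc, Category.assoc, ht'])
  have h₀ : ∀ j, ι₀.app (Shape.globe j) ≫ (φ j).hom = C.i₀ j := by
    intro j; rw [hι₀, Category.assoc, Iso.inv_hom_id, Category.comp_id]
  have h₁ : ∀ j, ι₁.app (Shape.globe j) ≫ (φ j).hom = C.i₁ j := by
    intro j; rw [hι₁, Category.assoc, Iso.inv_hom_id, Category.comp_id]
  have hL : Lifts Fr G ι₀ ι₁ := lifts_of_isCyl S C hC G hG φ hs ht ι₀ ι₁ h₀ h₁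
    (fun k hnk hk P hP => contr_cyl S C hC G hG φ hs ht hnk hk (fun m h1 => hPO k m hnk hk h1) P hP)
  obtain ⟨T⟩ := hp G hG ι₀ ι₁ hL
  exact ⟨{
    P := T.P
    e := fun j X => (T.e (Shape.globe j) X).trans (Iso.homCongr (φ j) (Iso.refl X))
    e_s := by
      intro j X g
      change (φ j).inv ≫ T.e _ X (Fr.map _ ≫ g) ≫ 𝟙 X = C.s j ≫ (φ (j + 1)).inv ≫ T.e _ X g ≫ 𝟙 X
      rw [T.e_left, Category.comp_id, Category.comp_id, ← Category.assoc (C.s j), hs',
        Category.assoc]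
    e_t := by
      intro j X g
      change (φ j).inv ≫ T.e _ X (Fr.map _ ≫ g) ≫ 𝟙 X = C.t j ≫ (φ (j + 1)).inv ≫ T.e _ X g ≫ 𝟙 X
      rw [T.e_left, Category.comp_id, Category.comp_id, ← Category.assoc (C.t j), ht',
        Category.assoc]
    e_right := by
      intro j X Y g h
      change (φ j).inv ≫ T.e _ Y (g ≫ T.P.map h) ≫ 𝟙 Y = ((φ j).inv ≫ T.e _ X g ≫ 𝟙 X) ≫ h
      rw [T.e_right, Category.comp_id, Category.comp_id, Category.assoc]
    ev₀ := T.ev₀
    ev₁ := T.ev₁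
    e_ev₀ := by
      intro j X g
      change g ≫ T.ev₀.app X = C.i₀ j ≫ (φ j).inv ≫ T.e _ X g ≫ 𝟙 X
      rw [T.e_ev₀, Category.comp_id, ← Category.assoc (C.i₀ j), ← hι₀]
    e_ev₁ := by
      intro j X g
      change g ≫ T.ev₁.app X = C.i₁ j ≫ (φ j).inv ≫ T.e _ X g ≫ 𝟙 X
      rw [T.e_ev₁, Category.comp_id, ← Category.assoc (C.i₁ j), ← hι₁] }⟩

end Crest.Agent.R248
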